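import Vale.Agent.P058.MathlibUsed
import Vale.Agent.P058.TransDefs
import Vale.Agent.P058.FinDefs
import Vale.Agent.P058.Defs

set_option linter.all false

section

section

namespace Vale.Agent.P058

/-- `A` folds to a copy of itself scaled by `t`: there are a finite group `G` of isometries of
some `ℝ^n`, a map `f` multiplying all distances of `A` by `t`, and for every point `x` of `A` an
element `g x` of `G`, such that `x ↦ g x (f x)` preserves all distances of `A`. -/
def FoldsTo {d : ℕ} (A : Set (EuclideanSpace ℝ (Fin d))) (t : ℝ) : Prop :=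
  ∃ (n : ℕ) (G : Subgroup (EuclideanSpace ℝ (Fin n) ≃ᵢ EuclideanSpace ℝ (Fin n)))
    (f : EuclideanSpace ℝ (Fin d) → EuclideanSpace ℝ (Fin n))
    (g : EuclideanSpace ℝ (Fin d) → EuclideanSpace ℝ (Fin n) ≃ᵢ EuclideanSpace ℝ (Fin n)),
    Finite G ∧ (∀ x ∈ A, g x ∈ G) ∧
    (∀ x ∈ A, ∀ y ∈ A, dist (f x) (f y) = t * dist x y) ∧
    (∀ x ∈ A, ∀ y ∈ A, dist (g x (f x)) (g y (f y)) = dist x y)

/-- The same with the group of all coordinate permutations of `ℝ^N`. -/
def PermFoldsTo {d : ℕ} (A : Set (EuclideanSpace ℝ (Fin d))) (t : ℝ) : Prop :=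
  ∃ (N : ℕ) (v : EuclideanSpace ℝ (Fin d) → Fin N → ℝ)
    (p : EuclideanSpace ℝ (Fin d) → Equiv.Perm (Fin N)),
    (∀ x ∈ A, ∀ y ∈ A, ∑ k, (v x k - v y k) ^ 2 = (t * dist x y) ^ 2) ∧
    (∀ x ∈ A, ∀ y ∈ A, ∑ k, (v x (p x k) - v y (p y k)) ^ 2 = dist x y ^ 2)

end Vale.Agent.P058
end
end

section

section

namespace Vale.Agent.P058

open Finset

/-- `D` is the squared distance function of a family of points of a Euclidean space. -/
def IsEuc {β : Type} (D : β → β → ℝ) : Prop :=
  ∃ (ι : Type) (_ : Fintype ι) (w : β → ι → ℝ), ∀ b b', D b b' = ∑ i, (w b i - w b' i) ^ 2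

/-- `(α, d, E)` is invariantly Ramsey: every finite colouring of a suitable finite Euclidean
family contains a copy of `(α, d)` on which the colour is constant on `E`-related points. -/
def IR {α : Type} (d : α → α → ℝ) (E : α → α → Prop) : Prop :=
  ∀ (κ : Type) [Finite κ], ∃ (β : Type) (_ : Finite β) (D : β → β → ℝ), IsEuc D ∧
    ∀ c : β → κ, ∃ φ : α → β, (∀ a a', D (φ a) (φ a') = d a a') ∧
      ∀ a a', E a a' → c (φ a) = c (φ a')

lemma IsEuc.self {β : Type} {D : β → β → ℝ} (h : IsEuc D) (b : β) : D b b = 0 := by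
  obtain ⟨ι, _, w, hw⟩ := h
  rw [hw]
  simp only [sub_self, ne_eq, OfNat.ofNat_ne_zero, not_false_eq_true, zero_pow, sum_const_zero]

lemma IsEuc.prod {β₁ β₂ : Type} {D₁ : β₁ → β₁ → ℝ} {D₂ : β₂ → β₂ → ℝ} (h₁ : IsEuc D₁)
    (h₂ : IsEuc D₂) : IsEuc (β := β₁ × β₂) (fun a b => D₁ a.1 b.1 + D₂ a.2 b.2) := by
  obtain ⟨ι₁, _, w₁, hw₁⟩ := h₁
  obtain ⟨ι₂, _, w₂, hw₂⟩ := h₂
  refine ⟨ι₁ ⊕ ι₂, inferInstance, fun b => Sum.elim (w₁ b.1) (w₂ b.2), fun b b' => ?_⟩
  simp only
  rw [hw₁, hw₂, Fintype.sum_sum_type]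
  simp only [Sum.elim_inl, Sum.elim_inr]

lemma IsEuc.scale {β : Type} {D : β → β → ℝ} (h : IsEuc D) {t : ℝ} (ht : 0 ≤ t) :
    IsEuc (fun a b => t * D a b) := by
  obtain ⟨ι, _, w, hw⟩ := h
  refine ⟨ι, inferInstance, fun b i => Real.sqrt t * w b i, fun b b' => ?_⟩
  simp only
  rw [hw, Finset.mul_sum]
  refine Finset.sum_congr rfl fun i _ => ?_
  have : Real.sqrt t ^ 2 = t := Real.sq_sqrt ht
  calc t * (w b i - w b' i) ^ 2 = Real.sqrt t ^ 2 * (w b i - w b' i) ^ 2 := by rw [this]
    _ = _ := by ring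

lemma IR.self {α : Type} {d : α → α → ℝ} {E : α → α → Prop} (h : IR d E) (a : α) :
    d a a = 0 := by
  obtain ⟨β, _, D, hD, H⟩ := h Unit
  obtain ⟨φ, hφ, -⟩ := H fun _ => ()
  rw [← hφ, hD.self]

lemma IR.of_isEuc {α : Type} [Finite α] {d : α → α → ℝ} (h : IsEuc d) :
    IR d (fun a b => a = b) := by
  intro κ _
  refine ⟨α, inferInstance, d, h, fun c => ⟨id, fun _ _ => rfl, ?_⟩⟩
  rintro a _ rfl
  rfl

lemma IR.mono {α : Type} {d : α → α → ℝ} {E E' : α → α → Prop} (h : IR d E)
    (hE : ∀ a b, E' a b → E a b) : IR d E' := by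
  intro κ _
  obtain ⟨β, hβ, D, hD, H⟩ := h κ
  refine ⟨β, hβ, D, hD, fun c => ?_⟩
  obtain ⟨φ, h1, h2⟩ := H c
  exact ⟨φ, h1, fun a b hab => h2 a b (hE a b hab)⟩

lemma IR.pullback {α α' : Type} {d : α → α → ℝ} {E : α → α → Prop} {d' : α' → α' → ℝ}
    {E' : α' → α' → Prop} (h : IR d' E') (ψ : α → α')
    (hd : ∀ a b, d' (ψ a) (ψ b) = d a b) (hE : ∀ a b, E a b → E' (ψ a) (ψ b)) : IR d E := by
  intro κ _
  obtain ⟨β, hβ, D, hD, H⟩ := h κ
  refine ⟨β, hβ, D, hD, fun c => ?_⟩
  obtain ⟨φ, h1, h2⟩ := H c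
  exact ⟨fun a => φ (ψ a), fun a b => by rw [h1, hd], fun a b hab => h2 _ _ (hE a b hab)⟩

lemma IR.scale {α : Type} {d : α → α → ℝ} {E : α → α → Prop} (h : IR d E) {t : ℝ}
    (ht : 0 ≤ t) : IR (fun a b => t * d a b) E := by
  intro κ _
  obtain ⟨β, hβ, D, hD, H⟩ := h κ
  refine ⟨β, hβ, fun a b => t * D a b, hD.scale ht, fun c => ?_⟩
  obtain ⟨φ, h1, h2⟩ := H c
  exact ⟨φ, fun a b => by simp only [h1], h2⟩

lemma IR.prod {α₁ α₂ : Type} [Finite α₂] {d₁ : α₁ → α₁ → ℝ} {d₂ : α₂ → α₂ → ℝ}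
    {E₁ : α₁ → α₁ → Prop} {E₂ : α₂ → α₂ → Prop} (h₁ : IR d₁ E₁) (h₂ : IR d₂ E₂) :
    IR (α := α₁ × α₂) (fun a b => d₁ a.1 b.1 + d₂ a.2 b.2)
      (fun a b => E₁ a.1 b.1 ∧ E₂ a.2 b.2) := by
  intro κ _
  obtain ⟨β₁, hβ₁, D₁, hD₁, H₁⟩ := h₁ (α₂ → κ)
  obtain ⟨β₂, hβ₂, D₂, hD₂, H₂⟩ := h₂ (β₁ → κ)
  refine ⟨β₁ × β₂, inferInstance, _, hD₁.prod hD₂, fun c => ?_⟩
  obtain ⟨φ₂, h2, h2'⟩ := H₂ fun b₂ b₁ => c (b₁, b₂)
  obtain ⟨φ₁, h1, h1'⟩ := H₁ fun b₁ a₂ => c (b₁, φ₂ a₂)
  refine ⟨fun a => (φ₁ a.1, φ₂ a.2), fun a b => ?_, fun a b hab => ?_⟩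
  · simp only [h1, h2]
  · have e1 := congrFun (h1' a.1 b.1 hab.1) a.2
    have e2 := congrFun (h2' a.2 b.2 hab.2) (φ₁ b.1)
    simp only at e1 e2 ⊢
    rw [e1, e2]

lemma IR.pi {α : Type} [Finite α] {E : α → α → Prop} : ∀ {n : ℕ} {d : Fin n → α → α → ℝ},
    (∀ i, IR (d i) E) →
    IR (α := Fin n → α) (fun a b => ∑ i, d i (a i) (b i)) (fun a b => ∀ i, E (a i) (b i))
  | 0, d, _ => by
    intro κ _
    refine ⟨Unit, inferInstance, fun _ _ => 0, ⟨Empty, inferInstance, fun _ _ => 0, ?_⟩,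
      fun c => ⟨fun _ => (), ?_, ?_⟩⟩
    · simp
    · simp
    · simp
  | n + 1, d, h => by
    have h1 := (h 0).prod (IR.pi fun i : Fin n => h i.succ)
    refine h1.pullback (fun a => (a 0, fun i => a i.succ)) (fun a b => ?_) (fun a b hab => ?_)
    · simp only
      rw [Fin.sum_univ_succ]
    · exact ⟨hab 0, fun i => hab i.succ⟩

lemma IR.pi' {ι : Type} [Fintype ι] {α : Type} [Finite α] {E : α → α → Prop}
    {d : ι → α → α → ℝ} (h : ∀ i, IR (d i) E) :
    IR (α := ι → α) (fun a b => ∑ i, d i (a i) (b i)) (fun a b => ∀ i, E (a i) (b i)) := by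
  let e := (Fintype.equivFin ι).symm
  have h1 := IR.pi (fun i => h (e i))
  refine h1.pullback (fun a i => a (e i)) (fun a b => ?_) (fun a b hab i => hab _)
  exact Equiv.sum_comp e (fun i => d i (a i) (b i))

/-- Merging the classes of `a₀` and `f a₀`. -/
lemma IR.merge {α : Type} [Finite α] {d : α → α → ℝ} {E : α → α → Prop} (hE : Equivalence E)
    (h : IR d E) (f : α → α) (hf : ∀ a b, d (f a) (f b) = d a b)
    (hfE : ∀ a b, E a b → E (f a) (f b)) (hff : ∀ a, E (f (f a)) a) (a₀ : α) :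
    IR d (fun a b => E a b ∨ ((E a a₀ ∨ E a (f a₀)) ∧ (E b a₀ ∨ E b (f a₀)))) := by
  classical
  intro κ _
  have h1 : IR (α := Fin (Nat.card κ + 1) → α) (fun a b => ∑ i, (1 / 2) * d (a i) (b i))
      (fun a b => ∀ i, E (a i) (b i)) := IR.pi fun _ => h.scale (by norm_num)
  obtain ⟨β, hβ, D, hD, H⟩ := h1 κ
  refine ⟨β, hβ, D, hD, fun c => ?_⟩
  obtain ⟨φ, hφ1, hφ2⟩ := H c
  have : Fintype κ := Fintype.ofFinite κ
  obtain ⟨j, l, hjl, hc⟩ := Fintype.exists_ne_map_eq_of_card_lt
    (fun j : Fin (Nat.card κ + 1) => c (φ fun i => if i = j then a₀ else f a₀))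
    (by rw [Fintype.card_fin, Nat.card_eq_fintype_card]; omega)
  let ψ : α → Fin (Nat.card κ + 1) → α :=
    fun a i => if i = j then a else if i = l then f a else f a₀
  have hψ : ∀ a b, E a b → c (φ (ψ a)) = c (φ (ψ b)) := by
    intro a b hab
    refine hφ2 _ _ fun i => ?_
    simp only [ψ]
    split_ifs
    · exact hab
    · exact hfE _ _ hab
    · exact hE.refl _
  have hψ1 : c (φ (ψ a₀)) = c (φ fun i => if i = j then a₀ else f a₀) := by
    congr 2
    funext i
    simp only [ψ]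
    split_ifs <;> rfl
  have hψ2 : c (φ (ψ (f a₀))) = c (φ fun i => if i = l then a₀ else f a₀) := by
    refine hφ2 _ _ fun i => ?_
    simp only [ψ]
    split_ifs with h1 h2 h2
    · exact absurd (h1.symm.trans h2) hjl
    · exact hE.refl _
    · exact hff _
    · exact hE.refl _
  have hψ3 : ∀ a, (E a a₀ ∨ E a (f a₀)) → c (φ (ψ a)) = c (φ (ψ a₀)) := by
    rintro a (ha | ha)
    · exact hψ _ _ ha
    · rw [hψ _ _ ha, hψ2, hψ1, hc]
  refine ⟨fun a => φ (ψ a), fun a b => ?_, ?_⟩
  · simp only [hφ1]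
    have : ∀ i, (1 / 2 : ℝ) * d (ψ a i) (ψ b i) =
        (if i = j then (1 / 2) * d a b else 0) + (if i = l then (1 / 2) * d a b else 0) := by
      intro i
      simp only [ψ]
      split_ifs with h1 h2
      · exact absurd (h1.symm.trans h2) hjl
      · simp
      · rw [hf]; simp
      · rw [h.self]; simp
    rw [Finset.sum_congr rfl fun i _ => this i, Finset.sum_add_distrib]
    simp only [one_div, sum_ite_eq', mem_univ, ↓reduceIte]
    ring
  · rintro a b (hab | ⟨ha, hb⟩)
    · exact hψ a b hab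
    · simp only
      rw [hψ3 a ha, hψ3 b hb]

/-- Adjoining `f` to the relation `E`. -/
lemma IR.extend {α : Type} [Finite α] {d : α → α → ℝ} {E : α → α → Prop} (hE : Equivalence E)
    (h : IR d E) (f : α → α) (hf : ∀ a b, d (f a) (f b) = d a b)
    (hfE : ∀ a b, E a b → E (f a) (f b)) (hff : ∀ a, E (f (f a)) a) :
    ∃ E' : α → α → Prop, Equivalence E' ∧ (∀ a b, E a b → E' a b) ∧ (∀ a, E' a (f a)) ∧
      IR d E' := by
  classical
  have : Fintype α := Fintype.ofFinite α
  have key : ∀ s : Finset α, ∃ E' : α → α → Prop, Equivalence E' ∧ (∀ a b, E a b → E' a b) ∧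
      (∀ a b, E' a b → E' (f a) (f b)) ∧ (∀ a ∈ s, E' a (f a)) ∧ IR d E' := by
    intro s
    induction s using Finset.induction_on with
    | empty => exact ⟨E, hE, fun _ _ h => h, hfE, by simp, h⟩
    | insert a₀ s _ ih =>
      obtain ⟨E', hE', hEE', hfE', hs, hIR⟩ := ih
      have hff' : ∀ a, E' (f (f a)) a := fun a => hEE' _ _ (hff a)
      refine ⟨_, ?_, ?_, ?_, ?_, hIR.merge hE' f hf hfE' hff' a₀⟩
      · refine ⟨fun a => Or.inl (hE'.refl a), ?_, ?_⟩
        · rintro a b (hab | ⟨ha, hb⟩)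
          · exact Or.inl (hE'.symm hab)
          · exact Or.inr ⟨hb, ha⟩
        · rintro a b c (hab | ⟨ha, hb⟩) (hbc | ⟨hb', hc⟩)
          · exact Or.inl (hE'.trans hab hbc)
          · refine Or.inr ⟨?_, hc⟩
            rcases hb' with hb' | hb'
            · exact Or.inl (hE'.trans hab hb')
            · exact Or.inr (hE'.trans hab hb')
          · refine Or.inr ⟨ha, ?_⟩
            rcases hb with hb | hb
            · exact Or.inl (hE'.trans (hE'.symm hbc) hb)
            · exact Or.inr (hE'.trans (hE'.symm hbc) hb)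
          · exact Or.inr ⟨ha, hc⟩
      · exact fun a b hab => Or.inl (hEE' _ _ hab)
      · have key : ∀ a, (E' a a₀ ∨ E' a (f a₀)) → (E' (f a) a₀ ∨ E' (f a) (f a₀)) := by
          rintro a (ha | ha)
          · exact Or.inr (hfE' _ _ ha)
          · exact Or.inl (hE'.trans (hfE' _ _ ha) (hff' _))
        rintro a b (hab | ⟨ha, hb⟩)
        · exact Or.inl (hfE' _ _ hab)
        · exact Or.inr ⟨key a ha, key b hb⟩
      · intro a ha
        rcases Finset.mem_insert.1 ha with rfl | ha
        · exact Or.inr ⟨Or.inl (hE'.refl _), Or.inr (hE'.refl _)⟩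
        · exact Or.inl (hs a ha)
  obtain ⟨E', h1, h2, -, h4, h5⟩ := key Finset.univ
  exact ⟨E', h1, h2, fun a => h4 a (Finset.mem_univ a), h5⟩

end Vale.Agent.P058
end
end

section

section

namespace Vale.Agent.P058

open Finset

/-- `δ` (a squared distance function on `m`) can be shrunk by the factor `η` modulo an
invariance relation. -/
def CanShrink {m : Type} (δ : m → m → ℝ) (η : ℝ) : Prop :=
  ∃ (α : Type) (_ : Finite α) (d : α → α → ℝ) (E : α → α → Prop) (v u : m → α), IR d E ∧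
    (∀ a, E a a) ∧ (∀ i, E (v i) (u i)) ∧ (∀ i l, d (v i) (v l) = η * δ i l) ∧
    (∀ i l, d (u i) (u l) = δ i l)

lemma scales (n : ℕ) (η : ℝ) (h0 : 0 ≤ η) (h1 : η < 1 / ((n : ℝ) ^ 2 + 1)) :
    ∃ (off : ℝ) (s : Fin n → ℝ), (∀ t, 0 ≤ s t) ∧ (∑ t, s t * η = off) ∧
      ∀ k : Fin n, ∑ t, s t * (if t = k then 1 else η) = 1 - (k : ℕ) * off := by
  have hn : (0 : ℝ) ≤ n := Nat.cast_nonneg n
  have hη : η * ((n : ℝ) ^ 2 + 1) < 1 := by
    rwa [lt_div_iff₀ (by positivity)] at h1
  have hη1 : η < 1 := by nlinarith only [hη]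
  set S : ℝ := ∑ t : Fin n, ((t : ℕ) + 1 : ℝ) with hS
  have hS0 : 0 ≤ S := Finset.sum_nonneg fun t _ => by (clear * -; positivity)
  have hden : 0 < 1 - η + η * S := by nlinarith only [hη1, h0, hS0]
  set off : ℝ := η * n / (1 - η + η * S) with hoff
  have hoff0 : 0 ≤ off := by (clear * - h0 hη1; positivity)
  have hoff1 : off * (1 - η + η * S) = η * n := by
    rw [hoff]; (clear * - hden; field_simp)
  have hoff2 : (n : ℝ) * off ≤ 1 := by
    have e1 : off * (1 - η) ≤ η * n := by nlinarith only [hoff1, mul_nonneg hoff0 (mul_nonneg h0 hS0)]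
    have e2 : (n * off) * (1 - η) ≤ η * n ^ 2 := by nlinarith only [e1]
    by_contra hcon
    push Not at hcon
    nlinarith only [hη, e2, hcon]
  have hsum : ∑ t : Fin n, (1 - ((t : ℕ) + 1) * off) / (1 - η) * η = off := by
    have hne : (1 - η) ≠ 0 := by linarith only [hη1]
    have : ∑ t : Fin n, (1 - ((t : ℕ) + 1) * off) / (1 - η) * η =
        (n - S * off) * η / (1 - η) := by
      rw [← Finset.sum_mul, ← Finset.sum_div, Finset.sum_sub_distrib, ← Finset.sum_mul, ← hS]
      simp only [sum_const, card_univ, Fintype.card_fin, nsmul_eq_mul, mul_one]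
      ring
    rw [this, div_eq_iff hne]
    linarith only [hoff1]
  refine ⟨off, fun t => (1 - ((t : ℕ) + 1) * off) / (1 - η), fun t => ?_, hsum, fun k => ?_⟩
  · refine div_nonneg ?_ (by linarith only [hη1])
    have : ((t : ℕ) + 1 : ℝ) ≤ n := by
      have := t.2
      exact_mod_cast this
    nlinarith only [hoff2, this]
  · have hne : (1 - η) ≠ 0 := by linarith only [hη1]
    have : ∀ t : Fin n, (1 - ((t : ℕ) + 1) * off) / (1 - η) * (if t = k then 1 else η) =
        (1 - ((t : ℕ) + 1) * off) / (1 - η) * η +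
          (if t = k then (1 - ((k : ℕ) + 1) * off) else 0) := by
      intro t
      split_ifs with h
      · subst h
        field_simp
        ring
      · ring
    rw [Finset.sum_congr rfl fun t _ => this t, Finset.sum_add_distrib, hsum]
    simp only [sum_ite_eq', mem_univ, ↓reduceIte]
    ring

theorem IR.of_shrink {m : Type} [Finite m] {δ : m → m → ℝ}
    (h : ∀ ε : ℝ, 0 < ε → ∃ η, 0 ≤ η ∧ η < ε ∧ CanShrink δ η) :
    IR δ (fun _ _ => True) := by
  classical
  intro κ _
  obtain ⟨ι, _, hι⟩ := Combinatorics.Line.exists_mono_in_high_dimension m κ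
  set n := Fintype.card ι with hn
  obtain ⟨η, h0, h1, α, _, d, E, v, u, hIR, hrefl, hvu, hv, hu⟩ :=
    h (1 / ((n : ℝ) ^ 2 + 1)) (by (clear * -; positivity))
  obtain ⟨off, s, hs, hoff, hon⟩ := scales n η h0 h1
  have hIR1 : IR (α := Fin n → α) (fun a b => ∑ t, s t * d (a t) (b t))
      (fun a b => ∀ t, E (a t) (b t)) := IR.pi fun t => hIR.scale (hs t)
  have hIR2 : IR (α := ι → Fin n → α) (fun a b => ∑ j, ∑ t, s t * d (a j t) (b j t))
      (fun a b => ∀ j, ∀ t, E (a j t) (b j t)) := IR.pi' fun _ => hIR1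
  obtain ⟨β, hβ, D, hD, H⟩ := hIR2 κ
  refine ⟨β, hβ, D, hD, fun c => ?_⟩
  obtain ⟨φ, hφ1, hφ2⟩ := H c
  obtain ⟨l, q, hq⟩ := hι fun w => c (φ fun j _ => v (w j))
  obtain ⟨j₀, hj₀⟩ := l.proper
  set J := (univ.erase j₀).filter (fun j => l.idxFun j = none) with hJ
  have hJn : J.card < n := by
    have e1 : J.card ≤ (univ.erase j₀).card := Finset.card_filter_le _ _
    rw [Finset.card_erase_of_mem (mem_univ j₀), Finset.card_univ] at e1
    have : 0 < n := Fintype.card_pos_iff.2 ⟨j₀⟩
    omega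
  let k : Fin n := ⟨J.card, hJn⟩
  let Φ : m → ι → Fin n → α := fun i j t => if j = j₀ ∧ t = k then u i else v (l i j)
  have hd0 : ∀ a, d a a = 0 := hIR.self
  refine ⟨fun i => φ (Φ i), fun i i' => ?_, fun i i' _ => ?_⟩
  · simp only [hφ1]
    rw [← Finset.add_sum_erase _ _ (mem_univ j₀)]
    have e1 : ∑ t, s t * d (Φ i j₀ t) (Φ i' j₀ t) = (1 - (J.card : ℝ) * off) * δ i i' := by
      have := hon k
      simp only [k] at this
      rw [← this, Finset.sum_mul]
      refine Finset.sum_congr rfl fun t _ => ?_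
      simp only [Φ, l.apply_none _ _ hj₀, true_and]
      split_ifs with ht
      · rw [hu]; ring
      · rw [hv]; ring
    have e2 : ∀ j ∈ univ.erase j₀, ∑ t, s t * d (Φ i j t) (Φ i' j t) =
        if l.idxFun j = none then off * δ i i' else 0 := by
      intro j hj
      have hj' : j ≠ j₀ := Finset.ne_of_mem_erase hj
      split_ifs with hjn
      · rw [← hoff, Finset.sum_mul]
        refine Finset.sum_congr rfl fun t _ => ?_
        simp only [Φ, l.apply_none _ _ hjn, hj', false_and, if_false]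
        rw [hv]; ring
      · obtain ⟨z, hz⟩ := Option.ne_none_iff_exists'.1 hjn
        refine Finset.sum_eq_zero fun t _ => ?_
        simp only [Φ, Combinatorics.Line.apply_some hz, hj', false_and, if_false]
        rw [hd0]; ring
    rw [e1, Finset.sum_congr rfl e2, ← Finset.sum_filter, Finset.sum_const, ← hJ,
      nsmul_eq_mul]
    ring
  · have key : ∀ i, c (φ (Φ i)) = q := by
      intro i
      rw [← hq i]
      refine (hφ2 _ _ fun j t => ?_).symm
      simp only [Φ]
      split_ifs with h1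
      · rw [h1.1, l.apply_none _ _ hj₀]
        exact hvu i
      · exact hrefl _
    rw [key, key]

end Vale.Agent.P058
end
end

section

section

/-!
Auxiliary notions for the proof that finite subtransitive sets are Ramsey.
`FreeGroup (X ⊕ G)` has constants `inl y` and variables `inr g`.
-/

namespace Vale.Agent.P058.Sub

variable {X G : Type*} [Group G] [MulAction G X]

/-- evaluation at the point `x`: the constant `y` goes to `y`, the variable `g` to `g • x` -/
def ev (x : X) : FreeGroup (X ⊕ G) →* FreeGroup X :=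
  FreeGroup.lift (Sum.elim FreeGroup.of fun g => FreeGroup.of (g • x))

/-- the (signed) number of variables -/
def eps : FreeGroup (X ⊕ G) →* Multiplicative ℤ :=
  FreeGroup.lift (Sum.elim (fun _ => 1) fun _ => Multiplicative.ofAdd 1)

/-- evaluation of a positive word (constants are arbitrary elements of `FreeGroup X`) -/
def pev (x : X) (W : List (FreeGroup X ⊕ G)) : FreeGroup X :=
  (W.map (Sum.elim id fun g => FreeGroup.of (g • x))).prod

/-- number of variable letters -/
def cnt {α : Type*} (W : List (α ⊕ G)) : ℕ := W.countP Sum.isRight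

/-- evaluation of a pattern word over `X ⊕ G` at the point `x` -/
def wev (x : X) (W : List (X ⊕ G)) : List X := W.map (Sum.elim id fun g => g • x)

end Vale.Agent.P058.Sub
end
end

section

section

/-!
Words: the ultrafilter / Hales-Jewett part of the proof that finite subtransitive sets are Ramsey.
-/

namespace Vale.Agent.P058.Sub

open Filter Combinatorics

attribute [local instance] Ultrafilter.mul Ultrafilter.semigroup

section MinIdem

variable {M : Type*} [Semigroup M]

/-- There is a minimal closed left ideal in `β M`. -/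
theorem exists_min_left_ideal [Nonempty M] :
    ∃ L : Set (Ultrafilter M), Minimal (· ∈ {L : Set (Ultrafilter M) |
      IsClosed L ∧ L.Nonempty ∧ ∀ q : Ultrafilter M, ∀ l ∈ L, q * l ∈ L}) L := by
  refine zorn_superset _ fun c hcs hc => ?_
  refine
    ⟨⋂₀ c, ⟨isClosed_sInter fun t ht => (hcs ht).1, ?_, fun q l hl => ?_⟩, fun s hs =>
      Set.sInter_subset_of_mem hs⟩
  · obtain rfl | hcnemp := c.eq_empty_or_nonempty
    · rw [Set.sInter_empty]
      apply Set.univ_nonempty
    convert!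
      @IsCompact.nonempty_iInter_of_directed_nonempty_isCompact_isClosed _ _ _ hcnemp.coe_sort
        ((↑) : c → Set (Ultrafilter M)) ?_ ?_ ?_ ?_
    · exact Set.sInter_eq_iInter
    · refine DirectedOn.directed_val (IsChain.directedOn hc.symm)
    exacts [fun i => (hcs i.prop).2.1, fun i => (hcs i.prop).1.isCompact, fun i => (hcs i.prop).1]
  · rw [Set.mem_sInter]
    exact fun t ht => (hcs ht).2.2 q l (Set.mem_sInter.mp hl t ht)

/-- There is an idempotent `p` in `β M` such that `p (β M) p` is a group. -/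
theorem exists_min_idem [Nonempty M] :
    ∃ p : Ultrafilter M, p * p = p ∧ ∀ q : Ultrafilter M, p * q = q → q * p = q →
      ∃ q' : Ultrafilter M, p * q' = q' ∧ q' * p = q' ∧ q' * q = p := by
  obtain ⟨L, hL⟩ := exists_min_left_ideal (M := M)
  obtain ⟨Lclosed, Lne, Lmul⟩ := hL.prop
  obtain ⟨p, hpL, hpp⟩ := exists_idempotent_in_compact_subsemigroup
    (Ultrafilter.continuous_mul_left (M := M)) L Lne Lclosed.isCompact
    (fun x _ y hy => Lmul x y hy)
  have key : ∀ q ∈ L, ∀ l ∈ L, ∃ u : Ultrafilter M, u * q = l := by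
    intro q hq l hl
    have h1 : Set.range (· * q) = L := by
      apply hL.eq_of_subset
      · refine ⟨?_, ⟨p * q, ⟨p, rfl⟩⟩, ?_⟩
        · exact (isCompact_range (Ultrafilter.continuous_mul_left q)).isClosed
        · rintro q' _ ⟨m, rfl⟩
          exact ⟨q' * m, mul_assoc _ _ _⟩
      · rintro _ ⟨m, rfl⟩
        exact Lmul m q hq
    rw [← h1] at hl
    exact hl
  refine ⟨p, hpp, fun q hpq hqp => ?_⟩
  have hqL : q ∈ L := by
    rw [← hqp]
    exact Lmul q p hpL
  obtain ⟨u, hu⟩ := key q hqL p hpL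
  refine ⟨p * u * p, ?_, ?_, ?_⟩
  · rw [← mul_assoc, ← mul_assoc, hpp]
  · rw [mul_assoc, hpp]
  · rw [mul_assoc, hpq, mul_assoc, hu, hpp]

/-- The group inside `β M`. -/
theorem exists_group {M : Type*} [Semigroup M] [Nonempty M] :
    ∃ (p : Ultrafilter M) (_ : Group {q : Ultrafilter M // p * q = q ∧ q * p = q}),
      (∀ a b : {q : Ultrafilter M // p * q = q ∧ q * p = q}, (a * b).1 = a.1 * b.1) ∧
      ∀ q : Ultrafilter M, p * (p * q * p) = p * q * p ∧ (p * q * p) * p = p * q * p := by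
  obtain ⟨p, hpp, hp⟩ := exists_min_idem (M := M)
  choose inv h1 h2 h3 using hp
  let mulI : Mul {q : Ultrafilter M // p * q = q ∧ q * p = q} :=
    ⟨fun a b => ⟨a.1 * b.1, by rw [← mul_assoc, a.2.1], by rw [mul_assoc, b.2.2]⟩⟩
  let oneI : One {q : Ultrafilter M // p * q = q ∧ q * p = q} := ⟨⟨p, hpp, hpp⟩⟩
  let invI : Inv {q : Ultrafilter M // p * q = q ∧ q * p = q} :=
    ⟨fun a => ⟨inv a.1 a.2.1 a.2.2, h1 _ _ _, h2 _ _ _⟩⟩
  refine ⟨p, Group.ofLeftAxioms (fun a b c => Subtype.ext (mul_assoc _ _ _))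
    (fun a => Subtype.ext a.2.1) (fun a => Subtype.ext (h3 _ _ _)), fun a b => rfl, fun q => ?_⟩
  constructor
  · rw [← mul_assoc, ← mul_assoc, hpp]
  · rw [mul_assoc, hpp]

end MinIdem

section RealSec

variable {X : Type*} (G : Type*) [Group G] [MulAction G X]

/-- `f : X → β X*` can be realised by patterns with exactly `N` variables. -/
def Realz (f : X → Ultrafilter (FreeMonoid X)) (N : ℕ) : Prop :=
  ∀ A : X → Set (FreeMonoid X), (∀ x, A x ∈ f x) →
    ∃ W : List (X ⊕ G), cnt W = N ∧ ∀ x, FreeMonoid.ofList (wev x W) ∈ A x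

theorem realz_const [Finite X] (q : Ultrafilter (FreeMonoid X)) :
    Realz G (fun _ : X => q) 0 := by
  intro A hA
  have h : (⋂ x, A x) ∈ q := by
    rw [← Ultrafilter.mem_coe, Filter.iInter_mem]
    exact hA
  obtain ⟨w, hw⟩ := q.nonempty_of_mem h
  refine ⟨(FreeMonoid.toList w).map Sum.inl, ?_, fun x => ?_⟩
  · simp [cnt, List.countP_map, Function.comp_def]
  · have : wev (G := G) x ((FreeMonoid.toList w).map Sum.inl) = FreeMonoid.toList w := by
      simp [wev, Function.comp_def]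
    rw [this]
    exact Set.mem_iInter.mp hw x

theorem realz_smul {f : X → Ultrafilter (FreeMonoid X)} {N : ℕ} (h : Realz G f N) (g : G) :
    Realz G (fun x => f (g • x)) N := by
  intro A hA
  obtain ⟨W, hW, hW'⟩ := h (fun y => A (g⁻¹ • y)) (fun y => by
    have := hA (g⁻¹ • y)
    simpa using this)
  refine ⟨W.map (Sum.map id fun h => h * g), ?_, fun x => ?_⟩
  · rw [← hW]
    simp only [cnt, List.countP_map]
    congr 1
    funext a
    rcases a with a | a <;> simp
  · have h1 := hW' (g • x)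
    simp only [inv_smul_smul] at h1
    have h2 : wev x (W.map (Sum.map id fun h => h * g)) = wev (g • x) W := by
      simp only [wev, List.map_map]
      apply List.map_congr_left
      intro a _
      rcases a with a | a <;> simp [mul_smul]
    rw [h2]
    exact h1

theorem realz_mul {f f' : X → Ultrafilter (FreeMonoid X)} {N N' : ℕ} (h : Realz G f N)
    (h' : Realz G f' N') : Realz G (fun x => f x * f' x) (N + N') := by
  intro A hA
  have hA' : ∀ x, ∀ᶠ m in (f x : Filter (FreeMonoid X)),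
      ∀ᶠ m' in (f' x : Filter (FreeMonoid X)), m * m' ∈ A x := by
    intro x
    have := hA x
    rw [← Ultrafilter.mem_coe] at this
    exact (Ultrafilter.eventually_mul (f x) (f' x) (· ∈ A x)).1 this
  obtain ⟨W, hW, hW'⟩ := h (fun x => {m | ∀ᶠ m' in (f' x : Filter (FreeMonoid X)), m * m' ∈ A x})
    hA'
  obtain ⟨W', hW1, hW1'⟩ := h' (fun x => {m' | FreeMonoid.ofList (wev x W) * m' ∈ A x}) hW'
  refine ⟨W ++ W', ?_, fun x => ?_⟩
  · simp only [cnt, List.countP_append] at *
    rw [hW, hW1]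
  · have : wev x (W ++ W') = wev x W ++ wev x W' := by simp [wev]
    rw [this, FreeMonoid.ofList_append]
    exact hW1' x

theorem realz_one (f : X → Ultrafilter (FreeMonoid X))
    (hf : ∀ x, f x = pure (FreeMonoid.of x)) : Realz G f 1 := by
  intro A hA
  refine ⟨[Sum.inr 1], by simp [cnt], fun x => ?_⟩
  have := hA x
  rw [hf x] at this
  have h2 : wev x [(Sum.inr 1 : X ⊕ G)] = [x] := by simp [wev]
  rw [h2]
  exact this

end RealSec

section Flex

variable {X : Type*} (G : Type*) [Group G] [MulAction G X]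
variable {Γ : Type*} [Group Γ] (φ : Γ → Ultrafilter (FreeMonoid X))

/-- `θ` can be realised with `a + i D` variables for all `i ≤ I`. -/
def Flex (θ : X → Γ) (a D I : ℕ) : Prop :=
  ∀ i ≤ I, Realz G (fun x => φ (θ x)) (a + i * D)

variable {φ}

omit [Group Γ] in
theorem flex_const [Finite X] (u : Γ) (D : ℕ) : Flex G φ (fun _ : X => u) 0 D 0 := by
  intro i hi
  obtain rfl : i = 0 := by omega
  simpa using realz_const (X := X) G (φ u)

theorem flex_mul (hφ : ∀ a b : Γ, φ (a * b) = φ a * φ b) {θ θ' : X → Γ} {a a' D I I' : ℕ}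
    (h : Flex G φ θ a D I) (h' : Flex G φ θ' a' D I') :
    Flex G φ (fun x => θ x * θ' x) (a + a') D (I + I') := by
  intro i hi
  obtain ⟨i1, i2, h1, h2, rfl⟩ : ∃ i1 i2, i1 ≤ I ∧ i2 ≤ I' ∧ i = i1 + i2 :=
    ⟨min i I, i - min i I, by omega, by omega, by omega⟩
  have := realz_mul G (h i1 h1) (h' i2 h2)
  have e : a + a' + (i1 + i2) * D = a + i1 * D + (a' + i2 * D) := by ring
  rw [e]
  simpa only [hφ] using this

omit [Group Γ] in
theorem flex_smul {θ : X → Γ} {a D I : ℕ} (h : Flex G φ θ a D I) (g : G) :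
    Flex G φ (fun x => θ (g • x)) a D I :=
  fun i hi => realz_smul G (h i hi) g

theorem flex_pev [Finite X] (hφ : ∀ a b : Γ, φ (a * b) = φ a * φ b) {θ : X → Γ} {a D I : ℕ}
    (h : Flex G φ θ a D I) (s : List (FreeGroup X ⊕ G)) :
    Flex G φ (fun x => FreeGroup.lift θ (pev x s)) (cnt s * a) D (cnt s * I) := by
  induction s with
  | nil =>
    simpa only [pev, List.map_nil, List.prod_nil, map_one, cnt, List.countP_nil, zero_mul] using     flex_const (X := X) G (φ := φ) (1 : Γ) D
  | cons l s ih =>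
    rcases l with u | g
    · have := flex_mul G hφ (flex_const (X := X) G (φ := φ) (FreeGroup.lift θ u) D) ih
      simpa [pev, cnt, List.countP_cons] using this
    · have := flex_mul G hφ (flex_smul G h g) ih
      have e1 : cnt (Sum.inr g :: s) * a = a + cnt s * a := by
        simp [cnt, List.countP_cons]; ring
      have e2 : cnt (Sum.inr g :: s) * I = I + cnt s * I := by
        simp [cnt, List.countP_cons]; ring
      rw [e1, e2]
      simpa [pev] using this

/-- the main induction -/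
theorem flex_tower [Finite X] (hφ : ∀ a b : Γ, φ (a * b) = φ a * φ b) {θ : X → Γ}
    (hθ : Realz G (fun x => φ (θ x)) 1)
    {s t : List (FreeGroup X ⊕ G)} (hst : ∀ x : X, pev x s = pev x t) (hlt : cnt t < cnt s)
    (j : ℕ) :
    ∃ (θ' : X → Γ) (I : ℕ), Flex G φ θ' (cnt t ^ j) (cnt s - cnt t) I ∧
      cnt t ^ j + I * (cnt s - cnt t) = cnt s ^ j ∧ cnt t ^ j ≤ cnt t * I + 1 := by
  obtain ⟨D, hD⟩ : ∃ D, cnt s = cnt t + D := ⟨cnt s - cnt t, by omega⟩
  have hD' : cnt s - cnt t = D := by omega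
  rw [hD']
  induction j with
  | zero =>
    refine ⟨θ, 0, ?_, by simp, by simp⟩
    intro i hi
    obtain rfl : i = 0 := by omega
    simpa using hθ
  | succ j ih =>
    obtain ⟨θ', I, hF, hI, hI'⟩ := ih
    refine ⟨fun x => FreeGroup.lift θ' (pev x t), cnt t ^ j + cnt s * I, ?_, ?_, ?_⟩
    · have h1 := flex_pev G hφ hF t
      have h2 := flex_pev G hφ hF s
      intro i hi
      by_cases hc : i ≤ cnt t * I
      · have := h1 i hc
        rwa [pow_succ']
      · have h3 : cnt t ^ j ≤ i := by omega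
        have h4 := h2 (i - cnt t ^ j) (by omega)
        simp only [hst] at h4
        have e : cnt s * cnt t ^ j + (i - cnt t ^ j) * D = cnt t ^ (j + 1) + i * D := by
          obtain ⟨i', rfl⟩ := Nat.exists_eq_add_of_le h3
          rw [Nat.add_sub_cancel_left, hD]
          ring
        rwa [e] at h4
    · rw [pow_succ, pow_succ, ← hI, hD]
      have := hI
      rw [hD] at this
      nlinarith only []
    · rw [pow_succ']
      have : cnt t * cnt t ^ j ≤ cnt t * (cnt t ^ j + cnt s * I) :=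
        Nat.mul_le_mul_left _ (Nat.le_add_right _ _)
      omega

/-- products along a combinatorial line -/
theorem flex_line [Finite X] (hφ : ∀ a b : Γ, φ (a * b) = φ a * φ b) {θ : X → Γ} {a D I : ℕ}
    (h : Flex G φ θ a D I) {ι : Type*} (l : Line X ι) (L : List ι) :
    Flex G φ (fun x => (L.map fun i => θ (l x i)).prod)
      (L.countP (fun i => (l.idxFun i).isNone) * a) D
      (L.countP (fun i => (l.idxFun i).isNone) * I) := by
  induction L with
  | nil => simpa using flex_const (X := X) G (φ := φ) (1 : Γ) D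
  | cons i L ih =>
    rcases hi : l.idxFun i with _ | y
    · have := flex_mul G hφ h ih
      have e1 : (i :: L).countP (fun i => (l.idxFun i).isNone) * a =
          a + L.countP (fun i => (l.idxFun i).isNone) * a := by
        simp [hi]; ring
      have e2 : (i :: L).countP (fun i => (l.idxFun i).isNone) * I =
          I + L.countP (fun i => (l.idxFun i).isNone) * I := by
        simp [hi]; ring
      rw [e1, e2]
      simpa [hi] using this
    · have := flex_mul G hφ (flex_const (X := X) G (φ := φ) (θ y) D) ih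
      simpa [List.countP_cons, hi] using this

end Flex

/-- The group inside `β M`, abstractly. -/
theorem exists_group'.{u} {M : Type u} [Semigroup M] [Nonempty M] :
    ∃ (Γ : Type u) (_ : Group Γ) (φ : Γ → Ultrafilter M) (p : Ultrafilter M),
      (∀ a b : Γ, φ (a * b) = φ a * φ b) ∧ ∀ q : Ultrafilter M, ∃ a : Γ, φ a = p * q * p := by
  obtain ⟨p, grp, hmul, hp⟩ := exists_group (M := M)
  exact ⟨_, grp, Subtype.val, p, hmul, fun q => ⟨⟨p * q * p, hp q⟩, rfl⟩⟩

/-- **Main theorem of this file.** -/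
theorem words_mono {X G : Type*} [Group G] [MulAction G X] [Finite X] [Nonempty X]
    (h : ∃ s t : List (FreeGroup X ⊕ G), (∀ x : X, pev x s = pev x t) ∧ cnt t < cnt s ∧
      1 ≤ cnt t ∧ (cnt s - cnt t) ∣ cnt t) (r : ℕ) :
    ∃ K : ℕ, 1 ≤ K ∧ ∀ c : List X → Fin r, ∃ W : List (X ⊕ G), cnt W = K ∧
      ∃ i : Fin r, ∀ x : X, c (wev x W) = i := by
  classical
  obtain ⟨s, t, hst, hlt, h1, hdvd⟩ := h
  obtain ⟨Γ, grp, φ, p, hφ, hp⟩ := exists_group' (M := FreeMonoid X)
  choose γ hγ0 using fun x : X => hp (pure (FreeMonoid.of x))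
  have hγ : Realz G (fun x => φ (γ x)) 1 := by
    have e := realz_mul G (realz_mul G (realz_const (X := X) G p)
      (realz_one G (fun x : X => pure (FreeMonoid.of x)) fun _ => rfl)) (realz_const (X := X) G p)
    simpa [hγ0] using e
  obtain ⟨ι, hι, hHJ⟩ := Line.exists_mono_in_high_dimension X (Fin r)
  -- choose `j`
  have hk : (1 : ℝ) < (cnt s : ℝ) / (cnt t : ℝ) := by
    rw [one_lt_div (by exact_mod_cast h1)]
    exact_mod_cast hlt
  obtain ⟨j, hj⟩ := pow_unbounded_of_one_lt ((Fintype.card ι : ℝ) + 1) hk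
  have hj0 : j ≠ 0 := by
    rintro rfl
    simp only [pow_zero] at hj
    have : (0 : ℝ) ≤ Fintype.card ι := Nat.cast_nonneg _
    linarith only [hj]
  have hj' : (Fintype.card ι + 1) * cnt t ^ j ≤ cnt s ^ j := by
    have ht0 : (0 : ℝ) < (cnt t : ℝ) ^ j := by
      have : (0 : ℝ) < cnt t := by exact_mod_cast h1
      positivity
    rw [div_pow, lt_div_iff₀ ht0] at hj
    exact_mod_cast hj.le
  obtain ⟨θ, I, hF, hI, -⟩ := flex_tower G hφ hγ hst hlt j
  have ht1 : 1 ≤ cnt t ^ j := Nat.one_le_pow _ _ h1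
  refine ⟨max 1 (Fintype.card ι) * cnt t ^ j, ?_, fun c => ?_⟩
  · exact Nat.one_le_iff_ne_zero.mpr (by positivity)
  -- colour of an ultrafilter
  have hcol : ∀ q : Ultrafilter (FreeMonoid X), ∃ i : Fin r, {w | c (FreeMonoid.toList w) = i} ∈ q := by
    intro q
    obtain ⟨i, hi⟩ := Ultrafilter.eq_pure_of_finite (q.map fun w => c (FreeMonoid.toList w))
    refine ⟨i, ?_⟩
    have : ({i} : Set (Fin r)) ∈ q.map fun w => c (FreeMonoid.toList w) := by
      rw [hi]
      exact rfl
    exact this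
  choose col hcol using hcol
  obtain ⟨l, i0, hl⟩ := hHJ fun v => col (φ ((Finset.univ.toList.map fun i => θ (v i)).prod))
  have hN : 1 ≤ Fintype.card ι := by
    obtain ⟨i, _⟩ := l.proper
    exact Fintype.card_pos_iff.mpr ⟨i⟩
  rw [max_eq_right hN]
  have hfl := flex_line G hφ hF l (Finset.univ.toList)
  set q := (Finset.univ.toList).countP (fun i => (l.idxFun i).isNone) with hq
  have hq1 : 1 ≤ q := by
    obtain ⟨i, hi⟩ := l.proper
    rw [hq]
    apply List.countP_pos_iff.mpr
    exact ⟨i, by simp only [Finset.mem_toList, Finset.mem_univ], by simp [hi]⟩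
  have hqN : q ≤ Fintype.card ι := by
    have := List.countP_le_length (p := fun i => (l.idxFun i).isNone) (l := Finset.univ.toList)
    rwa [Finset.length_toList, Finset.card_univ] at this
  obtain ⟨e, he⟩ : (cnt s - cnt t) ∣ cnt t ^ j := hdvd.trans (dvd_pow_self _ hj0)
  have hDpos : 0 < cnt s - cnt t := by omega
  obtain ⟨m, hm⟩ := Nat.exists_eq_add_of_le hqN
  have hle : m * e ≤ q * I := by
    have h3 : m * e * (cnt s - cnt t) ≤ q * I * (cnt s - cnt t) := by
      have h4 : m * e * (cnt s - cnt t) = m * cnt t ^ j := by rw [he]; ring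
      have h5 : q * I * (cnt s - cnt t) + q * cnt t ^ j = q * cnt s ^ j := by
        rw [← hI]; ring
      rw [h4]
      have h6 : (q + m) * cnt t ^ j ≤ q * cnt s ^ j := by
        rw [← hm]
        calc Fintype.card ι * cnt t ^ j ≤ (Fintype.card ι + 1) * cnt t ^ j :=
              Nat.mul_le_mul_right _ (Nat.le_succ _)
          _ ≤ cnt s ^ j := hj'
          _ ≤ q * cnt s ^ j := Nat.le_mul_of_pos_left _ hq1
      rw [add_mul] at h6
      omega
    exact Nat.le_of_mul_le_mul_right h3 hDpos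
  have hR := hfl (m * e) hle
  have hK : q * cnt t ^ j + m * e * (cnt s - cnt t) = Fintype.card ι * cnt t ^ j := by
    rw [hm, add_mul]
    congr 1
    conv_rhs => rw [he]
    ring
  rw [hK] at hR
  obtain ⟨W, hW, hW'⟩ := hR (fun _ => {w | c (FreeMonoid.toList w) = i0}) (fun x => by
    have := hcol (φ ((Finset.univ.toList.map fun i => θ (l x i)).prod))
    have h7 := hl x
    simp only at h7
    rw [h7] at this
    exact this)
  exact ⟨W, hW, i0, hW'⟩

end Vale.Agent.P058.Sub
end
end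

section

section

namespace Vale.Agent.P058.Sub

open scoped commutatorElement

section Groups

variable {H : Type*} [Group H]

theorem comm_step (A B N Q P : Subgroup H) [A.Normal] [B.Normal] [N.Normal]
    (hQ : Q ≤ A ⊔ B) (hP : P ≤ A ⊔ N) : ⁅Q, P⁆ ≤ A ⊔ (B ⊓ N) := by
  rw [Subgroup.commutator_le]
  intro g hg p hp
  obtain ⟨a, ha, b, hb, rfl⟩ := Subgroup.mem_sup_of_normal_left.1 (hQ hg)
  obtain ⟨a', ha', n, hn, rfl⟩ := Subgroup.mem_sup_of_normal_left.1 (hP hp)
  have h1 : ⁅b, n⁆ ∈ B ⊓ N := by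
    refine Subgroup.mem_inf.2 ⟨?_, ?_⟩
    · exact Subgroup.commutator_le_left B ⊤ (Subgroup.commutator_mem_commutator hb trivial)
    · exact Subgroup.commutator_le_right ⊤ N (Subgroup.commutator_mem_commutator trivial hn)
  have h2 : ⁅a * b, a' * n⁆ * ⁅b, n⁆⁻¹ ∈ A := by
    rw [← QuotientGroup.eq_one_iff]
    have ha1 : ((a : H) : H ⧸ A) = 1 := (QuotientGroup.eq_one_iff a).2 ha
    have ha2 : ((a' : H) : H ⧸ A) = 1 := (QuotientGroup.eq_one_iff a').2 ha'
    simp only [commutatorElement_def, QuotientGroup.mk_mul, QuotientGroup.mk_inv, ha1, ha2,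
      one_mul, mul_inv_rev, inv_one, mul_one]
    group
  have h3 : ⁅a * b, a' * n⁆ = (⁅a * b, a' * n⁆ * ⁅b, n⁆⁻¹) * ⁅b, n⁆ := by group
  rw [h3]
  exact Subgroup.mul_mem_sup h2 h1

/-- lower central series inside a subgroup -/
def gam (P : Subgroup H) : ℕ → Subgroup H
  | 0 => P
  | (i + 1) => ⁅gam P i, P⁆

theorem gam_zero (P : Subgroup H) : gam P 0 = P := rfl
theorem gam_succ (P : Subgroup H) (i : ℕ) : gam P (i + 1) = ⁅gam P i, P⁆ := rfl

instance gam_normal (P : Subgroup H) [P.Normal] (i : ℕ) : (gam P i).Normal := by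
  induction i with
  | zero => rw [gam_zero]; infer_instance
  | succ i ih => rw [gam_succ]; infer_instance

theorem gam_le (P : Subgroup H) [P.Normal] (i : ℕ) : gam P i ≤ P := by
  induction i with
  | zero => exact le_rfl
  | succ i _ => rw [gam_succ]; exact Subgroup.commutator_le_right _ _

theorem gam_antitone (P : Subgroup H) [P.Normal] : Antitone (gam P) := by
  refine antitone_nat_of_succ_le fun n => ?_
  rw [gam_succ]
  exact Subgroup.commutator_le_left _ _

theorem gam_le_iInf {ι : Type*} [DecidableEq ι] (A P : Subgroup H) [A.Normal]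
    (M : ι → Subgroup H) (hM : ∀ i, (M i).Normal) (s : Finset ι)
    (h : ∀ i ∈ s, P ≤ A ⊔ M i) : gam P s.card ≤ A ⊔ ⨅ i ∈ s, M i := by
  induction s using Finset.induction_on with
  | empty => simp only [Finset.card_empty, Finset.notMem_empty, not_false_eq_true, iInf_neg, iInf_top, le_top, sup_of_le_right]
  | insert a s ha ih =>
    rw [Finset.card_insert_of_notMem ha, gam_succ, Finset.iInf_insert, inf_comm]
    have := hM a
    have hn : (⨅ i ∈ s, M i).Normal := by
      refine Subgroup.normal_iInf_normal fun i => Subgroup.normal_iInf_normal fun _ => hM i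
    exact comm_step A _ _ _ _ (ih fun i hi => h i (Finset.mem_insert_of_mem hi))
      (h a (Finset.mem_insert_self _ _))

end Groups

variable {X G : Type*} [Group G] [MulAction G X]

/-- evaluation at `x` modulo the equivalence relation `R` -/
def evR (R : Setoid X) (x : X) : FreeGroup (X ⊕ G) →* FreeGroup (Quotient R) :=
  FreeGroup.lift (Sum.elim (fun y => FreeGroup.of (Quotient.mk R y))
    fun g => FreeGroup.of (Quotient.mk R (g • x)))

/-- substitution `z_g ↦ z_{gh}` -/
def alph (h : G) : FreeGroup (X ⊕ G) →* FreeGroup (X ⊕ G) :=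
  FreeGroup.map (Sum.map id (· * h))

/-- constants -/
def iot : FreeGroup X →* FreeGroup (X ⊕ G) := FreeGroup.map Sum.inl

theorem evR_alph (R : Setoid X) (x : X) (h : G) (w : FreeGroup (X ⊕ G)) :
    evR R x (alph h w) = evR R (h • x) w := by
  have : (evR R x).comp (alph h) = (evR R (h • x) : FreeGroup (X ⊕ G) →* _) := by
    ext a
    rcases a with y | g <;> simp [evR, alph, mul_smul]
  exact DFunLike.congr_fun this w

theorem alph_alph (h k : G) (w : FreeGroup (X ⊕ G)) : alph k (alph h w) = alph (h * k) w := by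
  have : (alph k).comp (alph h) = (alph (h * k) : FreeGroup (X ⊕ G) →* _) := by
    ext a
    rcases a with y | g <;> simp [alph, mul_assoc]
  exact DFunLike.congr_fun this w

theorem eps_alph (h : G) (w : FreeGroup (X ⊕ G)) : eps (alph h w) = eps w := by
  have : eps.comp (alph h) = (eps : FreeGroup (X ⊕ G) →* _) := by
    ext a
    rcases a with y | g <;> simp [alph, eps]
  exact DFunLike.congr_fun this w

theorem eps_iot (u : FreeGroup X) : eps (iot u : FreeGroup (X ⊕ G)) = 1 := by
  have : eps.comp (iot : FreeGroup X →* FreeGroup (X ⊕ G)) = 1 := by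
    ext a
    simp only [eps, iot, MonoidHom.coe_comp, Function.comp_apply, FreeGroup.map.of, FreeGroup.lift_apply_of, Sum.elim_inl, toAdd_one, MonoidHom.one_apply]
  exact DFunLike.congr_fun this u

theorem evR_iot_ev (R : Setoid X) (x y : X) (w : FreeGroup (X ⊕ G)) :
    evR R y (iot (ev x w) : FreeGroup (X ⊕ G)) = evR R x w := by
  have : (evR R y : FreeGroup (X ⊕ G) →* _).comp (iot.comp (ev x)) =
      (evR R x : FreeGroup (X ⊕ G) →* _) := by
    ext a
    rcases a with z | g <;> simp [iot, evR, ev]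
  exact DFunLike.congr_fun this w

theorem ev_eq_one_of_bot (x : X) (w : FreeGroup (X ⊕ G)) (h : evR ⊥ x w = 1) : ev x w = 1 := by
  have : (FreeGroup.map (Quotient.lift (s := (⊥ : Setoid X)) (fun y => y)
      (fun a b hab => by simpa using hab))).comp (evR ⊥ x) =
      (ev x : FreeGroup (X ⊕ G) →* _) := by
    ext a
    rcases a with z | g <;> simp [evR, ev]
  have h2 := DFunLike.congr_fun this w
  rw [← h2, MonoidHom.comp_apply, h, map_one]

theorem c1 (U : Set (Setoid X)) (R0 R' : Setoid X) (x x' : X)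
    (hU : ∀ R'' : Setoid X, R0 ≤ R'' → R' ≤ R'' → (∀ g : G, R'' (g • x) (g • x')) → R'' ∈ U)
    (w : FreeGroup (X ⊕ G)) (hw : ∀ R ∈ U, ∀ y : X, evR R y w = 1) :
    w ∈ (evR R0 x).ker ⊔ (evR R' x').ker := by
  set Q : Subgroup (FreeGroup (X ⊕ G)) := (evR R0 x).ker ⊔ (evR R' x').ker with hQ
  have hQn : Q.Normal := by rw [hQ]; infer_instance
  let f : X → FreeGroup (X ⊕ G) ⧸ Q := fun y => ((FreeGroup.of (Sum.inl y) : FreeGroup (X ⊕ G)))
  have key : ∀ u v : FreeGroup (X ⊕ G), evR R0 x u = evR R0 x v →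
      (u : FreeGroup (X ⊕ G) ⧸ Q) = v := by
    intro u v h
    rw [QuotientGroup.eq]
    refine Subgroup.mem_sup_left ?_
    rw [MonoidHom.mem_ker, map_mul, map_inv, h, inv_mul_cancel]
  have key' : ∀ u v : FreeGroup (X ⊕ G), evR R' x' u = evR R' x' v →
      (u : FreeGroup (X ⊕ G) ⧸ Q) = v := by
    intro u v h
    rw [QuotientGroup.eq]
    refine Subgroup.mem_sup_right ?_
    rw [MonoidHom.mem_ker, map_mul, map_inv, h, inv_mul_cancel]
  have hg : ∀ g : G, ((FreeGroup.of (Sum.inr g) : FreeGroup (X ⊕ G)) : FreeGroup (X ⊕ G) ⧸ Q)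
      = f (g • x) := by
    intro g
    refine key _ _ ?_
    simp [evR]
  have hg' : ∀ g : G, ((FreeGroup.of (Sum.inr g) : FreeGroup (X ⊕ G)) : FreeGroup (X ⊕ G) ⧸ Q)
      = f (g • x') := by
    intro g
    refine key' _ _ ?_
    simp [evR]
  have hR'' : Setoid.ker f ∈ U := by
    refine hU _ ?_ ?_ ?_
    · intro a b hab
      refine key _ _ ?_
      simpa [evR] using congrArg FreeGroup.of (Quotient.sound (s := R0) hab)
    · intro a b hab
      refine key' _ _ ?_
      simpa [evR] using congrArg FreeGroup.of (Quotient.sound (s := R') hab)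
    · intro g
      exact (hg g).symm.trans (hg' g)
  let ψ : FreeGroup (Quotient (Setoid.ker f)) →* FreeGroup (X ⊕ G) ⧸ Q :=
    FreeGroup.lift (Quotient.lift f fun _ _ h => h)
  have hψ : ψ.comp (evR (Setoid.ker f) x) = QuotientGroup.mk' Q := by
    ext a
    rcases a with z | g
    · simp only [evR, MonoidHom.comp_apply, FreeGroup.lift_apply_of, Sum.elim_inl, ψ,
        Quotient.lift_mk, QuotientGroup.mk'_apply]
      rfl
    · simp only [evR, MonoidHom.comp_apply, FreeGroup.lift_apply_of, Sum.elim_inr, ψ,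
        Quotient.lift_mk, QuotientGroup.mk'_apply]
      exact (hg g).symm
  have h1 := DFunLike.congr_fun hψ w
  rw [MonoidHom.comp_apply, hw _ hR'' x, map_one, QuotientGroup.mk'_apply] at h1
  exact (QuotientGroup.eq_one_iff w).1 h1.symm

/-- words killed by all evaluations modulo members of `U` -/
def KU (G : Type*) [Group G] [MulAction G X] (U : Set (Setoid X)) : Subgroup (FreeGroup (X ⊕ G)) :=
  ⨅ R ∈ U, ⨅ y : X, (evR R y).ker

theorem mem_KU {U : Set (Setoid X)} {w : FreeGroup (X ⊕ G)} :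
    w ∈ KU G U ↔ ∀ R ∈ U, ∀ y : X, evR R y w = 1 := by
  simp only [KU, Subgroup.mem_iInf, MonoidHom.mem_ker]

instance KU_normal (U : Set (Setoid X)) : (KU G U).Normal :=
  Subgroup.normal_iInf_normal fun _ => Subgroup.normal_iInf_normal fun _ =>
    Subgroup.normal_iInf_normal fun _ => inferInstance

theorem alph_mem_KU {U : Set (Setoid X)} {w : FreeGroup (X ⊕ G)} (hw : w ∈ KU G U) (h : G) :
    alph h w ∈ KU G U := by
  rw [mem_KU] at hw ⊢
  intro R hR y
  rw [evR_alph]
  exact hw R hR _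

theorem iot_mem_KU {U : Set (Setoid X)} {w : FreeGroup (X ⊕ G)} (hw : w ∈ KU G U) (x : X) :
    iot (ev x w) ∈ KU G U := by
  rw [mem_KU] at hw ⊢
  intro R hR y
  rw [evR_iot_ev]
  exact hw R hR _

/-- the product of all translates -/
def tot (l : List G) (w : FreeGroup (X ⊕ G)) : FreeGroup (X ⊕ G) := (l.map fun h => alph h w).prod

theorem tot_mem_KU {U : Set (Setoid X)} {w : FreeGroup (X ⊕ G)} (hw : w ∈ KU G U) (l : List G) :
    tot l w ∈ KU G U := by
  refine Subgroup.list_prod_mem _ ?_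
  intro u hu
  obtain ⟨h, _, rfl⟩ := List.mem_map.1 hu
  exact alph_mem_KU hw h

theorem eps_tot (l : List G) (w : FreeGroup (X ⊕ G)) : eps (tot l w) = eps w ^ l.length := by
  unfold tot
  rw [map_list_prod, List.map_map]
  have : (eps ∘ fun h : G => alph h w) = fun _ => eps w := by
    funext h
    exact eps_alph h w
  rw [this]
  simp

theorem alph_tot (l : List G) (k : G) (w : FreeGroup (X ⊕ G)) :
    alph k (tot l w) = tot (l.map (· * k)) w := by
  unfold tot
  rw [map_list_prod, List.map_map, List.map_map]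
  congr 1
  refine List.map_congr_left fun h _ => ?_
  exact alph_alph h k w

section Step

variable [Finite X]

/-- two points have the same evaluation modulo `R0` -/
def rel (G : Type*) [Group G] [MulAction G X] (R0 : Setoid X) (x x' : X) : Prop :=
  ∀ g : G, R0 (g • x) (g • x')

theorem rel_refl (R0 : Setoid X) (x : X) : rel G R0 x x := fun _ => R0.refl _

theorem evR_eq_of_rel {R0 : Setoid X} {x y : X} (h : rel G R0 x y) (w : FreeGroup (X ⊕ G)) :
    evR R0 x w = evR R0 y w := by
  have : (evR R0 x : FreeGroup (X ⊕ G) →* _) = evR R0 y := by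
    ext a
    rcases a with z | g
    · simp [evR]
    · simpa [evR] using congrArg FreeGroup.of (Quotient.sound (s := R0) (h g))
  exact DFunLike.congr_fun this w

theorem finite_setoid (X : Type*) [Finite X] : Finite (Setoid X) := by
  refine Finite.of_injective (fun R : Setoid X => (fun a b => R a b : X → X → Prop)) ?_
  intro R S h
  ext a b
  exact iff_of_eq (congrFun (congrFun h a) b)

/-- the components other than the class of `x` modulo `R0` -/
def compSet (G : Type*) [Group G] [MulAction G X] (U : Set (Setoid X))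
    (R0 : Setoid X) (x : X) : Set (Setoid X × X) :=
  {c : Setoid X × X | c.1 ∈ U ∨ (c.1 = R0 ∧ ¬ rel G R0 x c.2)}

/-- words supported on the component `x` -/
def LL (G : Type*) [Group G] [MulAction G X] (U : Set (Setoid X))
    (R0 : Setoid X) (x : X) : Subgroup (FreeGroup (X ⊕ G)) :=
  ⨅ c ∈ compSet G U R0 x, (evR c.1 c.2).ker

theorem mem_LL {U : Set (Setoid X)} {R0 : Setoid X} {x : X} {w : FreeGroup (X ⊕ G)} :
    w ∈ LL G U R0 x ↔ w ∈ KU G U ∧ ∀ x', ¬ rel G R0 x x' → evR R0 x' w = 1 := by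
  simp only [LL, Subgroup.mem_iInf, MonoidHom.mem_ker, mem_KU, compSet, Set.mem_ofPred_eq]
  constructor
  · intro h
    exact ⟨fun R hR y => h (R, y) (Or.inl hR), fun x' hx' => h (R0, x') (Or.inr ⟨rfl, hx'⟩)⟩
  · rintro ⟨h1, h2⟩ ⟨R, y⟩ (h | ⟨h, h'⟩)
    · exact h1 R h y
    · have h : R = R0 := h
      subst h
      exact h2 y h'

theorem gam_le_LL (U : Set (Setoid X)) (hU : IsUpperSet U) (R0 : Setoid X)
    (h0 : ∀ R, R0 < R → R ∈ U) : ∃ N : ℕ, ∀ x : X,
      gam (KU G U) N ≤ (evR R0 x).ker ⊔ LL G U R0 x := by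
  classical
  have := finite_setoid X
  have hfin : Finite (Setoid X × X) := inferInstance
  refine ⟨Nat.card (Setoid X × X), fun x => ?_⟩
  have hf : (compSet G U R0 x).Finite := Set.toFinite _
  have h1 : gam (KU G U) hf.toFinset.card ≤ (evR R0 x).ker ⊔
      ⨅ c ∈ hf.toFinset, (evR (G := G) c.1 c.2).ker := by
    refine gam_le_iInf _ _ (fun c : Setoid X × X => (evR (G := G) c.1 c.2).ker)
      (fun _ => inferInstance) _ ?_
    rintro ⟨R', x'⟩ hc w hw
    rw [Set.Finite.mem_toFinset] at hc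
    refine c1 U R0 R' x x' ?_ w (mem_KU.1 hw)
    intro R'' h1 h2 h3
    rcases hc with hc | ⟨hc, hc'⟩
    · exact hU h2 hc
    · refine h0 _ (lt_of_le_of_ne h1 ?_)
      rintro rfl
      exact hc' h3
  have h2 : (⨅ c ∈ hf.toFinset, (evR (G := G) c.1 c.2).ker) = LL G U R0 x := by
    simp only [Set.Finite.mem_toFinset, LL]
  rw [h2] at h1
  refine le_trans (gam_antitone _ ?_) h1
  rw [← Set.ncard_eq_toFinset_card _ hf]
  exact Set.ncard_le_card _

theorem prod_ite_eq_pow {α M : Type*} [Monoid M] (l : List α) (p : α → Bool) (b : M) :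
    (l.map fun a => if p a then b else 1).prod = b ^ l.countP p := by
  induction l with
  | nil => simp
  | cons a l ih =>
    rw [List.map_cons, List.prod_cons, ih, List.countP_cons]
    by_cases h : p a = true
    · simp [h, pow_succ']
    · simp [h]

/-- `l` enumerates the group, so a right translate of it is a permutation of `l` -/
theorem perm_translate [Fintype G] (k : G) :
    ((Finset.univ : Finset G).toList.map (· * k)).Perm (Finset.univ : Finset G).toList := by
  classical
  refine List.perm_of_nodup_nodup_toFinset_eq ?_ (Finset.nodup_toList _) ?_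
  · exact (Finset.nodup_toList _).map (mul_left_injective k)
  · ext g
    simp only [List.mem_toFinset, List.mem_map, Finset.mem_toList, Finset.mem_univ, true_and,
      iff_true]
    exact ⟨g * k⁻¹, by simp⟩

section Main

variable [Fintype G] [MulAction.IsPretransitive G X]

theorem c2 [Nonempty X] (U : Set (Setoid X)) (R0 : Setoid X)
    (hyp : ∀ w : FreeGroup (X ⊕ G), w ∈ KU G U → (∀ y, evR R0 y w = 1) → eps w = 1)
    (x : X) (w : FreeGroup (X ⊕ G)) (hw : w ∈ LL G U R0 x) : eps w = 1 := by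
  classical
  rw [mem_LL] at hw
  obtain ⟨hwU, hwx⟩ := hw
  obtain ⟨x0⟩ := ‹Nonempty X›
  set l := (Finset.univ : Finset G).toList with hl
  have hcomp : ∀ y, evR R0 y (tot l w) = (evR R0 x w) ^ l.countP (fun h => rel G R0 x (h • y)) := by
    intro y
    unfold tot
    rw [map_list_prod, List.map_map, ← prod_ite_eq_pow]
    congr 1
    refine List.map_congr_left fun h _ => ?_
    simp only [Function.comp_apply, evR_alph, decide_eq_true_eq]
    split_ifs with hr
    · exact (evR_eq_of_rel hr w).symm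
    · exact hwx _ hr
  have hcount : ∀ y, l.countP (fun h => decide (rel G R0 x (h • y))) =
      l.countP (fun h => decide (rel G R0 x (h • x0))) := by
    intro y
    obtain ⟨k, rfl⟩ := MulAction.exists_smul_eq G x0 y
    rw [← (perm_translate k).countP_eq (fun h => decide (rel G R0 x (h • x0))), List.countP_map]
    congr 1
    funext h
    simp [mul_smul]
  have h1 : tot l w * (iot (ev x0 (tot l w)))⁻¹ ∈ KU G U :=
    mul_mem (tot_mem_KU hwU l) (inv_mem (iot_mem_KU (tot_mem_KU hwU l) x0))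
  have h2 := hyp _ h1 fun y => by
    rw [map_mul, map_inv, evR_iot_ev, hcomp y, hcomp x0, hcount y, mul_inv_cancel]
  rw [map_mul, map_inv, eps_iot, inv_one, mul_one, eps_tot] at h2
  have h3 : l.length ≠ 0 := by
    rw [hl, Finset.length_toList]
    exact Finset.card_ne_zero.2 ⟨1, Finset.mem_univ _⟩
  have h4 : Multiplicative.toAdd (eps w ^ l.length) = 0 := by rw [h2]; rfl
  rw [toAdd_pow, smul_eq_zero] at h4
  rcases h4 with h4 | h4
  · exact absurd h4 h3
  · exact Multiplicative.toAdd.injective h4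

theorem c3 (U : Set (Setoid X)) (R0 : Setoid X)
    (hyp : ∀ w : FreeGroup (X ⊕ G), w ∈ KU G U → (∀ y, evR R0 y w = 1) → eps w = 1)
    (w : FreeGroup (X ⊕ G)) (hw : w ∈ KU G U)
    (hx : ∀ x, w ∈ (evR R0 x).ker ⊔ LL G U R0 x) : eps w = 1 := by
  classical
  have : Nonempty X ∨ IsEmpty X := (isEmpty_or_nonempty X).symm
  rcases this with hne | hem
  swap
  · exact hyp w hw fun y => (hem.false y).elim
  have := Fintype.ofFinite X
  have main : ∀ (T : Finset X) (w : FreeGroup (X ⊕ G)), w ∈ KU G U →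
      (∀ x ∈ T, w ∈ (evR R0 x).ker ⊔ LL G U R0 x) → (∀ x ∉ T, evR R0 x w = 1) → eps w = 1 := by
    intro T
    induction T using Finset.induction_on with
    | empty =>
      intro w hw _ h2
      exact hyp w hw fun y => h2 y (Finset.notMem_empty _)
    | insert x T hxT ih =>
      intro w hw h1 h2
      obtain ⟨a, ha, b, hb, rfl⟩ := Subgroup.mem_sup_of_normal_left.1
        (h1 x (Finset.mem_insert_self _ _))
      have hb' := mem_LL.1 hb
      have hbe : eps b = 1 := c2 U R0 hyp x b hb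
      have haU : a ∈ KU G U := by
        have := mul_mem hw (inv_mem hb'.1)
        rwa [mul_inv_cancel_right] at this
      rw [map_mul, hbe, mul_one]
      refine ih a haU ?_ ?_
      · intro x' hx'
        by_cases hr : rel G R0 x x'
        · refine Subgroup.mem_sup_left ?_
          rw [MonoidHom.mem_ker, ← evR_eq_of_rel hr]
          exact ha
        · have h3 := h1 x' (Finset.mem_insert_of_mem hx')
          have h4 : b ∈ (evR R0 x').ker ⊔ LL G U R0 x' :=
            Subgroup.mem_sup_left (hb'.2 x' hr)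
          have := mul_mem h3 (inv_mem h4)
          rwa [mul_inv_cancel_right] at this
      · intro x' hx'
        by_cases hr : rel G R0 x x'
        · rw [← evR_eq_of_rel hr]
          exact ha
        · have hne : x' ≠ x := by
            rintro rfl
            exact hr (rel_refl _ _)
          have h3 := h2 x' (by
            rw [Finset.mem_insert, not_or]
            exact ⟨hne, hx'⟩)
          rw [map_mul, hb'.2 x' hr, mul_one] at h3
          exact h3
  exact main Finset.univ w hw (fun x _ => hx x) fun x hx => absurd (Finset.mem_univ x) hx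

theorem c4 (U : Set (Setoid X)) (w : FreeGroup (X ⊕ G)) (hw : w ∈ KU G U) (i : ℕ) :
    ∃ (f : FreeGroup (X ⊕ G)) (m : ℕ), 1 ≤ m ∧ f ∈ KU G U ∧
      (∀ h : G, alph h f * f⁻¹ ∈ gam (KU G U) i) ∧ eps f = eps w ^ m := by
  induction i with
  | zero =>
    refine ⟨w, 1, le_rfl, hw, ?_, by simp⟩
    intro h
    rw [gam_zero]
    exact mul_mem (alph_mem_KU hw h) (inv_mem hw)
  | succ i ih =>
    obtain ⟨f, m, hm, hf, hfh, he⟩ := ih
    set l := (Finset.univ : Finset G).toList with hl
    have h3 : 1 ≤ l.length := by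
      rw [hl, Finset.length_toList]
      exact Finset.card_pos.2 ⟨1, Finset.mem_univ _⟩
    refine ⟨tot l f, m * l.length, Nat.mul_pos hm h3, tot_mem_KU hf l, ?_, ?_⟩
    swap
    · rw [eps_tot, he, pow_mul]
    intro k
    rw [alph_tot, gam_succ]
    set Γ := gam (KU G U) i with hΓ
    set Q : Subgroup (FreeGroup (X ⊕ G)) := ⁅Γ, KU G U⁆ with hQ
    have hQn : Q.Normal := by rw [hQ]; infer_instance
    have hcen : ∀ u ∈ Γ, ∀ v ∈ KU G U, Commute ((u : FreeGroup (X ⊕ G)) : FreeGroup (X ⊕ G) ⧸ Q)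
        ((v : FreeGroup (X ⊕ G)) : FreeGroup (X ⊕ G) ⧸ Q) := by
      intro u hu v hv
      have h1 : ⁅u, v⁆ ∈ Q := Subgroup.commutator_mem_commutator hu hv
      rw [← QuotientGroup.eq_one_iff, commutatorElement_def] at h1
      simp only [QuotientGroup.mk_mul, QuotientGroup.mk_inv] at h1
      rw [Commute, SemiconjBy]
      rw [mul_inv_eq_one, mul_inv_eq_iff_eq_mul] at h1
      exact h1
    have hΓK : Γ ≤ KU G U := gam_le _ _
    have hcomm : ∀ h h' : G, Commute ((alph h f : FreeGroup (X ⊕ G)) : FreeGroup (X ⊕ G) ⧸ Q)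
        ((alph h' f : FreeGroup (X ⊕ G)) : FreeGroup (X ⊕ G) ⧸ Q) := by
      intro h h'
      have e1 : ((alph h f : FreeGroup (X ⊕ G)) : FreeGroup (X ⊕ G) ⧸ Q) =
          ((alph h f * f⁻¹ : FreeGroup (X ⊕ G)) : FreeGroup (X ⊕ G) ⧸ Q) * (f : _ ⧸ Q) := by
        rw [← QuotientGroup.mk_mul, inv_mul_cancel_right]
      have e2 : ((alph h' f : FreeGroup (X ⊕ G)) : FreeGroup (X ⊕ G) ⧸ Q) =
          ((alph h' f * f⁻¹ : FreeGroup (X ⊕ G)) : FreeGroup (X ⊕ G) ⧸ Q) * (f : _ ⧸ Q) := by
        rw [← QuotientGroup.mk_mul, inv_mul_cancel_right]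
      rw [e1, e2]
      refine Commute.mul_left (Commute.mul_right ?_ ?_) (Commute.mul_right ?_ ?_)
      · exact hcen _ (hfh h) _ (hΓK (hfh h'))
      · exact hcen _ (hfh h) _ hf
      · exact (hcen _ (hfh h') _ hf).symm
      · exact Commute.refl _
    have heq : ((tot (l.map (· * k)) f : FreeGroup (X ⊕ G)) : FreeGroup (X ⊕ G) ⧸ Q) = tot l f := by
      unfold tot
      rw [← QuotientGroup.mk'_apply, ← QuotientGroup.mk'_apply, map_list_prod, map_list_prod]
      refine List.Perm.prod_eq' (((perm_translate k).map _).map _) ?_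
      rw [List.pairwise_map, List.pairwise_map]
      exact List.pairwise_of_forall fun a b => hcomm a b
    rw [← QuotientGroup.eq_one_iff, QuotientGroup.mk_mul, heq, QuotientGroup.mk_inv,
      mul_inv_cancel]

theorem c5 [Nonempty X] (U : Set (Setoid X)) (R0 : Setoid X)
    (hyp : ∀ w : FreeGroup (X ⊕ G), w ∈ KU G U → (∀ y, evR R0 y w = 1) → eps w = 1)
    (f : FreeGroup (X ⊕ G)) (hf : f ∈ KU G U)
    (hfh : ∀ (h : G) (x : X), alph h f * f⁻¹ ∈ (evR R0 x).ker ⊔ LL G U R0 x) : eps f = 1 := by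
  obtain ⟨x0⟩ := ‹Nonempty X›
  have h1 : f * (iot (ev x0 f))⁻¹ ∈ KU G U := mul_mem hf (inv_mem (iot_mem_KU hf x0))
  have h2 := c3 U R0 hyp _ h1 fun x => by
    obtain ⟨k, hk⟩ := MulAction.exists_smul_eq G x x0
    have h3 := inv_mem (hfh k x)
    rw [mul_inv_rev, inv_inv] at h3
    have h4 : f * (iot (ev x0 f))⁻¹ = (f * (alph k f)⁻¹) * (alph k f * (iot (ev x0 f))⁻¹) := by
      group
    rw [h4]
    refine mul_mem h3 (Subgroup.mem_sup_left ?_)
    rw [MonoidHom.mem_ker, map_mul, map_inv, evR_iot_ev, evR_alph, hk, mul_inv_cancel]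
  rw [map_mul, map_inv, eps_iot, inv_one, mul_one] at h2
  exact h2

theorem step [Nonempty X] (U : Set (Setoid X)) (hU : IsUpperSet U) (R0 : Setoid X)
    (h0 : ∀ R, R0 < R → R ∈ U)
    (hyp : ∀ w : FreeGroup (X ⊕ G), w ∈ KU G (insert R0 U) → eps w = 1)
    (w : FreeGroup (X ⊕ G)) (hw : w ∈ KU G U) : eps w = 1 := by
  have hyp' : ∀ w : FreeGroup (X ⊕ G), w ∈ KU G U → (∀ y, evR R0 y w = 1) → eps w = 1 := by
    intro w hw h
    refine hyp w (mem_KU.2 ?_)
    intro R hR y
    rcases hR with rfl | hR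
    · exact h y
    · exact mem_KU.1 hw R hR y
  obtain ⟨N, hN⟩ := gam_le_LL (G := G) U hU R0 h0
  obtain ⟨f, m, hm, hf, hfh, he⟩ := c4 U w hw N
  have h1 := c5 U R0 hyp' f hf fun h x => hN x (hfh h)
  rw [he] at h1
  have h4 : Multiplicative.toAdd (eps w ^ m) = 0 := by rw [h1]; rfl
  rw [toAdd_pow, smul_eq_zero] at h4
  rcases h4 with h4 | h4
  · omega
  · exact Multiplicative.toAdd.injective h4

theorem exists_relation_aux [Nonempty X] :
    ∃ w : FreeGroup (X ⊕ G), (∀ x : X, ev x w = 1) ∧ eps w ≠ 1 := by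
  classical
  by_contra hcon
  push Not at hcon
  have := finite_setoid X
  have main : ∀ (n : ℕ) (U : Set (Setoid X)), IsUpperSet U → Uᶜ.ncard = n →
      ∀ w : FreeGroup (X ⊕ G), w ∈ KU G U → eps w = 1 := by
    intro n
    induction n with
    | zero =>
      intro U hU hn w hw
      rw [Set.ncard_eq_zero (Set.toFinite _), Set.compl_empty_iff] at hn
      subst hn
      refine hcon w fun x => ev_eq_one_of_bot x w (mem_KU.1 hw ⊥ (Set.mem_univ _) x)
    | succ n ih =>
      intro U hU hn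
      have hne : Uᶜ.Nonempty := by
        rw [← Set.ncard_pos (Set.toFinite _)]
        omega
      obtain ⟨R0, hR0⟩ := (Set.toFinite Uᶜ).exists_maximal hne
      have hgt : ∀ R, R0 < R → R ∈ U := by
        intro R hR
        by_contra hRU
        exact absurd (hR0.le_of_ge hRU hR.le) (not_le_of_gt hR)
      refine step U hU R0 hgt (ih (insert R0 U) ?_ ?_)
      · intro R S hRS hR
        rcases hR with rfl | hR
        · rcases eq_or_lt_of_le hRS with rfl | hlt
          · exact Set.mem_insert _ _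
          · exact Set.mem_insert_of_mem _ (hgt _ hlt)
        · exact Set.mem_insert_of_mem _ (hU hRS hR)
      · have h1 : Uᶜ = insert R0 (insert R0 U)ᶜ := by
          ext R
          simp only [Set.mem_compl_iff, Set.mem_insert_iff, not_or]
          constructor
          · intro h
            by_cases hR : R = R0
            · exact Or.inl hR
            · exact Or.inr ⟨hR, h⟩
          · rintro (rfl | h)
            · exact hR0.prop
            · exact h.2
        rw [h1, Set.ncard_insert_of_notMem (by simp) (Set.toFinite _)] at hn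
        omega
  have h1 := main _ ∅ (fun _ _ _ h => h.elim) rfl (FreeGroup.of (Sum.inr 1)) (by simp [KU])
  simp only [eps, FreeGroup.lift_apply_of, Sum.elim_inr, ofAdd_eq_one, one_ne_zero] at h1

end Main

end Step

theorem exists_relation [Finite X] [Finite G] [Nonempty X] [MulAction.IsPretransitive G X] :
    ∃ w : FreeGroup (X ⊕ G), (∀ x : X, ev x w = 1) ∧ eps w ≠ 1 := by
  have := Fintype.ofFinite G
  exact exists_relation_aux

end Vale.Agent.P058.Sub
end
end

section

section

namespace Vale.Agent.P058.Sub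

variable {X G : Type*} [Group G] [MulAction G X]

theorem pev_append (x : X) (A B : List (FreeGroup X ⊕ G)) :
    pev x (A ++ B) = pev x A * pev x B := by
  simp [pev]

theorem cnt_append {α : Type*} (A B : List (α ⊕ G)) : cnt (A ++ B) = cnt A + cnt B := by
  simp [cnt]

/-- Common right multiples at finitely many points. -/
theorem exists_common_multiple_list (A B : List (FreeGroup X ⊕ G)) (l : List X) :
    ∃ P Q : List (FreeGroup X ⊕ G), (∀ x ∈ l, pev x (A ++ P) = pev x (B ++ Q)) ∧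
      (l ≠ [] → cnt (A ++ P) = cnt (B ++ Q)) := by
  induction l with
  | nil => exact ⟨[], [], by simp, by simp⟩
  | cons y l ih =>
    obtain ⟨P, Q, h, -⟩ := ih
    refine ⟨P ++ (Sum.inl (pev y (B ++ Q))⁻¹ :: (B ++ Q)),
      Q ++ (Sum.inl (pev y (B ++ Q))⁻¹ :: (A ++ P)), ?_, ?_⟩
    · intro x hx
      have e : ∀ (u : FreeGroup X) (W : List (FreeGroup X ⊕ G)),
          pev x (Sum.inl u :: W) = u * pev x W := by
        intro u W
        simp [pev]
      rw [← List.append_assoc, ← List.append_assoc, pev_append x (A ++ P),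
        pev_append x (B ++ Q), e, e]
      rcases List.mem_cons.mp hx with rfl | hx
      · rw [inv_mul_cancel, mul_one, mul_inv_cancel_left]
      · rw [h x hx]
    · intro _
      have e : ∀ (u : FreeGroup X) (W : List (FreeGroup X ⊕ G)),
          cnt (Sum.inl u :: W) = cnt W := by
        intro u W
        simp [cnt]
      rw [← List.append_assoc, ← List.append_assoc, cnt_append (A ++ P), cnt_append (B ++ Q), e, e]
      omega

/-- Common right multiples. -/
theorem exists_common_multiple [Finite X] [Nonempty X] (A B : List (FreeGroup X ⊕ G)) :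
    ∃ P Q : List (FreeGroup X ⊕ G), (∀ x : X, pev x (A ++ P) = pev x (B ++ Q)) ∧
      cnt A + cnt P = cnt B + cnt Q := by
  classical
  cases nonempty_fintype X
  obtain ⟨P, Q, h, h'⟩ := exists_common_multiple_list A B (Finset.univ : Finset X).toList
  refine ⟨P, Q, fun x => h x (by simp), ?_⟩
  rw [← cnt_append, ← cnt_append]
  apply h'
  intro h0
  have : (Classical.arbitrary X) ∈ (Finset.univ : Finset X).toList := by simp
  rw [h0] at this
  simp at this

/-- Every word is a fraction of positive words. -/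
theorem exists_fraction [Finite X] [Nonempty X] (w : FreeGroup (X ⊕ G)) :
    ∃ p n : List (FreeGroup X ⊕ G), (∀ x : X, ev x w * pev x n = pev x p) ∧
      (cnt p : ℤ) - cnt n = (eps w).toAdd := by
  induction w using FreeGroup.induction_on with
  | C1 => exact ⟨[], [], by simp only [map_one, pev, List.map_nil, List.prod_nil, mul_one, implies_true], by simp [cnt]⟩
  | of a =>
    rcases a with y | g
    · exact ⟨[Sum.inl (FreeGroup.of y)], [], by simp [pev, ev], by simp only [cnt, Sum.isRight_inl, Bool.false_eq_true, not_false_eq_true, List.countP_cons_of_neg, List.countP_nil, CharP.cast_eq_zero, sub_self, eps, FreeGroup.lift_apply_of, Sum.elim_inl, toAdd_one]⟩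
    · exact ⟨[Sum.inr g], [], by simp [pev, ev], by simp only [cnt, List.countP_singleton, Sum.isRight_inr, ↓reduceIte, Nat.cast_one, List.countP_nil, CharP.cast_eq_zero, sub_zero, eps, FreeGroup.lift_apply_of, Sum.elim_inr, toAdd_ofAdd]⟩
  | inv_of a ih =>
    obtain ⟨p, n, h1, h2⟩ := ih
    refine ⟨n, p, fun x => ?_, ?_⟩
    · rw [map_inv, ← h1 x, inv_mul_cancel_left]
    · rw [map_inv, toAdd_inv, ← h2]
      ring
  | mul w₁ w₂ ih₁ ih₂ =>
    obtain ⟨p₁, n₁, h₁, c₁⟩ := ih₁
    obtain ⟨p₂, n₂, h₂, c₂⟩ := ih₂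
    obtain ⟨P, Q, h, c⟩ := exists_common_multiple p₂ n₁
    refine ⟨p₁ ++ Q, n₂ ++ P, fun x => ?_, ?_⟩
    · have h3 := h x
      rw [pev_append, pev_append] at h3
      rw [pev_append, pev_append, map_mul, ← h₁ x, mul_assoc (ev x w₁) (pev x n₁), ← h3, ← h₂ x]
      group
    · rw [cnt_append, cnt_append, map_mul, toAdd_mul, ← c₁, ← c₂]
      push_cast
      omega

theorem exists_positive_relation {X G : Type*} [Group G] [MulAction G X] [Finite X] [Nonempty X]
    (h : ∃ w : FreeGroup (X ⊕ G), (∀ x : X, ev x w = 1) ∧ eps w ≠ 1) :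
    ∃ s t : List (FreeGroup X ⊕ G), (∀ x : X, pev x s = pev x t) ∧ cnt t < cnt s ∧ 1 ≤ cnt t ∧
      (cnt s - cnt t) ∣ cnt t := by
  obtain ⟨w, hw, he⟩ := h
  obtain ⟨p, n, h1, h2⟩ := exists_fraction w
  have he' : (eps w).toAdd ≠ 0 := fun h0 => he (toAdd_eq_zero.mp h0)
  have key : ∃ s t : List (FreeGroup X ⊕ G), (∀ x : X, pev x s = pev x t) ∧ cnt t < cnt s := by
    rcases lt_or_gt_of_ne he' with h0 | h0
    · refine ⟨n, p, fun x => ?_, by omega⟩
      rw [← h1 x, hw, one_mul]
    · refine ⟨p, n, fun x => ?_, by omega⟩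
      rw [← h1 x, hw, one_mul]
  obtain ⟨s, t, hst, hlt⟩ := key
  obtain ⟨D, hD⟩ : ∃ D, cnt s = cnt t + (D + 1) := ⟨cnt s - cnt t - 1, by omega⟩
  let m := (D + 1) * (cnt t + 1) - cnt t
  have hm : cnt t + m = (D + 1) * (cnt t + 1) := by
    have : cnt t ≤ (D + 1) * (cnt t + 1) := by nlinarith only []
    omega
  have hc : cnt (List.replicate m (Sum.inr 1 : FreeGroup X ⊕ G)) = m := by
    simp [cnt, List.countP_replicate]
  refine ⟨s ++ List.replicate m (Sum.inr 1), t ++ List.replicate m (Sum.inr 1), fun x => ?_,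
    ?_, ?_, ?_⟩
  · rw [pev_append, pev_append, hst]
  · rw [cnt_append, cnt_append]
    omega
  · rw [cnt_append, hc, hm]
    nlinarith only []
  · rw [cnt_append, cnt_append, hc, hm]
    have : cnt s + m - (D + 1) * (cnt t + 1) = D + 1 := by omega
    rw [this]
    exact dvd_mul_right _ _

end Vale.Agent.P058.Sub
end
end

section

section

/-!
Finite version of `words_mono`: words of a fixed length.
-/

namespace Vale.Agent.P058.Sub

open Filter

theorem card_filter_getD {α : Type*} (p : α → Bool) (d : α) (hd : p d = false) :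
    ∀ (W : List α) (L : ℕ), W.length ≤ L →
      (Finset.univ.filter fun j : Fin L => p (W.getD j d) = true).card = W.countP p := by
  intro W
  induction W with
  | nil =>
    intro L _
    simp [hd]
  | cons a W ih =>
    intro L hL
    obtain ⟨L, rfl⟩ : ∃ L', L = L' + 1 := ⟨L - 1, by simp at hL; omega⟩
    have hL' : W.length ≤ L := by simpa only [List.length_cons, add_le_add_iff_right] using hL
    rw [Fin.card_filter_univ_succ]
    simp only [Fin.val_zero, List.getD_cons_zero, Fin.val_succ, List.getD_cons_succ]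
    rw [ih L hL', List.countP_cons]
    split_ifs <;> (clear * -; simp_all)

theorem words_fin {X G : Type} [Group G] [MulAction G X] [Finite X] [Finite G] [Nonempty X]
    [MulAction.IsPretransitive G X] (r : ℕ) :
    ∃ K L : ℕ, 1 ≤ K ∧ ∀ c : (Fin L → X) → Fin r, ∃ W : Fin L → X ⊕ G,
      (Finset.univ.filter fun j => (W j).isRight = true).card = K ∧
      ∃ i : Fin r, ∀ x : X, c (fun j => Sum.elim id (fun g => g • x) (W j)) = i := by
  classical
  obtain ⟨K, hK, H⟩ := words_mono (X := X) (G := G)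
    (exists_positive_relation (exists_relation (X := X) (G := G))) r
  refine ⟨K, ?_⟩
  by_contra hcon
  push Not at hcon
  choose c hc using fun L => hcon L hK
  obtain ⟨x0⟩ := ‹Nonempty X›
  have key : ∀ w : List X, ∃ i : Fin r,
      ∀ᶠ L in (hyperfilter ℕ : Filter ℕ), c L (fun j : Fin L => w.getD j x0) = i := by
    intro w
    obtain ⟨i, hi⟩ := Ultrafilter.eq_pure_of_finite
      ((hyperfilter ℕ).map fun L => c L (fun j : Fin L => w.getD j x0))
    refine ⟨i, ?_⟩
    have : ({i} : Set (Fin r)) ∈ (hyperfilter ℕ).map fun L => c L (fun j : Fin L => w.getD j x0) := by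
      rw [hi]
      exact rfl
    exact this
  choose col hcol using key
  obtain ⟨W, hW, i, hi⟩ := H col
  have h1 : ∀ᶠ L in (hyperfilter ℕ : Filter ℕ), W.length ≤ L := by
    have : ∀ᶠ L in (cofinite : Filter ℕ), W.length ≤ L := by
      rw [Nat.cofinite_eq_atTop]
      exact eventually_ge_atTop _
    exact Filter.hyperfilter_le_cofinite this
  have h2 : ∀ᶠ L in (hyperfilter ℕ : Filter ℕ), ∀ x : X,
      c L (fun j : Fin L => (wev x W).getD j x0) = i := by
    rw [Filter.eventually_all]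
    intro x
    have := hcol (wev x W)
    rwa [hi x] at this
  obtain ⟨L, hL1, hL2⟩ := (h1.and h2).exists
  obtain ⟨x, hx⟩ := hc L (fun j => W.getD j (Sum.inl x0))
    (by rw [card_filter_getD Sum.isRight (Sum.inl x0) rfl W L hL1]; exact hW) i
  apply hx
  rw [← hL2 x]
  congr 1
  funext j
  unfold wev
  rcases lt_or_ge (j : ℕ) W.length with h | h
  · simp only [List.getD_eq_getElem?_getD, List.getElem?_eq_getElem h, Option.getD_some, List.getElem?_map, Option.map_some]
  · simp only [List.getD_eq_getElem?_getD, List.getElem?_eq_none h, Option.getD_none, Sum.elim_inl, id_eq, List.getElem?_map, Option.map_none]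

end Vale.Agent.P058.Sub
end
end

section

section

/-!
Invariance under an arbitrary finite group of isometries: colourings can be made constant on
orbits.
-/

namespace Vale.Agent.P058

open Finset

/-- Merging all classes meeting the orbit of `a₀`. -/
lemma IR.mergeG {α : Type} [Finite α] {d : α → α → ℝ} {E : α → α → Prop} (hE : Equivalence E)
    (h : IR d E) {G : Type} [Group G] [Finite G] [MulAction G α]
    (hG : ∀ (g : G) a b, d (g • a) (g • b) = d a b)
    (hEG : ∀ (g : G) a b, E a b → E (g • a) (g • b)) (a₀ : α) :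
    IR d (fun a b => E a b ∨ ((∃ g : G, E a (g • a₀)) ∧ ∃ g : G, E b (g • a₀))) := by
  classical
  intro κ _
  have : Nonempty (MulAction.orbit G a₀) := (MulAction.nonempty_orbit a₀).to_subtype
  obtain ⟨K, L, hK, hW⟩ := Sub.words_fin (X := MulAction.orbit G a₀) (G := G) (Nat.card κ)
  have h1 : IR (α := Fin L → α) (fun a b => ∑ i, (1 / (K : ℝ)) * d (a i) (b i))
      (fun a b => ∀ i, E (a i) (b i)) := IR.pi fun _ => h.scale (by positivity)
  obtain ⟨β, hβ, D, hD, H⟩ := h1 κ
  refine ⟨β, hβ, D, hD, fun c => ?_⟩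
  obtain ⟨φ, hφ1, hφ2⟩ := H c
  let e := Finite.equivFin κ
  obtain ⟨W, hWK, i, hi⟩ := hW fun w => e (c (φ fun j => (w j : α)))
  let ψ : α → Fin L → α := fun a j => Sum.elim (fun o : MulAction.orbit G a₀ => (o : α))
    (fun g : G => g • a) (W j)
  have hψ : ∀ a b, E a b → c (φ (ψ a)) = c (φ (ψ b)) := by
    intro a b hab
    refine hφ2 _ _ fun j => ?_
    simp only [ψ]
    rcases W j with o | g
    · exact hE.refl _
    · exact hEG g _ _ hab
  have hψ1 : ∀ g : G, c (φ (ψ (g • a₀))) = e.symm i := by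
    intro g
    have h2 := hi ⟨g • a₀, MulAction.mem_orbit a₀ g⟩
    rw [← h2, Equiv.symm_apply_apply]
    congr 2
    funext j
    simp only [ψ]
    rcases W j with o | g' <;> rfl
  have hψ2 : ∀ a, (∃ g : G, E a (g • a₀)) → c (φ (ψ a)) = e.symm i := by
    rintro a ⟨g, hg⟩
    rw [hψ _ _ hg, hψ1]
  refine ⟨fun a => φ (ψ a), fun a b => ?_, ?_⟩
  · simp only [hφ1]
    have : ∀ j, (1 / (K : ℝ)) * d (ψ a j) (ψ b j) =
        if (W j).isRight = true then (1 / (K : ℝ)) * d a b else 0 := by
      intro j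
      simp only [ψ]
      rcases W j with o | g
      · simp only [one_div, Sum.elim_inl, h.self, mul_zero, Sum.isRight_inl, Bool.false_eq_true, ↓reduceIte]
      · simp only [one_div, Sum.elim_inr, hG, Sum.isRight_inr, ↓reduceIte]
    rw [Finset.sum_congr rfl fun j _ => this j, ← Finset.sum_filter, Finset.sum_const, hWK,
      nsmul_eq_mul]
    have hK' : (K : ℝ) ≠ 0 := by (clear * - hK; positivity)
    (clear * - hK'; field_simp)
  · rintro a b (hab | ⟨ha, hb⟩)
    · exact hψ a b hab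
    · simp only
      rw [hψ2 a ha, hψ2 b hb]

/-- Every finite colouring can be made constant on the orbits of a finite group of isometries of a
finite Euclidean family. -/
theorem IR.of_group {α : Type} [Finite α] {d : α → α → ℝ} (hd : IsEuc d) {G : Type} [Group G]
    [Finite G] [MulAction G α] (hG : ∀ (g : G) a b, d (g • a) (g • b) = d a b) :
    IR d (fun a b => ∃ g : G, g • a = b) := by
  classical
  have : Fintype α := Fintype.ofFinite α
  have key : ∀ s : Finset α, ∃ E' : α → α → Prop, Equivalence E' ∧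
      (∀ (g : G) a b, E' a b → E' (g • a) (g • b)) ∧ (∀ a ∈ s, ∀ g : G, E' a (g • a)) ∧
      IR d E' := by
    intro s
    induction s using Finset.induction_on with
    | empty =>
      refine ⟨fun a b => a = b, ⟨fun _ => rfl, fun h => h.symm, fun h h' => h.trans h'⟩, ?_,
        by simp only [notMem_empty, IsEmpty.forall_iff, implies_true], IR.of_isEuc hd⟩
      rintro g a _ rfl
      rfl
    | insert a₀ s _ ih =>
      obtain ⟨E', hE', hEG, hs, hIR⟩ := ih
      refine ⟨_, ?_, ?_, ?_, hIR.mergeG hE' hG hEG a₀⟩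
      · refine ⟨fun a => Or.inl (hE'.refl a), ?_, ?_⟩
        · rintro a b (hab | ⟨ha, hb⟩)
          · exact Or.inl (hE'.symm hab)
          · exact Or.inr ⟨hb, ha⟩
        · rintro a b c (hab | ⟨ha, hb⟩) (hbc | ⟨⟨g, hb'⟩, hc⟩)
          · exact Or.inl (hE'.trans hab hbc)
          · exact Or.inr ⟨⟨g, hE'.trans hab hb'⟩, hc⟩
          · obtain ⟨g, hb⟩ := hb
            exact Or.inr ⟨ha, ⟨g, hE'.trans (hE'.symm hbc) hb⟩⟩
          · exact Or.inr ⟨ha, hc⟩
      · rintro g a b (hab | ⟨⟨g1, ha⟩, ⟨g2, hb⟩⟩)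
        · exact Or.inl (hEG _ _ _ hab)
        · refine Or.inr ⟨⟨g * g1, ?_⟩, ⟨g * g2, ?_⟩⟩
          · rw [mul_smul]; exact hEG _ _ _ ha
          · rw [mul_smul]; exact hEG _ _ _ hb
      · intro a ha g
        rcases Finset.mem_insert.1 ha with rfl | ha
        · refine Or.inr ⟨⟨1, ?_⟩, ⟨g, hE'.refl _⟩⟩
          rw [one_smul]
          exact hE'.refl _
        · exact Or.inl (hs a ha g)
  obtain ⟨E', _, _, h3, h4⟩ := key Finset.univ
  refine h4.mono ?_
  rintro a _ ⟨g, rfl⟩
  exact h3 a (Finset.mem_univ a) g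

end Vale.Agent.P058
end
end

section

section

namespace Vale.Agent.P058

open Finset

lemma isEuc_complex (Y : Set ℂ) : IsEuc (β := Y) (fun a b => ‖(a : ℂ) - b‖ ^ 2) := by
  refine ⟨Fin 2, inferInstance, fun b => ![(b : ℂ).re, (b : ℂ).im], fun b b' => ?_⟩
  rw [Fin.sum_univ_two]
  simp only [← Complex.normSq_eq_norm_sq, Complex.normSq_apply, Complex.sub_re, Complex.sub_im, Fin.isValue, Matrix.cons_val_zero, Matrix.cons_val_one, Matrix.cons_val_fin_one]
  ring

lemma exists_pow_two_eq_neg_one (k : ℕ) : ∃ ω : ℂ, ω ^ (2 ^ k) = -1 := by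
  refine ⟨Complex.exp (Real.pi * Complex.I / (2 ^ k : ℕ)), ?_⟩
  rw [← Complex.exp_nat_mul, mul_div_cancel₀]
  · exact Complex.exp_pi_mul_I
  · norm_num

lemma IR.circle (K : ℕ) (Y : Set ℂ) (hY : Y.Finite)
    (hK : ∀ ζ : ℂ, ζ ^ (2 ^ K) = 1 → ∀ y ∈ Y, ζ * y ∈ Y) :
    ∀ k ≤ K, IR (α := Y) (fun a b => ‖(a : ℂ) - b‖ ^ 2)
      (fun a b => ∃ ζ : ℂ, ζ ^ (2 ^ k) = 1 ∧ (b : ℂ) = ζ * a) := by
  have hfin : Finite Y := hY
  intro k
  induction k with
  | zero =>
    intro _
    refine (IR.of_isEuc (isEuc_complex Y)).mono ?_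
    rintro a b ⟨ζ, h1, h2⟩
    have h3 : ζ = 1 := by simpa using h1
    rw [h3, one_mul] at h2
    exact Subtype.ext h2.symm
  | succ k ih =>
    intro hk
    have hIR := ih (by omega)
    obtain ⟨ω, hω⟩ := exists_pow_two_eq_neg_one k
    have hω1 : ω ^ (2 ^ (k + 1)) = 1 := by rw [pow_succ, pow_mul, hω]; norm_num
    have hωK : ω ^ (2 ^ K) = 1 := by
      obtain ⟨j, rfl⟩ := Nat.exists_eq_add_of_le hk
      rw [pow_add, pow_mul, hω1, one_pow]
    have hω0 : ω ≠ 0 := by
      rintro rfl
      rw [zero_pow (by positivity)] at hω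
      norm_num at hω
    have hωn : ‖ω‖ = 1 := by
      have := congrArg norm hω1
      rw [norm_pow, norm_one] at this
      exact (pow_eq_one_iff_of_nonneg (norm_nonneg _) (by positivity)).1 this
    have hne : ∀ ζ : ℂ, ζ ^ (2 ^ k) = 1 → ζ ≠ 0 := by
      rintro ζ h rfl
      rw [zero_pow (by positivity)] at h
      norm_num at h
    let f : Y → Y := fun a => ⟨ω * a, hK ω hωK a a.2⟩
    have hE : Equivalence (fun a b : Y => ∃ ζ : ℂ, ζ ^ (2 ^ k) = 1 ∧ (b : ℂ) = ζ * a) := by
      refine ⟨fun a => ⟨1, one_pow _, (one_mul _).symm⟩, ?_, ?_⟩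
      · rintro a b ⟨ζ, h1, h2⟩
        refine ⟨ζ⁻¹, by rw [inv_pow, h1, inv_one], ?_⟩
        rw [h2, inv_mul_cancel_left₀ (hne ζ h1)]
      · rintro a b c ⟨ζ, h1, h2⟩ ⟨ζ', h1', h2'⟩
        exact ⟨ζ' * ζ, by rw [mul_pow, h1, h1', one_mul], by rw [h2', h2, mul_assoc]⟩
    obtain ⟨E', hE'1, hE'2, hE'3, hE'4⟩ := hIR.extend hE f (fun a b => by
        simp only [f]
        rw [← mul_sub, norm_mul, hωn, one_mul])
      (by
        rintro a b ⟨ζ, h1, h2⟩
        exact ⟨ζ, h1, by simp only [f]; rw [h2]; ring⟩)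
      (by
        intro a
        refine ⟨(ω * ω)⁻¹, ?_, ?_⟩
        · rw [inv_pow, mul_pow, hω]; norm_num
        · simp only [f]
          rw [← mul_assoc ω ω, inv_mul_cancel_left₀ (mul_ne_zero hω0 hω0)])
    refine hE'4.mono ?_
    rintro a b ⟨ζ, h1, h2⟩
    have h3 : (ζ ^ (2 ^ k)) ^ 2 = 1 := by rw [← pow_mul, ← pow_succ]; exact h1
    have h3' : (ζ ^ (2 ^ k) - 1) * (ζ ^ (2 ^ k) + 1) = 0 := by linear_combination h3
    rcases (mul_eq_zero.1 h3').imp sub_eq_zero.1 eq_neg_of_add_eq_zero_left with h4 | h4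
    · exact hE'2 a b ⟨ζ, h4, h2⟩
    · have h5 : (ζ * ω⁻¹) ^ (2 ^ k) = 1 := by
        rw [mul_pow, inv_pow, h4, hω]; norm_num
      have h6 : ζ * ω⁻¹ * a ∈ Y := by
        refine hK _ ?_ a a.2
        obtain ⟨j, hj⟩ := Nat.exists_eq_add_of_le (show k ≤ K by omega)
        rw [hj, pow_add, pow_mul, h5, one_pow]
      have h7 : b = f ⟨ζ * ω⁻¹ * a, h6⟩ := by
        apply Subtype.ext
        simp only [f]
        rw [h2]
        (clear * - hω0; field_simp)
      rw [h7]
      exact hE'1.trans (hE'2 a ⟨ζ * ω⁻¹ * a, h6⟩ ⟨ζ * ω⁻¹, h5, rfl⟩) (hE'3 _)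

theorem CanShrink.of_complex {m J : Type} [Finite m] [Fintype J] {δ : m → m → ℝ} {η : ℝ}
    (K : ℕ) (v z : m → J → ℂ) (hz : ∀ i k, z i k ^ (2 ^ K) = 1)
    (hv : ∀ i l, ∑ k, ‖v i k - v l k‖ ^ 2 = η * δ i l)
    (hu : ∀ i l, ∑ k, ‖z i k * v i k - z l k * v l k‖ ^ 2 = δ i l) : CanShrink δ η := by
  let R : Set ℂ := {ζ | ζ ^ (2 ^ K) = 1}
  have hR : R.Finite := by
    have h1 : R ⊆ ((Polynomial.nthRoots (2 ^ K) (1 : ℂ)).toFinset : Set ℂ) := by
      intro ζ hζ
      rw [Finset.mem_coe, Multiset.mem_toFinset, Polynomial.mem_nthRoots (by positivity)]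
      exact hζ
    exact (Finset.finite_toSet _).subset h1
  let Y : Set ℂ := (fun q : ℂ × ℂ => q.1 * q.2) '' (R ×ˢ Set.range fun q : m × J => v q.1 q.2)
  have hY : Y.Finite := (hR.prod (Set.finite_range _)).image _
  have hfin : Finite Y := hY
  have hK : ∀ ζ : ℂ, ζ ^ (2 ^ K) = 1 → ∀ y ∈ Y, ζ * y ∈ Y := by
    rintro ζ hζ _ ⟨⟨ξ, y⟩, ⟨hξ, hy⟩, rfl⟩
    refine ⟨⟨ζ * ξ, y⟩, ⟨?_, hy⟩, ?_⟩
    · change (ζ * ξ) ^ (2 ^ K) = 1
      rw [mul_pow, hζ, one_mul]
      exact hξ
    · simp only
      ring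
  have hIR := IR.pi' (ι := J) (fun _ => IR.circle K Y hY hK K le_rfl)
  have hmem : ∀ i k, ∀ ζ : ℂ, ζ ^ (2 ^ K) = 1 → ζ * v i k ∈ Y := fun i k ζ hζ =>
    ⟨⟨ζ, v i k⟩, ⟨hζ, ⟨(i, k), rfl⟩⟩, rfl⟩
  refine ⟨J → Y, inferInstance, _, _, fun i k => ⟨1 * v i k, hmem i k 1 (one_pow _)⟩,
    fun i k => ⟨z i k * v i k, hmem i k _ (hz i k)⟩, hIR, ?_, ?_, ?_, ?_⟩
  · exact fun a k => ⟨1, one_pow _, (one_mul _).symm⟩
  · exact fun i k => ⟨z i k, hz i k, by simp⟩
  · intro i l
    simp only [one_mul]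
    exact hv i l
  · intro i l
    exact hu i l

end Vale.Agent.P058
end
end

section

section

namespace Vale.Agent.P058

open Finset

/-- A finite colouring, with a number of colours independent of the functions, which is not
constant on a tuple whose defect lies in `[η, 1]`. -/
theorem exists_colouring_of_functions (m : Type*) [Fintype m] [Nonempty m] (η : ℝ)
    (hη0 : 0 < η) (hη1 : η ≤ 1) :
    ∃ r : ℕ, 2 ≤ r ∧ ∀ (Y : Type) (f : m → Y → ℝ) (i₀ : m), ∃ c : Y → Fin r, ∀ p : m → Y,
      (∀ i, c (p i) = c (p i₀)) → η ≤ ∑ i, (f i (p i) - f i (p i₀)) →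
      ∑ i, (f i (p i) - f i (p i₀)) ≤ 1 → False := by
  classical
  obtain ⟨R, hR⟩ := exists_nat_gt (Fintype.card m / η)
  have hm : (0 : ℝ) < Fintype.card m := by exact_mod_cast Fintype.card_pos
  have hR0 : (0 : ℝ) < R := lt_of_le_of_lt (by positivity) hR
  have hRn : 0 < R := by exact_mod_cast hR0
  have hRη : Fintype.card m / (R : ℝ) < η := by
    rw [div_lt_iff₀ hη0] at hR
    rw [div_lt_iff₀ hR0]
    linarith only [hR]
  have : NeZero (2 * R) := ⟨by omega⟩
  let κ := m → ZMod (2 * R)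
  refine ⟨Fintype.card κ, ?_, fun Y f i₀ => ?_⟩
  · have : Nontrivial (ZMod (2 * R)) := by
      have : Fact (1 < 2 * R) := ⟨by omega⟩
      exact ZMod.nontrivial _
    have : Nontrivial κ := Function.nontrivial
    exact Fintype.one_lt_card
  · let e : κ ≃ Fin (Fintype.card κ) := Fintype.equivFin κ
    refine ⟨fun y => e fun i => ((⌊(R : ℝ) * f i y⌋ : ℤ) : ZMod (2 * R)), fun p hp h1 h2 => ?_⟩
    have hk : ∀ i, ∃ k : ℤ, |f i (p i) - f i (p i₀) - 2 * k| < 1 / R := by
      intro i
      have h3 := congrFun (e.injective (hp i)) i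
      rw [ZMod.intCast_eq_intCast_iff_dvd_sub] at h3
      obtain ⟨k, hk⟩ := h3
      refine ⟨-k, ?_⟩
      have a1 := Int.floor_le ((R : ℝ) * f i (p i))
      have a2 := Int.lt_floor_add_one ((R : ℝ) * f i (p i))
      have a3 := Int.floor_le ((R : ℝ) * f i (p i₀))
      have a4 := Int.lt_floor_add_one ((R : ℝ) * f i (p i₀))
      have hk' : (⌊(R : ℝ) * f i (p i₀)⌋ : ℝ) - ⌊(R : ℝ) * f i (p i)⌋ = 2 * R * k := by
        exact_mod_cast hk
      have habs : ∀ x : ℝ, |x| * R = |x * R| := fun x => by rw [abs_mul, abs_of_pos hR0]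
      rw [lt_div_iff₀ hR0, habs, abs_lt]
      push_cast
      constructor <;> nlinarith only [a1, a4, hk', a2, a3]
    choose k hk using hk
    have hsum : |∑ i, (f i (p i) - f i (p i₀)) - 2 * (∑ i, k i : ℤ)| < η := by
      refine lt_of_le_of_lt ?_ hRη
      have e1 : ∑ i, (f i (p i) - f i (p i₀)) - 2 * ((∑ i, k i : ℤ) : ℝ) =
          ∑ i, (f i (p i) - f i (p i₀) - 2 * k i) := by
        push_cast
        simp only [Finset.sum_sub_distrib, Finset.mul_sum]
      rw [e1]
      refine le_trans (Finset.abs_sum_le_sum_abs _ _) ?_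
      refine le_trans (Finset.sum_le_sum fun i _ => (hk i).le) ?_
      rw [Finset.sum_const, Finset.card_univ, nsmul_eq_mul]
      exact le_of_eq (by ring)
    set s := ∑ i, (f i (p i) - f i (p i₀)) with hs
    set n : ℤ := ∑ i, k i with hn
    rw [abs_lt] at hsum
    rcases lt_trichotomy n 0 with h | h | h
    · have : (n : ℝ) ≤ -1 := by exact_mod_cast Int.le_sub_one_of_lt h
      linarith only [h1, hsum, this]
    · rw [h] at hsum
      simp at hsum
      linarith only [h1, hsum]
    · have : (1 : ℝ) ≤ n := by exact_mod_cast h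
      linarith only [hη1, h2, hsum, this]

end Vale.Agent.P058
end
end

section

section

open MvPolynomial TensorProduct

namespace Vale.Agent.P058

/-- Extension of a derivation along a formally etale algebra. -/
theorem exists_derivation_of_formallyEtale {R S T : Type*} [CommRing R] [CommRing S] [CommRing T]
    [Algebra R S] [Algebra R T] [Algebra S T] [IsScalarTower R S T] [Algebra.FormallyEtale S T]
    (d : Derivation R S T) : ∃ D : Derivation R T T, ∀ s : S, D (algebraMap S T s) = d s := by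
  classical
  let f : Ω[S⁄R] →ₗ[S] T := d.liftKaehlerDifferential
  let g : T ⊗[S] Ω[S⁄R] →ₗ[T] T := f.liftBaseChange T
  let h : Ω[T⁄R] →ₗ[T] T :=
    g.comp (KaehlerDifferential.tensorKaehlerEquivOfFormallyEtale R S T).symm.toLinearMap
  refine ⟨h.compDer (KaehlerDifferential.D R T), fun s => ?_⟩
  simp only [LinearMap.compDer, h, g, f]
  simp [KaehlerDifferential.tensorKaehlerEquivOfFormallyEtale_symm_D_algebraMap]

theorem exists_derivation_basis {F E : Type*} [Field F] [CharZero F] [Field E] [Algebra F E]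
    {ι : Type*} {x : ι → E} (hx : IsTranscendenceBasis F x) (v : ι → E) :
    ∃ D : Derivation F E E, ∀ i, D (x i) = v i := by
  classical
  let alg : Algebra (MvPolynomial ι F) E := (aeval (R := F) x).toRingHom.toAlgebra
  have halg : ∀ p : MvPolynomial ι F, algebraMap (MvPolynomial ι F) E p = aeval x p :=
    fun p => rfl
  have tow : IsScalarTower F (MvPolynomial ι F) E :=
    IsScalarTower.of_algebraMap_eq (fun r => by rw [halg, MvPolynomial.algebraMap_eq, aeval_C])
  have hinj : Function.Injective (algebraMap (MvPolynomial ι F) E) := hx.1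
  have : FaithfulSMul (MvPolynomial ι F) E :=
    (faithfulSMul_iff_algebraMap_injective _ _).mpr hinj
  have hal : Algebra.IsAlgebraic (MvPolynomial ι F) E := by
    have h1 := hx.isAlgebraic
    refine ⟨fun a => ?_⟩
    obtain ⟨p, hp0, hp⟩ := h1.isAlgebraic a
    refine ⟨p.map (hx.1.aevalEquiv.symm : Algebra.adjoin F (Set.range x) →+* MvPolynomial ι F),
      ?_, ?_⟩
    · rw [Ne, Polynomial.map_eq_zero_iff]
      · exact hp0
      · exact hx.1.aevalEquiv.symm.injective
    · have : (algebraMap (MvPolynomial ι F) E).comp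
          (hx.1.aevalEquiv.symm : Algebra.adjoin F (Set.range x) →+* MvPolynomial ι F)
          = algebraMap (Algebra.adjoin F (Set.range x)) E := by
        ext s
        obtain ⟨q, rfl⟩ := hx.1.aevalEquiv.surjective s
        simp only [RingHom.comp_apply, RingHom.coe_coe, AlgEquiv.symm_apply_apply]
        rw [halg, hx.1.algebraMap_aevalEquiv]
      rw [Polynomial.aeval_def, Polynomial.eval₂_map, this, ← Polynomial.aeval_def, hp]
  let alg2 : Algebra (FractionRing (MvPolynomial ι F)) E := FractionRing.liftAlgebra _ _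
  have : IsScalarTower (MvPolynomial ι F) (FractionRing (MvPolynomial ι F)) E := inferInstance
  have : Algebra.IsAlgebraic (FractionRing (MvPolynomial ι F)) E :=
    Algebra.IsAlgebraic.extendScalars (R := MvPolynomial ι F)
      (IsFractionRing.injective (MvPolynomial ι F) (FractionRing (MvPolynomial ι F)))
  have : Algebra.IsSeparable (FractionRing (MvPolynomial ι F)) E := inferInstance
  have : Algebra.FormallyEtale (MvPolynomial ι F) (FractionRing (MvPolynomial ι F)) :=
    Algebra.FormallyEtale.of_isLocalization (nonZeroDivisors (MvPolynomial ι F))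
  have : Algebra.FormallyEtale (FractionRing (MvPolynomial ι F)) E :=
    Algebra.FormallyEtale.of_isSeparable _ _
  have : Algebra.FormallyEtale (MvPolynomial ι F) E :=
    Algebra.FormallyEtale.comp _ (FractionRing (MvPolynomial ι F)) _
  obtain ⟨D, hD⟩ := exists_derivation_of_formallyEtale (R := F)
    (MvPolynomial.mkDerivation F v : Derivation F (MvPolynomial ι F) E)
  refine ⟨D, fun i => ?_⟩
  have := hD (X i)
  rwa [halg, aeval_X, MvPolynomial.mkDerivation_X] at this

/-- Derivations of a field of characteristic zero may be prescribed on any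
algebraically independent family. -/
theorem exists_derivation {F E : Type*} [Field F] [CharZero F] [Field E] [Algebra F E]
    {ι : Type*} {x : ι → E} (hx : AlgebraicIndependent F x) (v : ι → E) :
    ∃ D : Derivation F E E, ∀ i, D (x i) = v i := by
  classical
  have hs : AlgebraicIndepOn F id (Set.range x) := hx.coe_range
  obtain ⟨t, hst, ht⟩ := exists_isTranscendenceBasis_superset hs
  obtain ⟨D, hD⟩ := exists_derivation_basis ht
    (fun b => if h : ∃ i, x i = (b : E) then v h.choose else 0)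
  refine ⟨D, fun i => ?_⟩
  have h1 := hD ⟨x i, hst ⟨i, rfl⟩⟩
  have h2 : ∃ j, x j = x i := ⟨i, rfl⟩
  simp only at h1
  rw [h1, dif_pos h2]
  congr 1
  exact hx.injective h2.choose_spec

end Vale.Agent.P058
end
end

section

section

namespace Vale.Agent.P058

open Finset

/-- Euclidean space of dimension `n`. -/
abbrev E (n : ℕ) : Type := EuclideanSpace ℝ (Fin n)

/-- Apply a derivation of the field `ℝ` to every coordinate of a vector. -/
noncomputable def dv (δ : Derivation ℚ ℝ ℝ) {n : ℕ} (v : E n) : E n :=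
  WithLp.toLp 2 (fun c => δ (v c))

@[simp] lemma dv_apply (δ : Derivation ℚ ℝ ℝ) {n : ℕ} (v : E n) (c : Fin n) :
    dv δ v c = δ (v c) := rfl

lemma dv_add (δ : Derivation ℚ ℝ ℝ) {n : ℕ} (u v : E n) : dv δ (u + v) = dv δ u + dv δ v := by
  ext c; simp

lemma dv_smul (δ : Derivation ℚ ℝ ℝ) {n : ℕ} (r : ℝ) (v : E n) :
    dv δ (r • v) = δ r • v + r • dv δ v := by
  ext c; simp only [dv_apply, PiLp.smul_apply, smul_eq_mul, Derivation.leibniz, add_comm, PiLp.add_apply, mul_comm]

lemma dv_sum (δ : Derivation ℚ ℝ ℝ) {n : ℕ} {ι : Type*} (s : Finset ι) (f : ι → E n) :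
    dv δ (∑ i ∈ s, f i) = ∑ i ∈ s, dv δ (f i) := by
  ext c; simp only [dv_apply, WithLp.ofLp_sum, Finset.sum_apply, map_sum]

lemma deriv_inner (δ : Derivation ℚ ℝ ℝ) {n : ℕ} (u v : E n) :
    δ (inner ℝ u v) = inner ℝ (dv δ u) v + inner ℝ u (dv δ v) := by
  simp only [PiLp.inner_apply, RCLike.inner_apply, conj_trivial, dv_apply, map_sum,
    Derivation.leibniz, smul_eq_mul, ← Finset.sum_add_distrib]
  refine Finset.sum_congr rfl (fun c _ => ?_)
  ring

/-- Two families of points with the same mutual distances have the same inner products of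
weighted sums with total weight zero. -/
lemma inner_eq_of_dist_eq {ι : Type*} [Fintype ι] {d D : ℕ} (x : ι → E d) (p : ι → E D)
    (h : ∀ i j, dist (p i) (p j) = dist (x i) (x j)) (u v : ι → ℝ)
    (hu : ∑ i, u i = 0) (hv : ∑ i, v i = 0) :
    inner ℝ (∑ i, u i • p i) (∑ i, v i • p i) = inner ℝ (∑ i, u i • x i) (∑ i, v i • x i) := by
  rw [inner_sum_smul_sum_smul_of_sum_eq_zero p hu p hv,
    inner_sum_smul_sum_smul_of_sum_eq_zero x hu x hv]
  simp only [← dist_eq_norm, h]

/-- A family of points congruent to an affinely spanning family of `ℝ^d` is the image of that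
family under `y ↦ a + ∑ y_k e_k` with `e` orthonormal. -/
lemma exists_frame {ι : Type*} [Fintype ι] {d D : ℕ} (x : ι → E d) (p : ι → E D)
    (hx : affineSpan ℝ (Set.range x) = ⊤)
    (h : ∀ i j, dist (p i) (p j) = dist (x i) (x j)) :
    ∃ (a : E D) (e : Fin d → E D), (∀ k l, inner ℝ (e k) (e l) = if k = l then (1 : ℝ) else 0) ∧
      ∀ i, p i = a + ∑ k, x i k • e k := by
  classical
  have key : ∀ y : E d, ∃ w : ι → ℝ, ∑ i, w i = 1 ∧ y = ∑ i, w i • x i := by
    intro y
    have hy : y ∈ affineSpan ℝ (Set.range x) := by rw [hx]; trivial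
    obtain ⟨w, hw, hyw⟩ := eq_affineCombination_of_mem_affineSpan_of_fintype hy
    refine ⟨w, hw, ?_⟩
    rw [hyw, Finset.affineCombination_eq_linear_combination _ _ _ hw]
  choose w hw1 hw using key
  let κ : Fin d → ι → ℝ := fun k i => w (EuclideanSpace.single k (1 : ℝ)) i - w 0 i
  have hκ0 : ∀ k, ∑ i, κ k i = 0 := by
    intro k; simp only [sum_sub_distrib, hw1, sub_self, κ]
  have hκ : ∀ k, ∑ i, κ k i • x i = EuclideanSpace.single k (1 : ℝ) := by
    intro k
    simp only [κ, sub_smul, Finset.sum_sub_distrib, ← hw]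
    simp
  refine ⟨∑ i, w 0 i • p i, fun k => ∑ i, κ k i • p i, ?_, ?_⟩
  · intro k l
    rw [inner_eq_of_dist_eq x p h _ _ (hκ0 k) (hκ0 l), hκ, hκ]
    simp only [EuclideanSpace.inner_single_left, Real.ringHom_apply, PiLp.single_apply, mul_ite, mul_one, mul_zero]
  · intro j
    let u : ι → ℝ := fun i => (if i = j then 1 else 0) - w 0 i - ∑ k, x j k * κ k i
    have hu0 : ∑ i, u i = 0 := by
      simp only [u, Finset.sum_sub_distrib, hw1, Finset.sum_ite_eq', Finset.mem_univ, if_true]
      rw [Finset.sum_comm]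
      simp only [sub_self, ← mul_sum, hκ0, mul_zero, sum_const_zero]
    have expand : ∀ {n : ℕ} (q : ι → E n), ∑ i, u i • q i =
        q j - ∑ i, w 0 i • q i - ∑ k, x j k • ∑ i, κ k i • q i := by
      intro n q
      simp only [u, sub_smul, Finset.sum_sub_distrib, Finset.sum_smul, Finset.smul_sum,
        mul_smul, ite_smul, one_smul, zero_smul, Finset.sum_ite_eq', Finset.mem_univ, if_true]
      rw [Finset.sum_comm]
    have hux : ∑ i, u i • x i = 0 := by
      rw [expand x, ← hw 0]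
      simp only [hκ]
      ext c
      simp only [sub_zero, PiLp.sub_apply, WithLp.ofLp_sum, WithLp.ofLp_smul, PiLp.ofLp_single, Finset.sum_apply, Pi.smul_apply, Pi.single_apply, smul_eq_mul, mul_ite, mul_one, mul_zero, sum_ite_eq, mem_univ, ↓reduceIte, sub_self, PiLp.zero_apply]
    have hup : inner ℝ (∑ i, u i • p i) (∑ i, u i • p i) = 0 := by
      rw [inner_eq_of_dist_eq x p h _ _ hu0 hu0, hux, inner_zero_left]
    rw [inner_self_eq_zero, expand p, sub_sub, sub_eq_zero] at hup
    exact hup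

/-- Main identity. -/
theorem sum_norm_dv {ι : Type*} [Fintype ι] {d D : ℕ} (δ : Derivation ℚ ℝ ℝ)
    (x : ι → E d) (p : ι → E D)
    (hx : affineSpan ℝ (Set.range x) = ⊤)
    (h : ∀ i j, dist (p i) (p j) = dist (x i) (x j)) (μ : ι → ℝ)
    (h0 : ∑ i, μ i = 0) (h1 : ∀ k, ∑ i, μ i * x i k = 0)
    (h2 : ∀ k l, ∑ i, μ i * (x i k * x i l) = 0)
    (h3 : ∀ k, ∑ i, μ i * δ (x i k) = 0)
    (h4 : ∀ k l, ∑ i, μ i * (x i k * δ (x i l) - x i l * δ (x i k)) = 0) :
    ∑ i, μ i * ‖dv δ (p i)‖ ^ 2 = ∑ i, μ i * ‖dv δ (x i)‖ ^ 2 := by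
  classical
  obtain ⟨a, e, he, hp⟩ := exists_frame x p hx h
  -- antisymmetry of the mixed inner products
  have hanti : ∀ k l, inner ℝ (dv δ (e k)) (e l) = - inner ℝ (dv δ (e l)) (e k) := by
    intro k l
    have := deriv_inner δ (e k) (e l)
    rw [he] at this
    have hz : δ (if k = l then (1 : ℝ) else 0) = 0 := by split_ifs <;> simp
    rw [hz, real_inner_comm (dv δ (e l)) (e k)] at this
    linarith only [this]
  set A : E D := dv δ a with hA
  set u : ι → E D := fun i => ∑ k, x i k • dv δ (e k) with hu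
  set v : ι → E D := fun i => ∑ k, δ (x i k) • e k with hv
  have hdv : ∀ i, dv δ (p i) = A + u i + v i := by
    intro i
    rw [hp i, dv_add, dv_sum]
    simp only [dv_smul, Finset.sum_add_distrib, hA, hu, hv]
    abel
  have hAu : ∑ i, μ i * inner ℝ A (u i) = 0 := by
    simp only [hu, inner_sum, real_inner_smul_right, Finset.mul_sum]
    rw [Finset.sum_comm]
    refine Finset.sum_eq_zero (fun k _ => ?_)
    have : ∀ i, μ i * (x i k * inner ℝ A (dv δ (e k))) = (μ i * x i k) * inner ℝ A (dv δ (e k)) :=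
      fun i => by ring
    simp only [this, ← Finset.sum_mul, h1 k, zero_mul]
  have hAv : ∑ i, μ i * inner ℝ A (v i) = 0 := by
    simp only [hv, inner_sum, real_inner_smul_right, Finset.mul_sum]
    rw [Finset.sum_comm]
    refine Finset.sum_eq_zero (fun k _ => ?_)
    have : ∀ i, μ i * (δ (x i k) * inner ℝ A (e k)) = (μ i * δ (x i k)) * inner ℝ A (e k) :=
      fun i => by ring
    simp only [this, ← Finset.sum_mul, h3 k, zero_mul]
  have huu : ∑ i, μ i * inner ℝ (u i) (u i) = 0 := by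
    simp only [hu, inner_sum, sum_inner, real_inner_smul_right, real_inner_smul_left,
      Finset.mul_sum]
    rw [Finset.sum_comm]
    refine Finset.sum_eq_zero (fun k _ => ?_)
    rw [Finset.sum_comm]
    refine Finset.sum_eq_zero (fun l _ => ?_)
    have : ∀ i, μ i * (x i k * (x i l * inner ℝ (dv δ (e l)) (dv δ (e k))))
        = (μ i * (x i k * x i l)) * inner ℝ (dv δ (e l)) (dv δ (e k)) :=
      fun i => by ring
    simp only [this, ← Finset.sum_mul, h2 k l, zero_mul]
  have huv : ∑ i, μ i * inner ℝ (u i) (v i) = 0 := by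
    have e1 : ∑ i, μ i * inner ℝ (u i) (v i) =
        ∑ k, ∑ l, (∑ i, μ i * (x i k * δ (x i l))) * inner ℝ (dv δ (e k)) (e l) := by
      simp only [hu, hv, inner_sum, sum_inner, real_inner_smul_right, real_inner_smul_left,
        Finset.mul_sum, Finset.sum_mul]
      rw [Finset.sum_comm]
      rw [Finset.sum_comm (s := (Finset.univ : Finset (Fin d))) (t := (Finset.univ : Finset (Fin d)))]
      refine Finset.sum_congr rfl (fun k _ => ?_)
      rw [Finset.sum_comm]
      refine Finset.sum_congr rfl (fun l _ => Finset.sum_congr rfl (fun i _ => ?_))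
      ring
    have e2 : ∑ k, ∑ l, (∑ i, μ i * (x i k * δ (x i l))) * inner ℝ (dv δ (e k)) (e l)
        = ∑ k, ∑ l, (∑ i, μ i * (x i l * δ (x i k))) * inner ℝ (dv δ (e l)) (e k) :=
      Finset.sum_comm
    have e3 : ∑ k, ∑ l, (∑ i, μ i * (x i k * δ (x i l))) * inner ℝ (dv δ (e k)) (e l)
        + ∑ k, ∑ l, (∑ i, μ i * (x i l * δ (x i k))) * inner ℝ (dv δ (e l)) (e k) = 0 := by
      rw [← Finset.sum_add_distrib]
      refine Finset.sum_eq_zero (fun k _ => ?_)
      rw [← Finset.sum_add_distrib]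
      refine Finset.sum_eq_zero (fun l _ => ?_)
      rw [hanti k l]
      have h5 := h4 k l
      simp only [mul_sub, Finset.sum_sub_distrib] at h5
      have h6 : ∑ i, μ i * (x i k * δ (x i l)) = ∑ i, μ i * (x i l * δ (x i k)) := by linarith only [h5]
      rw [h6]; ring
    rw [e1]
    linarith only [e2, e3]
  have hvv : ∀ i, inner ℝ (v i) (v i) = ‖dv δ (x i)‖ ^ 2 := by
    intro i
    simp only [hv, inner_sum, sum_inner, real_inner_smul_right, real_inner_smul_left, he]
    rw [EuclideanSpace.real_norm_sq_eq]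
    simp only [mul_ite, mul_one, mul_zero, sum_ite_eq', mem_univ, ↓reduceIte, dv_apply, pow_two]
  have hexp : ∀ i, μ i * ‖dv δ (p i)‖ ^ 2 = μ i * inner ℝ A A + 2 * (μ i * inner ℝ A (u i))
      + 2 * (μ i * inner ℝ A (v i)) + μ i * inner ℝ (u i) (u i)
      + 2 * (μ i * inner ℝ (u i) (v i)) + μ i * ‖dv δ (x i)‖ ^ 2 := by
    intro i
    rw [hdv i, ← real_inner_self_eq_norm_sq, ← hvv i]
    simp only [inner_add_left, inner_add_right, real_inner_comm]
    ring
  rw [Finset.sum_congr rfl (fun i _ => hexp i)]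
  simp only [Finset.sum_add_distrib, ← Finset.mul_sum, ← Finset.sum_mul, hAu, hAv, huu, huv, h0]
  ring

end Vale.Agent.P058
end
end

section

section

namespace Vale.Agent.P058

/-- `A` has a signed balanced profile: integer weights `m j` on affine functionals
`p ↦ ⟨a j, p⟩ + b j` such that the signed multiset of values is the same at all points of `A`
and the signed sum of squared differences of values is the squared distance. -/
def HasSignedProfile {n : ℕ} (A : Set (EuclideanSpace ℝ (Fin n))) : Prop :=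
  ∃ (k : ℕ) (m : Fin k → ℤ) (a : Fin k → EuclideanSpace ℝ (Fin n)) (b : Fin k → ℝ),
    (∀ v ∈ A, ∀ w ∈ A, ∀ t : ℝ, (∑ j, if inner ℝ (a j) v + b j = t then m j else 0) =
      ∑ j, if inner ℝ (a j) w + b j = t then m j else 0) ∧
    ∀ v ∈ A, ∀ w ∈ A, ∑ j, (m j : ℝ) * (inner ℝ (a j) v - inner ℝ (a j) w) ^ 2 = dist v w ^ 2

end Vale.Agent.P058
end
end

section

section

/-!
Auxiliary notions for the proof that sets with a signed balanced profile are Ramsey.
`x : ι → (Fin d → ℝ)` are the points of the set; a row `(a, b)` is the affine functional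
`p ↦ a ⬝ p + b`; its cost is the matrix `a aᵀ`.
-/

namespace Vale.Agent.P058.Gen

variable {ι : Type*} {d : ℕ}

/-- affine functionals -/
abbrev Row (d : ℕ) := (Fin d → ℝ) × ℝ

/-- value of a row at a point -/
def rev (p : Fin d → ℝ) (y : Row d) : ℝ := y.1 ⬝ᵥ p + y.2

/-- cost of a row -/
def rcost (y : Row d) : Matrix (Fin d) (Fin d) ℝ := Matrix.vecMulVec y.1 y.1

/-- balanced lists of rows with arbitrarily small relative negative cost -/
def HasFlex (x : ι → Fin d → ℝ) : Prop :=
  ∀ η : ℝ, 0 < η → ∃ (s t : List (Row d)) (δ : ℝ), 0 < δ ∧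
    (∀ v, (s.map (rev (x v))).Perm (t.map (rev (x v)))) ∧
    (s.map rcost).sum = (t.map rcost).sum + δ • (1 : Matrix (Fin d) (Fin d) ℝ) ∧
    (t.map rcost).sum.trace ≤ η * δ

end Vale.Agent.P058.Gen
end
end

section

section

/-!
Real combinations of affine functionals (rows).
-/

namespace Vale.Agent.P058.Gen

variable {ι : Type*} {d : ℕ}

/-- the values at the point `p` -/
noncomputable def evl (p : Fin d → ℝ) : (Row d →₀ ℝ) →ₗ[ℝ] (ℝ →₀ ℝ) :=
  Finsupp.lmapDomain ℝ ℝ (rev p)

/-- total cost -/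
noncomputable def scost : (Row d →₀ ℝ) →ₗ[ℝ] Matrix (Fin d) (Fin d) ℝ :=
  Finsupp.linearCombination ℝ rcost

/-- cost of the negative part -/
noncomputable def qneg (u : Row d →₀ ℝ) : ℝ := u.sum fun h c => max (-c) 0 * (h.1 ⬝ᵥ h.1)

/-- integer balanced combinations -/
def IntBal (x : ι → Fin d → ℝ) (u : Row d →₀ ℝ) : Prop :=
  (∀ h, ∃ n : ℤ, u h = n) ∧ ∀ v w : ι, evl (x v) u = evl (x w) u

/-- the real span of the integer balanced combinations -/
noncomputable def Kb (x : ι → Fin d → ℝ) : Submodule ℝ (Row d →₀ ℝ) :=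
  Submodule.span ℝ {u | IntBal x u}

end Vale.Agent.P058.Gen
end
end

section

section

/-!
A signed balanced profile gives an element of `Kb` of total cost `1`.
-/

namespace Vale.Agent.P058.Gen

open Finset

lemma bilin_zero_of_profile {n : ℕ} {A : Set (EuclideanSpace ℝ (Fin n))}
    (v₀ : EuclideanSpace ℝ (Fin n)) (hv₀ : v₀ ∈ A) {k : ℕ} (m : Fin k → ℤ)
    (a : Fin k → EuclideanSpace ℝ (Fin n))
    (h2 : ∀ v ∈ A, ∀ w ∈ A, ∑ j, (m j : ℝ) * (inner ℝ (a j) v - inner ℝ (a j) w) ^ 2 =
      dist v w ^ 2)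
    (u u' : EuclideanSpace ℝ (Fin n))
    (hu : u ∈ Submodule.span ℝ ((fun v => v - v₀) '' A))
    (hu' : u' ∈ Submodule.span ℝ ((fun v => v - v₀) '' A)) :
    ∑ j, (m j : ℝ) * (inner ℝ (a j) u * inner ℝ (a j) u') = inner ℝ u u' := by
  have hq : ∀ v ∈ A, ∀ w ∈ A, ∑ j, (m j : ℝ) * (inner ℝ (a j) (v - w)) ^ 2 = ‖v - w‖ ^ 2 := by
    intro v hv w hw
    have := h2 v hv w hw
    rw [dist_eq_norm] at this
    rw [← this]
    refine Finset.sum_congr rfl fun j _ => ?_
    rw [inner_sub_right]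
  have base : ∀ v ∈ A, ∀ w ∈ A, ∑ j, (m j : ℝ) *
      (inner ℝ (a j) (v - v₀) * inner ℝ (a j) (w - v₀)) = inner ℝ (v - v₀) (w - v₀) := by
    intro v hv w hw
    have h1 := hq v hv v₀ hv₀
    have h3 := hq w hw v₀ hv₀
    have h4 := hq v hv w hw
    have e1 : ∀ j, inner ℝ (a j) (v - w) = inner ℝ (a j) (v - v₀) - inner ℝ (a j) (w - v₀) := by
      intro j
      rw [← inner_sub_right]
      congr 1; abel
    have e2 : ‖v - w‖ ^ 2 = ‖v - v₀‖ ^ 2 - 2 * inner ℝ (v - v₀) (w - v₀) + ‖w - v₀‖ ^ 2 := by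
      rw [← norm_sub_sq_real]
      congr 2; abel
    have e3 : ∑ j, (m j : ℝ) * (inner ℝ (a j) (v - w)) ^ 2 =
        ∑ j, (m j : ℝ) * (inner ℝ (a j) (v - v₀)) ^ 2 -
        2 * ∑ j, (m j : ℝ) * (inner ℝ (a j) (v - v₀) * inner ℝ (a j) (w - v₀)) +
        ∑ j, (m j : ℝ) * (inner ℝ (a j) (w - v₀)) ^ 2 := by
      rw [Finset.mul_sum, ← Finset.sum_sub_distrib, ← Finset.sum_add_distrib]
      refine Finset.sum_congr rfl fun j _ => ?_
      rw [e1]; ring
    rw [h4, e2, h1, h3] at e3
    linarith only [e3]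
  induction hu using Submodule.span_induction with
  | mem z hz =>
    obtain ⟨v, hv, rfl⟩ := hz
    induction hu' using Submodule.span_induction with
    | mem z hz =>
      obtain ⟨w, hw, rfl⟩ := hz
      exact base v hv w hw
    | zero => simp only [inner_zero_right, mul_zero, sum_const_zero]
    | add y z _ _ hy hz =>
      rw [inner_add_right, ← hy, ← hz, ← Finset.sum_add_distrib]
      refine Finset.sum_congr rfl fun j _ => ?_
      rw [inner_add_right]; ring
    | smul c z _ hz =>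
      rw [real_inner_smul_right, ← hz, Finset.mul_sum]
      refine Finset.sum_congr rfl fun j _ => ?_
      rw [real_inner_smul_right]; ring
  | zero => simp only [inner_zero_right, zero_mul, mul_zero, sum_const_zero, inner_zero_left]
  | add y z _ _ hy hz =>
    rw [inner_add_left, ← hy, ← hz, ← Finset.sum_add_distrib]
    refine Finset.sum_congr rfl fun j _ => ?_
    rw [inner_add_right]; ring
  | smul c z _ hz =>
    rw [real_inner_smul_left, ← hz, Finset.mul_sum]
    refine Finset.sum_congr rfl fun j _ => ?_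
    rw [real_inner_smul_right]; ring

lemma rev_ofLp {n : ℕ} (a v : EuclideanSpace ℝ (Fin n)) (b : ℝ) :
    rev (fun i => v i) ((fun i => a i, b) : Row n) = inner ℝ a v + b := by
  rw [rev, PiLp.inner_apply]
  simp only [dotProduct, RCLike.inner_apply, conj_trivial]
  congr 1
  exact Finset.sum_congr rfl fun i _ => mul_comm _ _

/-- an integer combination of rows which is balanced -/
lemma intBal_sum {n : ℕ} (A : Set (EuclideanSpace ℝ (Fin n))) {k : ℕ} (m : Fin k → ℤ)
    (y : Fin k → Row n)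
    (h1 : ∀ v ∈ A, ∀ w ∈ A, ∀ t : ℝ, (∑ j, if rev (fun i => v i) (y j) = t then m j else 0) =
      ∑ j, if rev (fun i => w i) (y j) = t then m j else 0) :
    IntBal (fun (v : A) j => (v : EuclideanSpace ℝ (Fin n)) j)
      (∑ j, Finsupp.single (y j) (m j : ℝ)) := by
  classical
  refine ⟨fun h => ⟨∑ j, if y j = h then m j else 0, ?_⟩, fun v w => ?_⟩
  · rw [Finsupp.finsetSum_apply]
    push_cast
    refine Finset.sum_congr rfl fun j _ => ?_
    rw [Finsupp.single_apply]
  · have key : ∀ v : A, evl (fun j => (v : EuclideanSpace ℝ (Fin n)) j)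
        (∑ j, Finsupp.single (y j) (m j : ℝ)) =
        ∑ j, Finsupp.single (rev (fun i => (v : EuclideanSpace ℝ (Fin n)) i) (y j)) (m j : ℝ) := by
      intro v
      rw [evl, map_sum]
      refine Finset.sum_congr rfl fun j _ => ?_
      rw [Finsupp.lmapDomain_apply, Finsupp.mapDomain_single]
    beta_reduce
    rw [key, key]
    ext t
    rw [Finsupp.finsetSum_apply, Finsupp.finsetSum_apply]
    have h3 := h1 v v.2 w w.2 t
    have h4 : ∀ z : A, (∑ j, (Finsupp.single (rev (fun i => (z : EuclideanSpace ℝ (Fin n)) i)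
        (y j)) (m j : ℝ)) t) =
        ((∑ j, if rev (fun i => (z : EuclideanSpace ℝ (Fin n)) i) (y j) = t then m j else 0 : ℤ)
          : ℝ) := by
      intro z
      push_cast
      refine Finset.sum_congr rfl fun j _ => ?_
      rw [Finsupp.single_apply]
    rw [h4, h4, h3]

theorem exists_Kb_of_signed {n : ℕ} (A : Set (EuclideanSpace ℝ (Fin n))) (hA : A.Finite)
    (hne : A.Nonempty) (h : HasSignedProfile A) :
    ∃ v ∈ Kb (fun (v : A) j => (v : EuclideanSpace ℝ (Fin n)) j), scost v = 1 := by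
  classical
  obtain ⟨v₀, hv₀⟩ := hne
  obtain ⟨k, m, a, b, h1, h2⟩ := h
  set E0 : Submodule ℝ (EuclideanSpace ℝ (Fin n)) :=
    Submodule.span ℝ ((fun v => v - v₀) '' A) with hE0
  let P := E0.starProjection
  have hPmem : ∀ u, P u ∈ E0 := fun u => Submodule.starProjection_apply_mem E0 u
  have hPself : ∀ u ∈ E0, P u = u := fun u hu => Submodule.starProjection_eq_self_iff.mpr hu
  have hPsym : ∀ u v, inner ℝ (P u) v = inner ℝ u (P v) := fun u v =>
    E0.inner_starProjection_left_eq_right u v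
  -- the orthonormal basis of the complement
  let ob := stdOrthonormalBasis ℝ E0ᗮ
  let e : Fin (Module.finrank ℝ E0ᗮ) → EuclideanSpace ℝ (Fin n) := fun l => ob l
  have heE0 : ∀ l, ∀ u ∈ E0, inner ℝ (e l) u = 0 := fun l u hu =>
    (Submodule.mem_orthogonal' E0 _).mp (ob l).2 u hu
  have hsub : ∀ u, u - P u ∈ E0ᗮ := by
    intro u
    rw [Submodule.mem_orthogonal']
    intro w hw
    rw [inner_sub_left, hPsym, hPself w hw, sub_self]
  have hperp : ∀ u u' : EuclideanSpace ℝ (Fin n),
      ∑ l, inner ℝ (e l) u * inner ℝ (e l) u' = inner ℝ (u - P u) (u' - P u') := by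
    intro u u'
    have h3 := ob.sum_inner_mul_inner ⟨u - P u, hsub u⟩ ⟨u' - P u', hsub u'⟩
    rw [Submodule.coe_inner] at h3
    rw [← h3]
    refine Finset.sum_congr rfl fun l _ => ?_
    rw [Submodule.coe_inner, Submodule.coe_inner]
    change _ = inner ℝ (u - P u) (e l) * inner ℝ (e l) (u' - P u')
    rw [real_inner_comm (e l) (u - P u), inner_sub_right, inner_sub_right, heE0 l _ (hPmem u'),
      heE0 l _ (hPmem u), sub_zero, sub_zero]
  have hpara : ∀ u u' : EuclideanSpace ℝ (Fin n),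
      ∑ j, (m j : ℝ) * (inner ℝ (P (a j)) u * inner ℝ (P (a j)) u') = inner ℝ (P u) (P u') := by
    intro u u'
    rw [← bilin_zero_of_profile v₀ hv₀ m a h2 (P u) (P u') (hPmem u) (hPmem u')]
    refine Finset.sum_congr rfl fun j _ => ?_
    rw [hPsym, hPsym]
  have htotal : ∀ u u' : EuclideanSpace ℝ (Fin n),
      ∑ j, (m j : ℝ) * (inner ℝ (P (a j)) u * inner ℝ (P (a j)) u') +
        ∑ l, inner ℝ (e l) u * inner ℝ (e l) u' = inner ℝ u u' := by
    intro u u'
    rw [hpara, hperp, inner_sub_left, inner_sub_right, inner_sub_right, hPsym u (P u'),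
      hPself _ (hPmem u'), hPsym u u']
    ring
  -- the rows
  let yj : Fin k → Row n := fun j =>
    (fun i => P (a j) i, b j + inner ℝ (a j) v₀ - inner ℝ (P (a j)) v₀)
  let yl : Fin (Module.finrank ℝ E0ᗮ) → Row n := fun l =>
    (fun i => e l i, -inner ℝ (e l) v₀)
  have hmemE0 : ∀ v ∈ A, v - v₀ ∈ E0 := fun v hv => Submodule.subset_span ⟨v, hv, rfl⟩
  have hvj : ∀ v ∈ A, ∀ j, rev (fun i => v i) (yj j) = inner ℝ (a j) v + b j := by
    intro v hv j
    rw [rev_ofLp]
    have h4 : inner ℝ (P (a j)) (v - v₀) = inner ℝ (a j) (v - v₀) := by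
      rw [hPsym, hPself _ (hmemE0 v hv)]
    rw [inner_sub_right, inner_sub_right] at h4
    linarith
  have hvl : ∀ v ∈ A, ∀ l, rev (fun i => v i) (yl l) = 0 := by
    intro v hv l
    rw [rev_ofLp]
    have h4 := heE0 l _ (hmemE0 v hv)
    rw [inner_sub_right] at h4
    linarith only [h4]
  refine ⟨∑ j, Finsupp.single (yj j) (m j : ℝ) + ∑ l, Finsupp.single (yl l) (1 : ℝ),
    Submodule.add_mem _ (Submodule.subset_span ?_) (Submodule.sum_mem _ fun l _ =>
      Submodule.subset_span ?_), ?_⟩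
  · refine intBal_sum A m yj ?_
    intro v hv w hw t
    simp only [hvj v hv, hvj w hw]
    exact h1 v hv w hw t
  · have h5 := intBal_sum A (k := 1) (fun _ => 1) (fun _ => yl l) (by
      intro v hv w hw t
      simp only [hvl v hv, hvl w hw])
    simpa only [Set.mem_ofPred_eq, univ_unique, Fin.default_eq_zero, Fin.isValue, Int.cast_one, sum_const,     card_singleton, one_smul] using h5
  · rw [map_add, map_sum, map_sum]
    ext p q
    have hs : ∀ (y : Row n) (c : ℝ), scost (Finsupp.single y c) = c • rcost y := by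
      intro y c
      rw [scost, Finsupp.linearCombination_single]
    simp only [hs, one_smul, Matrix.add_apply, Matrix.sum_apply, Matrix.smul_apply, rcost,
      Matrix.vecMulVec_apply, smul_eq_mul]
    have h6 := htotal (EuclideanSpace.single p (1 : ℝ)) (EuclideanSpace.single q (1 : ℝ))
    simp only [EuclideanSpace.inner_single_right, conj_trivial, one_mul] at h6
    simp only [yj, yl]
    rw [h6, Matrix.one_apply]
    simp [Pi.single_apply, eq_comm]

end Vale.Agent.P058.Gen
end
end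

section

section

namespace Vale.Agent.P058.Gen

variable {ι : Type*} {d : ℕ}

/-- translation of rows -/
noncomputable def trl (h : Row d) : (Row d →₀ ℝ) →ₗ[ℝ] (Row d →₀ ℝ) :=
  Finsupp.lmapDomain ℝ ℝ (· + h)

theorem trl_single (h y : Row d) (c : ℝ) :
    trl h (Finsupp.single y c) = Finsupp.single (y + h) c := by
  simp [trl]

theorem trl_trl (h k : Row d) (u : Row d →₀ ℝ) : trl h (trl k u) = trl (k + h) u := by
  simp only [trl, Finsupp.lmapDomain_apply, ← Finsupp.mapDomain_comp]
  congr 1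
  funext y
  simp [add_assoc]

theorem trl_zero (u : Row d →₀ ℝ) : trl 0 u = u := by
  simp only [trl, Finsupp.lmapDomain_apply, add_zero]
  exact Finsupp.mapDomain_id

/-- total absolute cost -/
noncomputable def qabs (u : Row d →₀ ℝ) : ℝ := u.sum fun h c => |c| * (h.1 ⬝ᵥ h.1)

theorem dot_self_nonneg' (a : Fin d → ℝ) : 0 ≤ a ⬝ᵥ a := by
  unfold dotProduct
  exact Finset.sum_nonneg fun i _ => mul_self_nonneg _

theorem qneg_eq (u : Row d →₀ ℝ) (s : Finset (Row d)) (hs : u.support ⊆ s) :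
    qneg u = ∑ h ∈ s, max (-u h) 0 * (h.1 ⬝ᵥ h.1) := by
  unfold qneg
  exact Finsupp.sum_of_support_subset _ hs _ (by simp only [neg_zero, max_self, zero_mul, implies_true])

theorem qabs_eq (u : Row d →₀ ℝ) (s : Finset (Row d)) (hs : u.support ⊆ s) :
    qabs u = ∑ h ∈ s, |u h| * (h.1 ⬝ᵥ h.1) := by
  unfold qabs
  exact Finsupp.sum_of_support_subset _ hs _ (by simp only [abs_zero, zero_mul, implies_true])

theorem qneg_nonneg (u : Row d →₀ ℝ) : 0 ≤ qneg u := by
  rw [qneg_eq u _ subset_rfl]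
  exact Finset.sum_nonneg fun h _ => mul_nonneg (le_max_right _ _) (dot_self_nonneg' _)

theorem qabs_nonneg (u : Row d →₀ ℝ) : 0 ≤ qabs u := by
  rw [qabs_eq u _ subset_rfl]
  exact Finset.sum_nonneg fun h _ => mul_nonneg (abs_nonneg _) (dot_self_nonneg' _)

theorem qneg_add (u w : Row d →₀ ℝ) : qneg (u + w) ≤ qneg u + qneg w := by
  classical
  have h1 := qneg_eq u (u.support ∪ w.support) Finset.subset_union_left
  have h2 := qneg_eq w (u.support ∪ w.support) Finset.subset_union_right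
  have h3 := qneg_eq (u + w) (u.support ∪ w.support) Finsupp.support_add
  rw [h1, h2, h3, ← Finset.sum_add_distrib]
  refine Finset.sum_le_sum fun h _ => ?_
  rw [← add_mul]
  refine mul_le_mul_of_nonneg_right ?_ (dot_self_nonneg' _)
  rw [Finsupp.add_apply]
  refine max_le ?_ (add_nonneg (le_max_right _ _) (le_max_right _ _))
  have := le_max_left (-u h) 0
  have := le_max_left (-w h) 0
  linarith

theorem qabs_add (u w : Row d →₀ ℝ) : qabs (u + w) ≤ qabs u + qabs w := by
  classical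
  have h1 := qabs_eq u (u.support ∪ w.support) Finset.subset_union_left
  have h2 := qabs_eq w (u.support ∪ w.support) Finset.subset_union_right
  have h3 := qabs_eq (u + w) (u.support ∪ w.support) Finsupp.support_add
  rw [h1, h2, h3, ← Finset.sum_add_distrib]
  refine Finset.sum_le_sum fun h _ => ?_
  rw [← add_mul]
  refine mul_le_mul_of_nonneg_right ?_ (dot_self_nonneg' _)
  rw [Finsupp.add_apply]
  exact abs_add_le _ _

theorem qneg_smul (c : ℝ) (hc : 0 ≤ c) (u : Row d →₀ ℝ) : qneg (c • u) = c * qneg u := by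
  rw [qneg_eq u _ subset_rfl, qneg_eq (c • u) u.support Finsupp.support_smul, Finset.mul_sum]
  refine Finset.sum_congr rfl fun h _ => ?_
  rw [Finsupp.smul_apply, smul_eq_mul, ← mul_assoc]
  congr 1
  rw [mul_max_of_nonneg _ _ hc, mul_zero, mul_neg]

theorem qabs_smul (c : ℝ) (u : Row d →₀ ℝ) : qabs (c • u) = |c| * qabs u := by
  rw [qabs_eq u _ subset_rfl, qabs_eq (c • u) u.support Finsupp.support_smul, Finset.mul_sum]
  refine Finset.sum_congr rfl fun h _ => ?_
  rw [Finsupp.smul_apply, smul_eq_mul, abs_mul, mul_assoc]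

theorem qneg_le_qabs (u : Row d →₀ ℝ) : qneg u ≤ qabs u := by
  rw [qneg_eq u _ subset_rfl, qabs_eq u _ subset_rfl]
  refine Finset.sum_le_sum fun h _ => mul_le_mul_of_nonneg_right ?_ (dot_self_nonneg' _)
  exact max_le (neg_le_abs _) (abs_nonneg _)

theorem qneg_single (h : Row d) (c : ℝ) :
    qneg (Finsupp.single h c) = max (-c) 0 * (h.1 ⬝ᵥ h.1) := by
  unfold qneg
  exact Finsupp.sum_single_index (by simp only [neg_zero, max_self, zero_mul])

theorem qneg_trl (s : ℝ) (u : Row d →₀ ℝ) : qneg (trl (0, s) u) = qneg u := by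
  unfold qneg trl
  rw [Finsupp.lmapDomain_apply, Finsupp.sum_mapDomain_index_inj (add_left_injective _)]
  simp only [Prod.fst_add, add_zero]

theorem qabs_trl (s : ℝ) (u : Row d →₀ ℝ) : qabs (trl (0, s) u) = qabs u := by
  unfold qabs trl
  rw [Finsupp.lmapDomain_apply, Finsupp.sum_mapDomain_index_inj (add_left_injective _)]
  simp only [Prod.fst_add, add_zero]

theorem scost_single (h : Row d) (c : ℝ) : scost (Finsupp.single h c) = c • rcost h := by
  simp [scost]

theorem scost_trl (s : ℝ) (u : Row d →₀ ℝ) : scost (trl (0, s) u) = scost u := by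
  have : (scost ∘ₗ trl (0, s) : (Row d →₀ ℝ) →ₗ[ℝ] _) = scost := by
    ext h
    simp only [LinearMap.coe_comp, Function.comp_apply, Finsupp.lsingle_apply, trl_single, scost_single, rcost, Prod.fst_add, add_zero, Matrix.smul_apply, smul_eq_mul, one_mul]
  exact LinearMap.congr_fun this u

theorem rev_add (p : Fin d → ℝ) (y h : Row d) : rev p (y + h) = rev p y + rev p h := by
  simp only [rev, Prod.fst_add, Prod.snd_add, add_dotProduct]
  ring

theorem evl_trl (p : Fin d → ℝ) (h : Row d) (u : Row d →₀ ℝ) :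
    evl p (trl h u) = Finsupp.mapDomain (· + rev p h) (evl p u) := by
  simp only [evl, trl, Finsupp.lmapDomain_apply, ← Finsupp.mapDomain_comp]
  congr 1
  funext y
  exact rev_add p y h

theorem IntBal.trl {x : ι → Fin d → ℝ} {u : Row d →₀ ℝ} (hu : IntBal x u) (s : ℝ) :
    IntBal x (trl (0, s) u) := by
  refine ⟨fun h => ?_, fun v w => ?_⟩
  · have h1 : Gen.trl (0, s) u h = u (h - (0, s)) := by
      have h2 := Finsupp.mapDomain_apply (add_left_injective ((0, s) : Row d)) u (h - (0, s))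
      simp only [sub_add_cancel] at h2
      exact h2
    rw [h1]
    exact hu.1 _
  · rw [evl_trl, evl_trl, hu.2 v w]
    simp only [rev, zero_dotProduct, zero_add]

theorem trl_mem_Kb {x : ι → Fin d → ℝ} {u : Row d →₀ ℝ} (hu : u ∈ Kb x) (s : ℝ) :
    trl (0, s) u ∈ Kb x := by
  have : Kb x ≤ (Kb x).comap (trl (0, s)) := by
    refine Submodule.span_le.2 fun u hu => ?_
    exact Submodule.subset_span (IntBal.trl hu s)
  exact this hu

/-- averages of translations by constants -/
def avg (d : ℕ) : Set ((Row d →₀ ℝ) →ₗ[ℝ] (Row d →₀ ℝ)) :=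
  convexHull ℝ (Set.range fun s : ℝ => trl ((0, s) : Row d))

theorem avg_ind {P : ((Row d →₀ ℝ) →ₗ[ℝ] (Row d →₀ ℝ)) → Prop}
    (h1 : ∀ s : ℝ, P (trl (0, s)))
    (h2 : ∀ A B, P A → P B → ∀ a b : ℝ, 0 ≤ a → 0 ≤ b → a + b = 1 → P (a • A + b • B))
    {A : (Row d →₀ ℝ) →ₗ[ℝ] (Row d →₀ ℝ)} (hA : A ∈ avg d) : P A := by
  have : avg d ⊆ {A | P A} := by
    refine convexHull_min ?_ ?_
    · rintro _ ⟨s, rfl⟩
      exact h1 s
    · intro A hA B hB a b ha hb hab
      exact h2 A B hA hB a b ha hb hab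
  exact this hA

theorem avg_qneg {A : (Row d →₀ ℝ) →ₗ[ℝ] (Row d →₀ ℝ)} (hA : A ∈ avg d) (u : Row d →₀ ℝ) :
    qneg (A u) ≤ qneg u := by
  refine avg_ind (P := fun A => qneg (A u) ≤ qneg u) (fun s => (qneg_trl s u).le) ?_ hA
  intro A B hA hB a b ha hb hab
  rw [LinearMap.add_apply, LinearMap.smul_apply, LinearMap.smul_apply]
  refine (qneg_add _ _).trans ?_
  rw [qneg_smul a ha, qneg_smul b hb]
  have h3 : b = 1 - a := by linarith only [hab]
  subst h3
  nlinarith only [hA, ha, hB, hb]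

theorem avg_qabs {A : (Row d →₀ ℝ) →ₗ[ℝ] (Row d →₀ ℝ)} (hA : A ∈ avg d) (u : Row d →₀ ℝ) :
    qabs (A u) ≤ qabs u := by
  refine avg_ind (P := fun A => qabs (A u) ≤ qabs u) (fun s => (qabs_trl s u).le) ?_ hA
  intro A B hA hB a b ha hb hab
  rw [LinearMap.add_apply, LinearMap.smul_apply, LinearMap.smul_apply]
  refine (qabs_add _ _).trans ?_
  rw [qabs_smul, qabs_smul, abs_of_nonneg ha, abs_of_nonneg hb]
  have h3 : b = 1 - a := by linarith only [hab]
  subst h3
  nlinarith only [hA, ha, hB, hb]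

theorem avg_scost {A : (Row d →₀ ℝ) →ₗ[ℝ] (Row d →₀ ℝ)} (hA : A ∈ avg d) (u : Row d →₀ ℝ) :
    scost (A u) = scost u := by
  refine avg_ind (P := fun A => scost (A u) = scost u) (fun s => scost_trl s u) ?_ hA
  intro A B hA hB a b ha hb hab
  rw [LinearMap.add_apply, LinearMap.smul_apply, LinearMap.smul_apply, map_add, map_smul,
    map_smul, hA, hB, ← add_smul, hab, one_smul]

theorem avg_mem_Kb {x : ι → Fin d → ℝ} {A : (Row d →₀ ℝ) →ₗ[ℝ] (Row d →₀ ℝ)} (hA : A ∈ avg d)
    {u : Row d →₀ ℝ} (hu : u ∈ Kb x) : A u ∈ Kb x := by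
  refine avg_ind (P := fun A => A u ∈ Kb x) (fun s => trl_mem_Kb hu s) ?_ hA
  intro A B hA hB a b ha hb hab
  rw [LinearMap.add_apply, LinearMap.smul_apply, LinearMap.smul_apply]
  exact add_mem ((Kb x).smul_mem _ hA) ((Kb x).smul_mem _ hB)

theorem avg_comm_trl {A : (Row d →₀ ℝ) →ₗ[ℝ] (Row d →₀ ℝ)} (hA : A ∈ avg d) (s : ℝ)
    (u : Row d →₀ ℝ) : A (trl (0, s) u) = trl (0, s) (A u) := by
  refine avg_ind (P := fun A => A (trl (0, s) u) = trl (0, s) (A u)) (fun s' => ?_) ?_ hA
  · rw [trl_trl, trl_trl, add_comm]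
  intro A B hA hB a b ha hb hab
  simp only [LinearMap.add_apply, LinearMap.smul_apply, map_add, map_smul, hA, hB]

theorem avg_comm {A B : (Row d →₀ ℝ) →ₗ[ℝ] (Row d →₀ ℝ)} (hA : A ∈ avg d) (hB : B ∈ avg d)
    (u : Row d →₀ ℝ) : A (B u) = B (A u) := by
  refine avg_ind (P := fun B => A (B u) = B (A u)) (fun s' => avg_comm_trl hA s' u) ?_ hB
  intro B B' hB hB' a b ha hb hab
  simp only [LinearMap.add_apply, LinearMap.smul_apply, map_add, map_smul, hB, hB']

theorem avg_comp {A B : (Row d →₀ ℝ) →ₗ[ℝ] (Row d →₀ ℝ)} (hA : A ∈ avg d) (hB : B ∈ avg d) :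
    A ∘ₗ B ∈ avg d := by
  refine avg_ind (P := fun A => A ∘ₗ B ∈ avg d) (fun s => ?_) ?_ hA
  · refine avg_ind (P := fun B => trl (0, s) ∘ₗ B ∈ avg d) (fun s' => ?_) ?_ hB
    · refine subset_convexHull _ _ ⟨s' + s, ?_⟩
      refine LinearMap.ext fun u => ?_
      change trl (0, s' + s) u = trl (0, s) (trl (0, s') u)
      rw [trl_trl]
      simp
    · intro B B' hB hB' a b ha hb hab
      rw [LinearMap.comp_add, LinearMap.comp_smul, LinearMap.comp_smul]
      exact (convex_convexHull ℝ _) hB hB' ha hb hab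
  · intro A A' hA hA' a b ha hb hab
    rw [LinearMap.add_comp, LinearMap.smul_comp, LinearMap.smul_comp]
    exact (convex_convexHull ℝ _) hA hA' ha hb hab

/-- combinations of translation differences -/
noncomputable def Tdif (d : ℕ) : Submodule ℝ (Row d →₀ ℝ) :=
  Submodule.span ℝ {z | ∃ (s : ℝ) (u : Row d →₀ ℝ), z = trl (0, s) u - u}

theorem avg_nonempty : ∃ A : (Row d →₀ ℝ) →ₗ[ℝ] (Row d →₀ ℝ), A ∈ avg d :=
  ⟨_, subset_convexHull _ _ ⟨0, rfl⟩⟩

theorem avg_small_gen (s : ℝ) (u : Row d →₀ ℝ) (δ : ℝ) (hδ : 0 < δ) :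
    ∃ A ∈ avg d, qabs (A (trl (0, s) u - u)) ≤ δ := by
  obtain ⟨n, hn⟩ := exists_nat_gt (2 * qabs u / δ)
  have hn0 : (0 : ℝ) < n := lt_of_le_of_lt (by have := qabs_nonneg u; positivity) hn
  have hn1 : n ≠ 0 := by
    rintro rfl
    simp at hn0
  have hsum : ∑ _k ∈ Finset.range n, ((n : ℝ)⁻¹) = 1 := by
    rw [Finset.sum_const, Finset.card_range, nsmul_eq_mul, mul_inv_cancel₀ hn0.ne']
  have hconv : Convex ℝ (avg d) := convex_convexHull ℝ _
  refine ⟨∑ k ∈ Finset.range n, ((n : ℝ)⁻¹) • trl ((0, (k : ℝ) * s) : Row d), ?_, ?_⟩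
  · have hmem : ∀ k : ℕ, trl ((0, (k : ℝ) * s) : Row d) ∈ avg d := by
      intro k
      exact subset_convexHull _ _ ⟨(k : ℝ) * s, rfl⟩
    exact Convex.sum_mem (t := Finset.range n) (w := fun _ => (n : ℝ)⁻¹)
      (z := fun k : ℕ => trl ((0, (k : ℝ) * s) : Row d)) hconv
      (fun _ _ => (inv_pos.2 hn0).le) hsum (fun k _ => hmem k)
  · have h1 : (∑ k ∈ Finset.range n, ((n : ℝ)⁻¹) • trl ((0, (k : ℝ) * s) : Row d))
        (trl (0, s) u - u) = (n : ℝ)⁻¹ • (trl (0, (n : ℝ) * s) u - u) := by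
      rw [LinearMap.sum_apply]
      simp only [LinearMap.smul_apply, map_sub, trl_trl, ← smul_sub]
      rw [← Finset.smul_sum]
      congr 1
      have h2 := Finset.sum_range_sub (fun k : ℕ => trl ((0, (k : ℝ) * s) : Row d) u) n
      have h3 : trl ((0, ((0 : ℕ) : ℝ) * s) : Row d) u = u := by
        have : ((0, ((0 : ℕ) : ℝ) * s) : Row d) = 0 := by simp
        rw [this, trl_zero]
      rw [h3] at h2
      rw [← h2]
      refine Finset.sum_congr rfl fun k _ => ?_
      congr 3
      simp only [Prod.mk_add_mk, add_zero, Prod.mk.injEq, true_and]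
      push_cast
      ring
    rw [h1, qabs_smul, abs_of_pos (inv_pos.2 hn0)]
    have h4 : qabs (trl (0, (n : ℝ) * s) u - u) ≤ 2 * qabs u := by
      rw [sub_eq_add_neg]
      refine (qabs_add _ _).trans ?_
      rw [qabs_trl, ← neg_one_smul ℝ u, qabs_smul]
      simp only [abs_neg, abs_one, one_mul]
      linarith only []
    rw [inv_mul_le_iff₀ hn0]
    rw [div_lt_iff₀ hδ] at hn
    linarith only [hn, h4]

theorem avg_small (w : Row d →₀ ℝ) (hw : w ∈ Tdif d) :
    ∀ δ : ℝ, 0 < δ → ∃ A ∈ avg d, qabs (A w) ≤ δ := by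
  refine Submodule.span_induction ?_ ?_ ?_ ?_ hw
  · rintro _ ⟨s, u, rfl⟩ δ hδ
    exact avg_small_gen s u δ hδ
  · intro δ hδ
    obtain ⟨A, hA⟩ := avg_nonempty (d := d)
    refine ⟨A, hA, ?_⟩
    rw [map_zero]
    simp only [qabs, Finsupp.sum_zero_index, hδ.le]
  · intro u w _ _ hu hw δ hδ
    obtain ⟨A, hA, hAu⟩ := hu (δ / 2) (by positivity)
    obtain ⟨B, hB, hBw⟩ := hw (δ / 2) (by positivity)
    refine ⟨A ∘ₗ B, avg_comp hA hB, ?_⟩
    rw [map_add]
    refine (qabs_add _ _).trans ?_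
    have h1 : qabs ((A ∘ₗ B) u) ≤ δ / 2 := by
      rw [LinearMap.comp_apply, avg_comm hA hB]
      exact (avg_qabs hB _).trans hAu
    have h2 : qabs ((A ∘ₗ B) w) ≤ δ / 2 := by
      rw [LinearMap.comp_apply]
      exact (avg_qabs hA _).trans hBw
    linarith only [h1, h2]
  · intro c u _ hu δ hδ
    obtain ⟨A, hA, hAu⟩ := hu (δ / (|c| + 1)) (by positivity)
    refine ⟨A, hA, ?_⟩
    rw [map_smul, qabs_smul]
    have h1 : |c| * qabs (A u) ≤ |c| * (δ / (|c| + 1)) :=
      mul_le_mul_of_nonneg_left hAu (abs_nonneg _)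
    refine h1.trans ?_
    rw [mul_div_assoc', div_le_iff₀ (by positivity)]
    nlinarith only [hδ]

theorem key_ineq (x : ι → Fin d → ℝ) (ε : ℝ)
    (H : ∀ u ∈ Kb x, scost u = 1 → ε ≤ qneg u) (v : Row d →₀ ℝ) (hv : v ∈ Kb x)
    (hS : scost v = 1) (w : Row d →₀ ℝ) (hw : w ∈ (Kb x ⊓ LinearMap.ker scost) ⊔ Tdif d)
    (t : ℝ) (ht : 0 < t) : t * ε ≤ qneg (w + t • v) := by
  obtain ⟨w1, hw1, w2, hw2, rfl⟩ := Submodule.mem_sup.1 hw
  refine le_of_forall_pos_le_add fun δ hδ => ?_
  obtain ⟨A, hA, hAw⟩ := avg_small w2 hw2 δ hδ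
  have h1 : A (w1 + t • v) ∈ Kb x :=
    avg_mem_Kb hA (add_mem hw1.1 ((Kb x).smul_mem _ hv))
  have h2 : scost (A (w1 + t • v)) = t • (1 : Matrix (Fin d) (Fin d) ℝ) := by
    rw [avg_scost hA, map_add, map_smul, hS, LinearMap.mem_ker.1 hw1.2, zero_add]
  have h3 : t * ε ≤ qneg (A (w1 + t • v)) := by
    have h4 := H (t⁻¹ • A (w1 + t • v)) ((Kb x).smul_mem _ h1) (by
      rw [map_smul, h2, smul_smul, inv_mul_cancel₀ ht.ne', one_smul])
    rw [qneg_smul _ (inv_pos.2 ht).le, inv_mul_eq_div, le_div_iff₀ ht] at h4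
    linarith
  have h5 : A (w1 + t • v) = A (w1 + w2 + t • v) + (-1 : ℝ) • A w2 := by
    rw [← map_smul, ← map_add]
    congr 1
    module
  have h6 : qneg ((-1 : ℝ) • A w2) ≤ δ := by
    refine (qneg_le_qabs _).trans ?_
    rw [qabs_smul]
    simpa only [abs_neg, abs_one, one_mul] using hAw
  calc t * ε ≤ qneg (A (w1 + t • v)) := h3
    _ ≤ qneg (A (w1 + w2 + t • v)) + qneg ((-1 : ℝ) • A w2) := by
        rw [h5]
        exact qneg_add _ _
    _ ≤ qneg (w1 + w2 + t • v) + δ := add_le_add (avg_qneg hA _) h6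

theorem exists_functional (x : ι → Fin d → ℝ) (ε : ℝ) (hε : 0 < ε)
    (H : ∀ u ∈ Kb x, scost u = 1 → ε ≤ qneg u) (v : Row d →₀ ℝ) (hv : v ∈ Kb x)
    (hS : scost v = 1) :
    ∃ g : (Row d →₀ ℝ) →ₗ[ℝ] ℝ, g v = ε ∧
      (∀ w ∈ Kb x, scost w = 0 → g w = 0) ∧ (∀ s u, g (trl (0, s) u) = g u) ∧
      ∀ u, g u ≤ qneg u := by
  set W : Submodule ℝ (Row d →₀ ℝ) := (Kb x ⊓ LinearMap.ker scost) ⊔ Tdif d with hW
  have hvW : v ∉ W := by
    intro hvW
    have h1 := key_ineq x ε H v hv hS (-v) (neg_mem hvW) 1 one_pos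
    have h2 : -v + (1 : ℝ) • v = 0 := by rw [one_smul]; simp
    rw [h2] at h1
    simp only [one_mul, qneg, Finsupp.sum_zero_index] at h1
    linarith
  let f0 : (Row d →₀ ℝ) →ₗ.[ℝ] ℝ := ⟨W, 0⟩
  let f := f0.supSpanSingleton v ε hvW
  have hf : ∀ z : f.domain, f z ≤ qneg (z : Row d →₀ ℝ) := by
    rintro ⟨z, hz⟩
    obtain ⟨w, hw, z', hz', rfl⟩ := Submodule.mem_sup.1 hz
    obtain ⟨c, rfl⟩ := Submodule.mem_span_singleton.1 hz'
    have h1 : f ⟨w + c • v, hz⟩ = f0 ⟨w, hw⟩ + c • ε :=
      LinearPMap.supSpanSingleton_apply_mk f0 v ε hvW w hw c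
    rw [h1]
    change (0 : W →ₗ[ℝ] ℝ) ⟨w, hw⟩ + c • ε ≤ qneg (w + c • v)
    rw [LinearMap.zero_apply, zero_add, smul_eq_mul]
    rcases le_or_gt c 0 with hc | hc
    · exact (mul_nonpos_of_nonpos_of_nonneg hc hε.le).trans (qneg_nonneg _)
    · exact key_ineq x ε H v hv hS w hw c hc
  obtain ⟨g, hg1, hg2⟩ := exists_extension_of_le_sublinear f qneg
    (fun c hc u => qneg_smul c hc.le u) qneg_add hf
  have hgW : ∀ w ∈ W, g w = 0 := by
    intro w hw
    have hz : w + (0 : ℝ) • v ∈ f.domain :=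
      Submodule.mem_sup.2 ⟨w, hw, _, Submodule.mem_span_singleton.2 ⟨0, rfl⟩, rfl⟩
    have h1 : f ⟨w + (0 : ℝ) • v, hz⟩ = f0 ⟨w, hw⟩ + (0 : ℝ) • ε :=
      LinearPMap.supSpanSingleton_apply_mk f0 v ε hvW w hw 0
    have h2 := hg1 ⟨w + (0 : ℝ) • v, hz⟩
    rw [h1] at h2
    change g (w + (0 : ℝ) • v) = (0 : W →ₗ[ℝ] ℝ) ⟨w, hw⟩ + (0 : ℝ) • ε at h2
    simpa only [zero_smul, add_zero, LinearMap.zero_apply, smul_eq_mul, zero_mul] using h2
  refine ⟨g, ?_, ?_, ?_, hg2⟩
  · have hz : (0 : Row d →₀ ℝ) + (1 : ℝ) • v ∈ f.domain :=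
      Submodule.mem_sup.2 ⟨0, zero_mem _, _, Submodule.mem_span_singleton.2 ⟨1, rfl⟩, rfl⟩
    have h1 : f ⟨0 + (1 : ℝ) • v, hz⟩ = f0 ⟨0, zero_mem _⟩ + (1 : ℝ) • ε :=
      LinearPMap.supSpanSingleton_apply_mk f0 v ε hvW 0 (zero_mem _) 1
    have h2 := hg1 ⟨0 + (1 : ℝ) • v, hz⟩
    rw [h1] at h2
    change g (0 + (1 : ℝ) • v) = (0 : W →ₗ[ℝ] ℝ) ⟨0, zero_mem _⟩ + (1 : ℝ) • ε at h2
    simpa only [one_smul, zero_add, LinearMap.zero_apply, smul_eq_mul, one_mul] using h2
  · intro w hw hw0
    exact hgW w (Submodule.mem_sup_left ⟨hw, hw0⟩)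
  · intro s u
    have h1 := hgW (trl (0, s) u - u)
      (Submodule.mem_sup_right (Submodule.subset_span ⟨s, u, rfl⟩))
    rw [map_sub, sub_eq_zero] at h1
    exact h1

end Vale.Agent.P058.Gen
end
end

section

section

/-!
Functions whose `M`-fold differences vanish and which are bounded by `e ⬝ᵥ e` have a real
quadratic even part.
-/

namespace Vale.Agent.P058.Gen

/-- iterated differences -/
def Dl {E : Type*} [Add E] (f : E → ℝ) : List E → E → ℝ
  | [] => f
  | (η :: l) => fun e => Dl f l (e + η) - Dl f l e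

section general

variable {E : Type*} [AddCommGroup E] (f : E → ℝ)

theorem Dl_nil (e : E) : Dl f [] e = f e := rfl

theorem Dl_cons (η : E) (l : List E) (e : E) : Dl f (η :: l) e = Dl f l (e + η) - Dl f l e := rfl

theorem Dl_perm {l l' : List E} (h : l.Perm l') : ∀ e, Dl f l e = Dl f l' e := by
  induction h with
  | nil => intro e; rfl
  | cons x _ ih => intro e; rw [Dl_cons, Dl_cons, ih, ih]
  | swap x y l =>
    intro e
    rw [Dl_cons, Dl_cons, Dl_cons, Dl_cons, Dl_cons, Dl_cons]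
    rw [add_right_comm e x y]
    ring
  | trans _ _ ih1 ih2 => intro e; rw [ih1, ih2]

/-- all `M`-fold differences vanish -/
def DV (M : ℕ) : Prop := ∀ l : List E, l.length = M → ∀ e, Dl f l e = 0

theorem DV_succ {M : ℕ} (h : DV f M) : DV f (M + 1) := by
  intro l hl e
  match l, hl with
  | η :: l, hl =>
    rw [Dl_cons, h l (by simpa using hl), h l (by simpa using hl), sub_zero]

theorem DV_mono {M N : ℕ} (h : DV f M) (hMN : M ≤ N) : DV f N := by
  induction hMN with
  | refl => exact h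
  | step _ ih => exact DV_succ f ih

/-- one fewer difference: constants -/
theorem DV_const {N : ℕ} (h : DV f (N + 1)) (l : List E) (hl : l.length = N) (e e' : E) :
    Dl f l e = Dl f l e' := by
  have h1 := h ((e' - e) :: l) (by simp [hl]) e
  rw [Dl_cons, add_sub_cancel] at h1
  linarith only [h1]

/-- additivity in the head -/
theorem DV_add {N : ℕ} (h : DV f (N + 1)) (l : List E) (hl : l.length + 1 = N) (η η' : E) :
    Dl f ((η + η') :: l) 0 = Dl f (η :: l) 0 + Dl f (η' :: l) 0 := by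
  have h1 : Dl f (η' :: l) η = Dl f (η' :: l) 0 := DV_const f h _ (by simp [hl]) _ _
  simp only [Dl_cons, zero_add] at h1 ⊢
  have h2 : η + η' = η' + η := add_comm _ _
  rw [h2] at h1 ⊢
  linarith only [h1]

theorem DV_zero (l : List E) : Dl f ((0 : E) :: l) 0 = 0 := by
  rw [Dl_cons, add_zero, sub_self]

theorem DV_nsmul {N : ℕ} (h : DV f (N + 1)) (l : List E) (hl : l.length + 1 = N) (η : E)
    (k : ℕ) : Dl f ((k • η) :: l) 0 = k * Dl f (η :: l) 0 := by
  induction k with
  | zero => rw [zero_smul, DV_zero f l]; simp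
  | succ k ih =>
    rw [succ_nsmul, DV_add f h l hl, ih]
    push_cast
    ring

theorem DV_scale {N : ℕ} (h : DV f (N + 1)) (k : ℕ) (l₁ : List E) : ∀ l₂ : List E,
    l₁.length + l₂.length = N →
    Dl f (l₁.map (fun η => k • η) ++ l₂) 0 = (k : ℝ) ^ l₁.length * Dl f (l₁ ++ l₂) 0 := by
  induction l₁ with
  | nil => intro l₂ _; simp
  | cons η l₁ ih =>
    intro l₂ hl
    rw [List.map_cons, List.cons_append, DV_nsmul f h _ (by simp at hl ⊢; omega)]
    have h1 : Dl f (η :: (l₁.map (fun η => k • η) ++ l₂)) 0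
        = Dl f (l₁.map (fun η => k • η) ++ (η :: l₂)) 0 :=
      Dl_perm f (List.perm_middle.symm) 0
    rw [h1, ih (η :: l₂) (by simp at hl ⊢; omega)]
    have h2 : Dl f (l₁ ++ η :: l₂) 0 = Dl f (η :: l₁ ++ l₂) 0 :=
      Dl_perm f (List.perm_middle) 0
    rw [h2, List.length_cons, pow_succ]
    ring

end general

theorem Dl_growth {d : ℕ} (f : (Fin d → ℝ) → ℝ) (hb : ∀ e, |f e| ≤ e ⬝ᵥ e)
    (l : List (Fin d → ℝ)) : ∀ e : Fin d → ℝ, ∃ C : ℝ, 0 ≤ C ∧ ∀ k : ℕ,
      |Dl f (l.map (fun η => k • η)) (k • e)| ≤ C * (k : ℝ) ^ 2 := by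
  induction l with
  | nil =>
    intro e
    refine ⟨e ⬝ᵥ e, ?_, fun k => ?_⟩
    · exact (abs_nonneg _).trans (hb e)
    · rw [List.map_nil, Dl_nil]
      refine (hb _).trans (le_of_eq ?_)
      rw [smul_dotProduct, dotProduct_smul]
      simp only [nsmul_eq_mul]
      ring
  | cons η l ih =>
    intro e
    obtain ⟨C1, h1, hC1⟩ := ih (e + η)
    obtain ⟨C2, h2, hC2⟩ := ih e
    refine ⟨C1 + C2, by positivity, fun k => ?_⟩
    rw [List.map_cons, Dl_cons, ← smul_add]
    calc |Dl f (l.map (fun η => k • η)) (k • (e + η)) - Dl f (l.map (fun η => k • η)) (k • e)|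
        ≤ |Dl f (l.map (fun η => k • η)) (k • (e + η))|
          + |Dl f (l.map (fun η => k • η)) (k • e)| := abs_sub _ _
      _ ≤ C1 * (k : ℝ) ^ 2 + C2 * (k : ℝ) ^ 2 := add_le_add (hC1 k) (hC2 k)
      _ = (C1 + C2) * (k : ℝ) ^ 2 := by ring

theorem DV_down {d : ℕ} (f : (Fin d → ℝ) → ℝ) (hb : ∀ e, |f e| ≤ e ⬝ᵥ e) (N : ℕ)
    (hN : 3 ≤ N) (h : DV f (N + 1)) : DV f N := by
  intro l hl e
  rw [DV_const f h l hl e 0]
  obtain ⟨C, hC0, hC⟩ := Dl_growth f hb l 0
  by_contra hne
  have hpos : 0 < |Dl f l 0| := abs_pos.2 hne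
  obtain ⟨k, hk⟩ := exists_nat_gt (C / |Dl f l 0|)
  have hk1 : (1 : ℝ) ≤ ((k + 1 : ℕ) : ℝ) := by
    push_cast
    have := Nat.cast_nonneg (α := ℝ) k
    linarith only []
  have h1 := hC (k + 1)
  have h2 := DV_scale f h (k + 1) l [] (by simpa using hl)
  rw [List.append_nil, List.append_nil] at h2
  rw [smul_zero, h2, abs_mul, hl] at h1
  have h3 : |(((k + 1 : ℕ) : ℝ)) ^ N| = (((k + 1 : ℕ) : ℝ)) ^ N := abs_of_nonneg (by positivity)
  rw [h3] at h1
  have h4 : (((k + 1 : ℕ) : ℝ)) ^ 3 ≤ (((k + 1 : ℕ) : ℝ)) ^ N := pow_le_pow_right₀ hk1 hN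
  have h5 : (((k + 1 : ℕ) : ℝ)) ^ 3 * |Dl f l 0| ≤ C * (((k + 1 : ℕ) : ℝ)) ^ 2 :=
    (mul_le_mul_of_nonneg_right h4 hpos.le).trans h1
  have h6 : (((k + 1 : ℕ) : ℝ)) * |Dl f l 0| ≤ C := by
    have h7 : (0 : ℝ) < (((k + 1 : ℕ) : ℝ)) ^ 2 := by positivity
    have h8 : ((((k + 1 : ℕ) : ℝ)) * |Dl f l 0|) * (((k + 1 : ℕ) : ℝ)) ^ 2
        ≤ C * (((k + 1 : ℕ) : ℝ)) ^ 2 := by
      calc _ = (((k + 1 : ℕ) : ℝ)) ^ 3 * |Dl f l 0| := by ring
        _ ≤ _ := h5
    exact le_of_mul_le_mul_right h8 h7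
  rw [div_lt_iff₀ hpos] at hk
  push_cast at h6
  linarith only [hpos, hk, h6]

theorem DV_three {d : ℕ} (f : (Fin d → ℝ) → ℝ) (hb : ∀ e, |f e| ≤ e ⬝ᵥ e) (M : ℕ)
    (h : DV f M) : DV f 3 := by
  have h1 : ∀ j, DV f (3 + j) → DV f 3 := by
    intro j
    induction j with
    | zero => exact id
    | succ j ih => exact fun h => ih (DV_down f hb (3 + j) (by omega) h)
  exact h1 M (DV_mono f h (by omega))

/-- additive and quadratically bounded functions are real homogeneous -/
theorem additive_homog {d : ℕ} (A : (Fin d → ℝ) → ℝ) (hA : ∀ x y, A (x + y) = A x + A y)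
    (c : ℝ) (hc : ∀ x, |A x| ≤ 3 * (x ⬝ᵥ x + c)) (t : ℝ) (x : Fin d → ℝ) :
    A (t • x) = t * A x := by
  have h0 : A 0 = 0 := by have := hA 0 0; rw [add_zero] at this; linarith
  have hn : ∀ (n : ℕ) y, A (n • y) = n * A y := by
    intro n y
    induction n with
    | zero => simp [h0]
    | succ n ih => rw [succ_nsmul, hA, ih]; push_cast; ring
  have hneg : ∀ y, A (-y) = -A y := by
    intro y
    have := hA y (-y)
    rw [add_neg_cancel, h0] at this
    linarith
  have hz : ∀ (n : ℤ) y, A (n • y) = n * A y := by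
    intro n y
    obtain ⟨m, rfl | rfl⟩ := n.eq_nat_or_neg
    · rw [natCast_zsmul, hn]; simp
    · rw [neg_smul, natCast_zsmul, hneg, hn]; simp
  set D : ℝ := A (t • x) - t * A x with hD
  set B : ℝ := 3 * (x ⬝ᵥ x + |c|) + |A x| with hB
  have hxx : 0 ≤ x ⬝ᵥ x := by
    unfold dotProduct
    exact Finset.sum_nonneg (fun i _ => mul_self_nonneg _)
  have hkD : ∀ k : ℕ, |(k : ℝ) * D| ≤ B := by
    intro k
    set q : ℤ := ⌊(k : ℝ) * t⌋ with hq
    set r : ℝ := (k : ℝ) * t - q with hr
    have hr0 : 0 ≤ r := by rw [hr]; linarith only [Int.floor_le ((k : ℝ) * t)]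
    have hr1 : r ≤ 1 := by rw [hr]; linarith only [Int.lt_floor_add_one ((k : ℝ) * t)]
    have h1 : (k : ℝ) * D = A (r • x) - r * A x := by
      have h2 : A (k • (t • x)) = A (q • x) + A (r • x) := by
        rw [← hA]
        congr 1
        have : (k : ℝ) • (t • x) = (q : ℝ) • x + r • x := by
          rw [smul_smul, ← add_smul, hr]; congr 1; ring
        rw [← Nat.cast_smul_eq_nsmul ℝ, ← Int.cast_smul_eq_zsmul ℝ]
        exact this
      rw [hn, hz] at h2
      rw [hD, mul_sub, h2, hr]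
      ring
    rw [h1]
    have h3 : |A (r • x)| ≤ 3 * (x ⬝ᵥ x + |c|) := by
      refine (hc _).trans ?_
      rw [smul_dotProduct, dotProduct_smul]
      simp only [smul_eq_mul]
      have h4 : r * (r * x ⬝ᵥ x) ≤ x ⬝ᵥ x := by
        have : r * r ≤ 1 := mul_le_one₀ hr1 hr0 hr1
        nlinarith only [hxx, this]
      have := le_abs_self c
      linarith only [h4, this]
    have h5 : |r * A x| ≤ |A x| := by
      rw [abs_mul, abs_of_nonneg hr0]
      exact mul_le_of_le_one_left (abs_nonneg _) hr1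
    calc |A (r • x) - r * A x| ≤ |A (r • x)| + |r * A x| := abs_sub _ _
      _ ≤ B := by rw [hB]; linarith only [h3, h5]
  have hD0 : D = 0 := by
    by_contra hne
    have hpos : 0 < |D| := abs_pos.2 hne
    obtain ⟨k, hk⟩ := exists_nat_gt (B / |D|)
    have h1 := hkD k
    rw [abs_mul, Nat.abs_cast] at h1
    rw [div_lt_iff₀ hpos] at hk
    linarith only [hk, h1]
  linarith only [hD0]

theorem poly_bound {d : ℕ} (f : (Fin d → ℝ) → ℝ) (M : ℕ)
    (h : ∀ l : List (Fin d → ℝ), l.length = M → ∀ e, Dl f l e = 0)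
    (hb : ∀ e, |f e| ≤ e ⬝ᵥ e) :
    ∃ Q : Matrix (Fin d) (Fin d) ℝ, ∀ e, f e + f (-e) = ∑ i, ∑ j, Q i j * (e i * e j) := by
  have h3 : DV f 3 := DV_three f hb M h
  have hf0 : f 0 = 0 := by
    have := hb 0
    rw [dotProduct_zero] at this
    exact abs_eq_zero.1 (le_antisymm this (abs_nonneg _))
  let B : (Fin d → ℝ) → (Fin d → ℝ) → ℝ := fun x y => Dl f [x, y] 0
  have hBsymm : ∀ x y, B x y = B y x := fun x y => Dl_perm f (List.Perm.swap y x []) 0
  have hBadd : ∀ x x' y, B (x + x') y = B x y + B x' y := fun x x' y =>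
    DV_add f h3 [y] (by simp) x x'
  have hBval : ∀ x y, B x y = f (x + y) - f x - f y := by
    intro x y
    change Dl f [x, y] 0 = _
    rw [Dl_cons, Dl_cons, Dl_cons, Dl_nil, Dl_nil, Dl_nil, Dl_nil, zero_add, zero_add, hf0]
    ring
  have hxx : ∀ x : Fin d → ℝ, 0 ≤ x ⬝ᵥ x := fun x => by
    unfold dotProduct
    exact Finset.sum_nonneg (fun i _ => mul_self_nonneg _)
  have hBbd : ∀ x y, |B x y| ≤ 3 * (x ⬝ᵥ x + y ⬝ᵥ y) := by
    intro x y
    rw [hBval]
    have h1 := hb (x + y)
    have h2 := hb x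
    have h4 := hb y
    have h5 : (x + y) ⬝ᵥ (x + y) ≤ 2 * (x ⬝ᵥ x + y ⬝ᵥ y) := by
      have h6 := hxx (x - y)
      rw [sub_dotProduct, dotProduct_sub, dotProduct_sub] at h6
      rw [add_dotProduct, dotProduct_add, dotProduct_add]
      linarith only [h6]
    have := hxx x
    have := hxx y
    rw [abs_le] at *
    constructor <;> linarith only [h1, h2, h4, h5]
  have hhom : ∀ (t : ℝ) x y, B (t • x) y = t * B x y := by
    intro t x y
    exact additive_homog (fun x => B x y) (fun x x' => hBadd x x' y) (y ⬝ᵥ y)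
      (fun x => hBbd x y) t x
  have hsum : ∀ (e y : Fin d → ℝ), B e y = ∑ i, e i * B (Pi.single i 1) y := by
    intro e y
    have h0 : B 0 y = 0 := by have := hBadd 0 0 y; rw [add_zero] at this; linarith
    have hfin : ∀ (s : Finset (Fin d)) (g : Fin d → (Fin d → ℝ)),
        B (∑ i ∈ s, g i) y = ∑ i ∈ s, B (g i) y := by
      intro s g
      classical
      induction s using Finset.induction_on with
      | empty => simpa using h0
      | insert a s ha ih => rw [Finset.sum_insert ha, Finset.sum_insert ha, hBadd, ih]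
    have he : e = ∑ i, e i • (Pi.single i (1 : ℝ) : Fin d → ℝ) := by
      funext j
      simp only [Finset.sum_apply, Pi.smul_apply, Pi.single_apply, smul_eq_mul, mul_ite, mul_one, mul_zero, Finset.sum_ite_eq, Finset.mem_univ, ↓reduceIte]
    conv_lhs => rw [he]
    rw [hfin]
    exact Finset.sum_congr rfl (fun i _ => hhom _ _ _)
  refine ⟨Matrix.of fun i j => B (Pi.single i 1) (Pi.single j 1), fun e => ?_⟩
  have h1 : f e + f (-e) = B e e := by
    have h2 : Dl f [e, e] (-e) = B e e := DV_const f h3 _ (by simp) _ _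
    rw [← h2]
    simp only [Dl_cons, Dl_nil]
    rw [neg_add_cancel, zero_add, hf0]
    ring
  rw [h1, hsum e e]
  apply Finset.sum_congr rfl
  intro i _
  rw [hBsymm, hsum e, Finset.mul_sum]
  apply Finset.sum_congr rfl
  intro j _
  rw [Matrix.of_apply, hBsymm (Pi.single j 1)]
  ring

end Vale.Agent.P058.Gen
end
end

section

section

namespace Vale.Agent.P058.Gen

variable {ι : Type*} {d : ℕ}

/-- difference operator -/
noncomputable def dif (τ : Row d) : (Row d →₀ ℝ) →ₗ[ℝ] (Row d →₀ ℝ) := trl τ - LinearMap.id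

theorem dif_apply (τ : Row d) (u : Row d →₀ ℝ) : dif τ u = trl τ u - u := rfl

/-- iterated difference operators -/
noncomputable def difs : List (Row d) → (Row d →₀ ℝ) → (Row d →₀ ℝ)
  | [], u => u
  | (τ :: L), u => dif τ (difs L u)

theorem difs_nil (u : Row d →₀ ℝ) : difs [] u = u := rfl
theorem difs_cons (τ : Row d) (L : List (Row d)) (u : Row d →₀ ℝ) :
    difs (τ :: L) u = dif τ (difs L u) := rfl

theorem dif_trl (τ h : Row d) (u : Row d →₀ ℝ) : dif τ (trl h u) = trl h (dif τ u) := by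
  rw [dif_apply, dif_apply, map_sub, trl_trl, trl_trl, add_comm]

theorem difs_trl (L : List (Row d)) (h : Row d) (u : Row d →₀ ℝ) :
    difs L (trl h u) = trl h (difs L u) := by
  induction L with
  | nil => rfl
  | cons τ L ih => rw [difs_cons, difs_cons, ih, dif_trl]

/-- integer valued -/
def IntV (u : Row d →₀ ℝ) : Prop := ∀ h, ∃ n : ℤ, u h = n

theorem IntV.trl {u : Row d →₀ ℝ} (hu : IntV u) (τ : Row d) : IntV (trl τ u) := by
  intro h
  have h1 : Gen.trl τ u h = u (h - τ) := by
    have h2 := Finsupp.mapDomain_apply (add_left_injective τ) u (h - τ)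
    simp only [sub_add_cancel] at h2
    exact h2
  rw [h1]
  exact hu _

theorem IntV.dif {u : Row d →₀ ℝ} (hu : IntV u) (τ : Row d) : IntV (dif τ u) := by
  intro h
  obtain ⟨m, hm⟩ := hu.trl τ h
  obtain ⟨n, hn⟩ := hu h
  refine ⟨m - n, ?_⟩
  rw [dif_apply, Finsupp.sub_apply, hm, hn]
  push_cast
  ring

theorem IntV.difs {u : Row d →₀ ℝ} (hu : IntV u) (L : List (Row d)) : IntV (difs L u) := by
  induction L with
  | nil => exact hu
  | cons τ L ih => exact ih.dif τ

theorem evl_dif_zero (p : Fin d → ℝ) (τ : Row d) (u : Row d →₀ ℝ) (h : evl p u = 0) :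
    evl p (dif τ u) = 0 := by
  rw [dif_apply, map_sub, evl_trl, h]
  simp

theorem evl_dif_self (p : Fin d → ℝ) (τ : Row d) (hτ : rev p τ = 0) (u : Row d →₀ ℝ) :
    evl p (dif τ u) = 0 := by
  rw [dif_apply, map_sub, evl_trl, hτ]
  simp only [add_zero]
  have : (fun x : ℝ => x) = id := rfl
  rw [this, Finsupp.mapDomain_id, sub_self]

theorem evl_difs (p : Fin d → ℝ) (L : List (Row d)) (h : ∃ τ ∈ L, rev p τ = 0)
    (u : Row d →₀ ℝ) : evl p (difs L u) = 0 := by
  induction L with
  | nil => simp at h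
  | cons τ L ih =>
    rw [difs_cons]
    obtain ⟨σ, hσ, h0⟩ := h
    rcases List.mem_cons.1 hσ with rfl | hσ
    · exact evl_dif_self p _ h0 _
    · exact evl_dif_zero p _ _ (ih ⟨σ, hσ, h0⟩)

/-- moments -/
noncomputable def mom0 : (Row d →₀ ℝ) →ₗ[ℝ] ℝ := Finsupp.linearCombination ℝ fun _ => (1 : ℝ)
noncomputable def mom1 : (Row d →₀ ℝ) →ₗ[ℝ] (Fin d → ℝ) :=
  Finsupp.linearCombination ℝ fun h => h.1

theorem mom0_dif (τ : Row d) (u : Row d →₀ ℝ) : mom0 (dif τ u) = 0 := by
  have : (mom0 ∘ₗ dif τ : (Row d →₀ ℝ) →ₗ[ℝ] ℝ) = 0 := by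
    ext h
    simp only [mom0, LinearMap.coe_comp, Function.comp_apply, Finsupp.lsingle_apply, dif_apply, trl_single, map_sub, Finsupp.linearCombination_single, smul_eq_mul, mul_one, sub_self, LinearMap.zero_comp, LinearMap.zero_apply]
  exact LinearMap.congr_fun this u

theorem mom1_dif (τ : Row d) (u : Row d →₀ ℝ) : mom1 (dif τ u) = mom0 u • τ.1 := by
  have : (mom1 ∘ₗ dif τ : (Row d →₀ ℝ) →ₗ[ℝ] (Fin d → ℝ)) =
      LinearMap.smulRight mom0 τ.1 := by
    refine Finsupp.lhom_ext' fun h => LinearMap.ext_ring ?_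
    simp only [mom1, LinearMap.coe_comp, Function.comp_apply, Finsupp.lsingle_apply, dif_apply, trl_single, map_sub, Finsupp.linearCombination_single, Prod.fst_add, smul_add, one_smul, add_sub_cancel_left, mom0, LinearMap.coe_smulRight, smul_eq_mul, mul_one]
  exact LinearMap.congr_fun this u

theorem scost_dif (τ : Row d) (u : Row d →₀ ℝ) :
    scost (dif τ u) = Matrix.vecMulVec (mom1 u) τ.1 + Matrix.vecMulVec τ.1 (mom1 u) +
      mom0 u • Matrix.vecMulVec τ.1 τ.1 := by
  induction u using Finsupp.induction_linear with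
  | zero => simp
  | add u w hu hw =>
    rw [map_add, map_add, hu, hw, map_add, map_add, Matrix.add_vecMulVec, Matrix.vecMulVec_add,
      add_smul]
    abel
  | single h c =>
    rw [dif_apply, trl_single, map_sub, scost_single, scost_single]
    simp only [rcost, Prod.fst_add, Matrix.vecMulVec_add, Matrix.add_vecMulVec, smul_add, mom1, Finsupp.linearCombination_single, Matrix.smul_vecMulVec, Matrix.vecMulVec_smul, mom0, smul_eq_mul, mul_one]
    abel

theorem scost_difs (τ₁ τ₂ τ₃ : Row d) (L : List (Row d)) (u : Row d →₀ ℝ) :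
    scost (difs (τ₁ :: τ₂ :: τ₃ :: L) u) = 0 := by
  rw [difs_cons, scost_dif, difs_cons, mom0_dif, mom1_dif, difs_cons, mom0_dif]
  simp

theorem g_difs (g : (Row d →₀ ℝ) →ₗ[ℝ] ℝ) (hg : ∀ s u, g (trl (0, s) u) = g u)
    (L : List (Row d)) : ∀ (e : Fin d → ℝ) (s : ℝ),
    g (difs L (Finsupp.single (e, s) 1)) =
      Dl (fun e => g (Finsupp.single (e, 0) 1)) (L.map Prod.fst) e := by
  induction L with
  | nil =>
    intro e s
    rw [difs_nil, List.map_nil, Dl_nil, ← hg s (Finsupp.single (e, 0) 1), trl_single]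
    simp
  | cons τ L ih =>
    intro e s
    have h1 := ih e s
    have h2 := ih (e + τ.1) (s + τ.2)
    rw [difs_cons, List.map_cons, Dl_cons, dif_apply, map_sub, ← difs_trl, trl_single, h1]
    have h3 : ((e, s) : Row d) + τ = (e + τ.1, s + τ.2) := rfl
    rw [h3, h2]

theorem amplify [Finite ι] [Nonempty ι] (x : ι → Fin d → ℝ) (v : Row d →₀ ℝ) (hv : v ∈ Kb x)
    (hS : scost v = 1) (ε : ℝ) (hε : 0 < ε) : ∃ u ∈ Kb x, scost u = 1 ∧ qneg u < ε := by
  classical
  by_contra hcon
  push Not at hcon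
  obtain ⟨g, hgv, hgK, hgT, hgq⟩ := exists_functional x ε hε hcon v hv hS
  set f : (Fin d → ℝ) → ℝ := fun e => g (Finsupp.single (e, 0) 1) with hf
  have hb : ∀ e, |f e| ≤ e ⬝ᵥ e := by
    intro e
    have h1 : f e ≤ 0 := by
      refine (hgq _).trans ?_
      rw [qneg_single]
      simp only [Left.neg_nonpos_iff, zero_le_one, sup_of_le_right, zero_mul, Std.le_refl]
    have h2 : -f e ≤ e ⬝ᵥ e := by
      have h3 := hgq (Finsupp.single (e, 0) (-1))
      rw [qneg_single] at h3
      have h4 : g (Finsupp.single (e, 0) (-1)) = -f e := by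
        rw [hf, ← map_neg, ← Finsupp.single_neg]
      rw [h4] at h3
      simpa only [ge_iff_le, neg_neg, zero_le_one, sup_of_le_left, one_mul] using h3
    rw [abs_le]
    constructor
    · linarith
    · exact h1.trans (dot_self_nonneg' _)
  have hfneg : ∀ e, f e ≤ 0 := by
    intro e
    refine (hgq _).trans ?_
    rw [qneg_single]
    simp only [Left.neg_nonpos_iff, zero_le_one, sup_of_le_right, zero_mul, Std.le_refl]
  have := Fintype.ofFinite ι
  obtain ⟨v0⟩ := ‹Nonempty ι›
  let pts : List ι := v0 :: v0 :: v0 :: (Finset.univ : Finset ι).toList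
  have hD : ∀ l : List (Fin d → ℝ), l.length = pts.length → ∀ e, Dl f l e = 0 := by
    intro l hl e
    let L : List (Row d) := List.zipWith (fun η p => ((η, -(η ⬝ᵥ x p)) : Row d)) l pts
    have hLfst : L.map Prod.fst = l := by
      simp only [L, List.map_zipWith]
      have : ∀ (l : List (Fin d → ℝ)) (m : List ι), l.length = m.length →
          List.zipWith (fun η _ => η) l m = l := by
        intro l
        induction l with
        | nil => intro m _; simp
        | cons a l ih =>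
          intro m hm
          rcases m with _ | ⟨b, m⟩
          · simp at hm
          · rw [List.zipWith_cons_cons, ih m (by simpa using hm)]
      exact this l pts hl
    have hL0 : ∀ p : ι, ∃ τ ∈ L, rev (x p) τ = 0 := by
      intro p
      have hp : p ∈ pts := by simp [pts]
      obtain ⟨i, hi, hip⟩ := List.mem_iff_getElem.1 hp
      have hi' : i < l.length := by rw [hl]; exact hi
      have hiL : i < L.length := by
        simp only [L, List.length_zipWith]
        omega
      refine ⟨L[i], List.getElem_mem hiL, ?_⟩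
      simp only [L, List.getElem_zipWith, hip, rev]
      ring
    rw [← hLfst, ← g_difs g hgT L e 0]
    refine hgK _ (Submodule.subset_span ⟨?_, ?_⟩) ?_
    · refine IntV.difs ?_ L
      intro h
      by_cases hh : ((e, 0) : Row d) = h
      · exact ⟨1, by simp [hh]⟩
      · exact ⟨0, by simp [hh]⟩
    · intro p q
      rw [evl_difs _ L (hL0 p), evl_difs _ L (hL0 q)]
    · have hlen : 3 ≤ L.length := by
        simp only [L, List.length_zipWith, hl, pts, List.length_cons]
        omega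
      rcases hLL : L with _ | ⟨τ₁, _ | ⟨τ₂, _ | ⟨τ₃, L'⟩⟩⟩
      · simp [hLL] at hlen
      · simp [hLL] at hlen
      · simp [hLL] at hlen
      · exact scost_difs _ _ _ _ _
  obtain ⟨Q, hQ⟩ := poly_bound f pts.length hD hb
  -- the functional in terms of `f`
  have hgf : ∀ u, g u = u.sum fun h c => c * f h.1 := by
    intro u
    induction u using Finsupp.induction_linear with
    | zero => simp
    | add u w hu hw =>
      rw [map_add, hu, hw, Finsupp.sum_add_index']
      · intro h; simp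
      · intro h a b; ring
    | single h c =>
      rw [Finsupp.sum_single_index (by simp)]
      have h1 : (Finsupp.single h c : Row d →₀ ℝ) = c • trl (0, h.2) (Finsupp.single (h.1, 0) 1) := by
        rw [trl_single]
        simp
      rw [h1, map_smul, hgT, smul_eq_mul]
  let neg : (Row d →₀ ℝ) →ₗ[ℝ] (Row d →₀ ℝ) := Finsupp.lmapDomain ℝ ℝ (fun h : Row d => -h)
  have hnegS : ∀ u, scost (neg u) = scost u := by
    intro u
    have : (scost ∘ₗ neg : (Row d →₀ ℝ) →ₗ[ℝ] _) = scost := by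
      refine Finsupp.lhom_ext' fun h => LinearMap.ext_ring ?_
      simp only [scost, LinearMap.coe_comp, Function.comp_apply, Finsupp.lsingle_apply, Finsupp.lmapDomain_apply, Finsupp.mapDomain_single, Finsupp.linearCombination_single, rcost, Prod.fst_neg, Matrix.vecMulVec_neg, Matrix.neg_vecMulVec, neg_neg, one_smul, neg]
    exact LinearMap.congr_fun this u
  have hnegK : ∀ u ∈ Kb x, neg u ∈ Kb x := by
    have : Kb x ≤ (Kb x).comap neg := by
      refine Submodule.span_le.2 fun u hu => Submodule.subset_span ⟨fun h => ?_, fun p q => ?_⟩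
      · have h2 := Finsupp.mapDomain_apply (neg_injective (G := Row d)) u (-h)
        simp only [neg_neg] at h2
        change ∃ n : ℤ, Finsupp.mapDomain (fun h : Row d => -h) u h = n
        rw [h2]
        exact hu.1 _
      · have h3 : ∀ p, evl (x p) (neg u) = Finsupp.mapDomain (fun t : ℝ => -t) (evl (x p) u) := by
          intro p
          simp only [evl, neg, Finsupp.lmapDomain_apply, ← Finsupp.mapDomain_comp]
          congr 1
          funext y
          simp only [Function.comp_apply, rev, Prod.fst_neg, neg_dotProduct, Prod.snd_neg, neg_add_rev]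
          ring
        rw [h3, h3, hu.2 p q]
    exact fun u hu => this hu
  have hgneg : g (neg v) = ε := by
    have h1 := hgK (neg v - v) (sub_mem (hnegK v hv) hv) (by rw [map_sub, hnegS, sub_self])
    rw [map_sub, sub_eq_zero] at h1
    rw [h1, hgv]
  have hsum : 2 * ε = v.sum fun h c => c * (f h.1 + f (-h.1)) := by
    have h1 : g (neg v) = v.sum fun h c => c * f (-h.1) := by
      rw [hgf]
      simp only [neg, Finsupp.lmapDomain_apply]
      rw [Finsupp.sum_mapDomain_index_inj (neg_injective (G := Row d))]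
      rfl
    have h2 := hgf v
    rw [hgv] at h2
    rw [hgneg] at h1
    simp only [Finsupp.sum, mul_add, Finset.sum_add_distrib] at *
    linarith only [h1, h2]
  have hsum2 : (v.sum fun h c => c * (f h.1 + f (-h.1))) = ∑ i, ∑ j, Q i j * (scost v) i j := by
    have h1 : scost v = v.sum fun h c => c • rcost h := by
      simp [scost, Finsupp.linearCombination_apply]
    rw [h1]
    simp only [Finsupp.sum, Matrix.sum_apply, hQ, Finset.mul_sum]
    rw [Finset.sum_comm]
    refine Finset.sum_congr rfl fun i _ => ?_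
    rw [Finset.sum_comm]
    refine Finset.sum_congr rfl fun j _ => ?_
    refine Finset.sum_congr rfl fun h _ => ?_
    simp [rcost, Matrix.vecMulVec_apply]
    ring
  have hdiag : ∀ i, Q i i ≤ 0 := by
    intro i
    have h1 := hQ (Pi.single i 1)
    have h2 : ∑ k, ∑ j, Q k j * ((Pi.single i 1 : Fin d → ℝ) k * (Pi.single i 1 : Fin d → ℝ) j) =
        Q i i := by
      rw [Finset.sum_eq_single i]
      · rw [Finset.sum_eq_single i]
        · simp
        · intro j _ hj
          simp [hj]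
        · simp only [Finset.mem_univ, not_true_eq_false, Pi.single_eq_same, mul_one, IsEmpty.forall_iff]
      · intro k _ hk
        refine Finset.sum_eq_zero fun j _ => ?_
        simp [hk]
      · simp only [Finset.mem_univ, not_true_eq_false, Pi.single_eq_same, one_mul, IsEmpty.forall_iff]
    rw [h2] at h1
    rw [← h1]
    exact add_nonpos (hfneg _) (hfneg _)
  have hfin : ∑ i, ∑ j, Q i j * (scost v) i j = ∑ i, Q i i := by
    rw [hS]
    refine Finset.sum_congr rfl fun i _ => ?_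
    rw [Finset.sum_eq_single i]
    · simp
    · intro j _ hj
      rw [Matrix.one_apply_ne hj.symm, mul_zero]
    · simp only [Finset.mem_univ, not_true_eq_false, Matrix.one_apply_eq, mul_one, IsEmpty.forall_iff]
  have : ∑ i, Q i i ≤ 0 := Finset.sum_nonpos fun i _ => hdiag i
  linarith only [hε, hsum, hsum2, hfin, this]

end Vale.Agent.P058.Gen
end
end

section

section

/-!
Integral rounding of real combinations of integer balanced combinations of rows.
-/

namespace Vale.Agent.P058.Gen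

variable {ι : Type*} {d : ℕ}

/-- cost of the absolute value -/
noncomputable def acost (u : Row d →₀ ℝ) : ℝ := u.sum fun h c => |c| * (h.1 ⬝ᵥ h.1)

theorem row_sq_nonneg (h : Row d) : 0 ≤ h.1 ⬝ᵥ h.1 := by
  unfold dotProduct
  exact Finset.sum_nonneg fun i _ => mul_self_nonneg _

theorem acost_eq (u : Row d →₀ ℝ) (S : Finset (Row d)) (hS : u.support ⊆ S) :
    acost u = ∑ h ∈ S, |u h| * (h.1 ⬝ᵥ h.1) := by
  unfold acost
  exact Finsupp.sum_of_support_subset u hS _ (by simp only [abs_zero, zero_mul, implies_true])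

theorem qneg_eq_bd320 (u : Row d →₀ ℝ) (S : Finset (Row d)) (hS : u.support ⊆ S) :
    qneg u = ∑ h ∈ S, max (-(u h)) 0 * (h.1 ⬝ᵥ h.1) := by
  unfold qneg
  exact Finsupp.sum_of_support_subset u hS _ (by simp only [neg_zero, max_self, zero_mul, implies_true])

theorem acost_nonneg (u : Row d →₀ ℝ) : 0 ≤ acost u := by
  rw [acost_eq u u.support subset_rfl]
  exact Finset.sum_nonneg fun h _ => mul_nonneg (abs_nonneg _) (row_sq_nonneg h)

theorem acost_zero : acost (0 : Row d →₀ ℝ) = 0 := by simp only [acost, Finsupp.sum_zero_index]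

theorem acost_add_le (u v : Row d →₀ ℝ) : acost (u + v) ≤ acost u + acost v := by
  classical
  have h1 : u.support ⊆ u.support ∪ v.support := Finset.subset_union_left
  have h2 : v.support ⊆ u.support ∪ v.support := Finset.subset_union_right
  rw [acost_eq u _ h1, acost_eq v _ h2, acost_eq (u + v) _ Finsupp.support_add,
    ← Finset.sum_add_distrib]
  apply Finset.sum_le_sum
  intro h _
  rw [Finsupp.add_apply, ← add_mul]
  exact mul_le_mul_of_nonneg_right (abs_add_le _ _) (row_sq_nonneg h)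

theorem qneg_add_le (u v : Row d →₀ ℝ) : qneg (u + v) ≤ qneg u + acost v := by
  classical
  have h1 : u.support ⊆ u.support ∪ v.support := Finset.subset_union_left
  have h2 : v.support ⊆ u.support ∪ v.support := Finset.subset_union_right
  rw [qneg_eq_bd320 u _ h1, acost_eq v _ h2, qneg_eq_bd320 (u + v) _ Finsupp.support_add,
    ← Finset.sum_add_distrib]
  apply Finset.sum_le_sum
  intro h _
  rw [Finsupp.add_apply, ← add_mul]
  apply mul_le_mul_of_nonneg_right _ (row_sq_nonneg h)
  apply max_le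
  · have := le_max_left (-(u h)) 0
    have := neg_abs_le (v h)
    linarith
  · have := le_max_right (-(u h)) 0
    have := abs_nonneg (v h)
    linarith

theorem acost_smul (c : ℝ) (u : Row d →₀ ℝ) : acost (c • u) = |c| * acost u := by
  rw [acost_eq (c • u) _ Finsupp.support_smul, acost_eq u u.support subset_rfl, Finset.mul_sum]
  apply Finset.sum_congr rfl
  intro h _
  rw [Finsupp.smul_apply, smul_eq_mul, abs_mul]; ring

theorem qneg_smul_bd321 (c : ℝ) (hc : 0 ≤ c) (u : Row d →₀ ℝ) : qneg (c • u) = c * qneg u := by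
  rw [qneg_eq_bd320 (c • u) _ Finsupp.support_smul, qneg_eq_bd320 u u.support subset_rfl, Finset.mul_sum]
  apply Finset.sum_congr rfl
  intro h _
  rw [Finsupp.smul_apply, smul_eq_mul, ← mul_assoc, mul_max_of_nonneg _ _ hc]
  congr 2
  · ring
  · ring

theorem acost_sum_le {α : Type*} (s : Finset α) (f : α → (Row d →₀ ℝ)) :
    acost (∑ a ∈ s, f a) ≤ ∑ a ∈ s, acost (f a) := by
  classical
  induction s using Finset.induction_on with
  | empty => simp [acost_zero]
  | insert a s ha ih =>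
    rw [Finset.sum_insert ha, Finset.sum_insert ha]
    exact (acost_add_le _ _).trans (add_le_add le_rfl ih)

theorem acost_single (h : Row d) (c : ℝ) : acost (Finsupp.single h c) = |c| * (h.1 ⬝ᵥ h.1) := by
  unfold acost
  rw [Finsupp.sum_single_index (by simp only [abs_zero, zero_mul])]

/-- scaling of the rows -/
noncomputable def Msc (l : ℝ) (u : Row d →₀ ℝ) : Row d →₀ ℝ := u.mapDomain (fun y => l • y)

theorem acost_Msc (l : ℝ) (u : Row d →₀ ℝ) : acost (Msc l u) ≤ l ^ 2 * acost u := by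
  unfold Msc Finsupp.mapDomain
  rw [Finsupp.sum]
  refine (acost_sum_le _ _).trans (le_of_eq ?_)
  rw [acost_eq u u.support subset_rfl, Finset.mul_sum]
  apply Finset.sum_congr rfl
  intro h _
  rw [acost_single, Prod.smul_fst, smul_dotProduct, dotProduct_smul]
  simp only [smul_eq_mul]
  ring

theorem rcost_smul (l : ℝ) (y : Row d) : rcost (l • y) = l ^ 2 • rcost y := by
  unfold rcost
  rw [Prod.smul_fst, Matrix.smul_vecMulVec, Matrix.vecMulVec_smul, smul_smul, sq]

theorem scost_Msc (l : ℝ) (u : Row d →₀ ℝ) : scost (Msc l u) = l ^ 2 • scost u := by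
  unfold scost Msc
  rw [Finsupp.linearCombination_mapDomain, Finsupp.linearCombination_apply,
    Finsupp.linearCombination_apply, Finsupp.smul_sum]
  apply Finset.sum_congr rfl
  intro h _
  simp only [Function.comp_apply]
  rw [rcost_smul, smul_comm]

theorem rev_smul (l : ℝ) (p : Fin d → ℝ) (y : Row d) : rev p (l • y) = l * rev p y := by
  unfold rev
  rw [Prod.smul_fst, Prod.smul_snd, smul_dotProduct, smul_eq_mul, smul_eq_mul]
  ring

theorem evl_Msc (l : ℝ) (u : Row d →₀ ℝ) (p : Fin d → ℝ) :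
    evl p (Msc l u) = (evl p u).mapDomain (fun t => l * t) := by
  unfold evl Msc
  rw [Finsupp.lmapDomain_apply, Finsupp.lmapDomain_apply, ← Finsupp.mapDomain_comp,
    ← Finsupp.mapDomain_comp]
  congr 1
  funext y
  exact rev_smul l p y

/-- integer valued -/
def IsIntV {α : Type*} (u : α →₀ ℝ) : Prop := ∀ h, ∃ n : ℤ, u h = n

theorem IsIntV.add {α : Type*} {u v : α →₀ ℝ} (hu : IsIntV u) (hv : IsIntV v) :
    IsIntV (u + v) := by
  intro h
  obtain ⟨n, hn⟩ := hu h
  obtain ⟨m, hm⟩ := hv h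
  exact ⟨n + m, by rw [Finsupp.add_apply, hn, hm]; push_cast; rfl⟩

theorem IsIntV.zero {α : Type*} : IsIntV (0 : α →₀ ℝ) := fun _ => ⟨0, by simp⟩

theorem IsIntV.smul {α : Type*} {u : α →₀ ℝ} (hu : IsIntV u) (k : ℤ) :
    IsIntV ((k : ℝ) • u) := by
  intro h
  obtain ⟨n, hn⟩ := hu h
  exact ⟨k * n, by rw [Finsupp.smul_apply, hn, smul_eq_mul]; push_cast; rfl⟩

theorem IsIntV.single {α : Type*} (a : α) (n : ℤ) : IsIntV (Finsupp.single a (n : ℝ)) := by
  classical
  intro h
  rw [Finsupp.single_apply]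
  split_ifs
  · exact ⟨n, rfl⟩
  · exact ⟨0, by simp⟩

theorem IsIntV.sum {α β : Type*} (s : Finset β) (f : β → (α →₀ ℝ)) (h : ∀ b ∈ s, IsIntV (f b)) :
    IsIntV (∑ b ∈ s, f b) := by
  classical
  induction s using Finset.induction_on with
  | empty => simpa using IsIntV.zero
  | insert a s ha ih =>
    rw [Finset.sum_insert ha]
    exact (h a (Finset.mem_insert_self _ _)).add
      (ih (fun b hb => h b (Finset.mem_insert_of_mem hb)))

theorem IsIntV.mapDomain {α β : Type*} {u : α →₀ ℝ} (hu : IsIntV u) (f : α → β) :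
    IsIntV (u.mapDomain f) := by
  unfold Finsupp.mapDomain Finsupp.sum
  apply IsIntV.sum
  intro a _
  obtain ⟨n, hn⟩ := hu a
  rw [hn]
  exact IsIntV.single _ _

theorem IntBal.add {x : ι → Fin d → ℝ} {u v : Row d →₀ ℝ} (hu : IntBal x u) (hv : IntBal x v) :
    IntBal x (u + v) :=
  ⟨IsIntV.add hu.1 hv.1, fun i j => by rw [map_add, map_add, hu.2 i j, hv.2 i j]⟩

theorem IntBal.zero {x : ι → Fin d → ℝ} : IntBal x (0 : Row d →₀ ℝ) :=
  ⟨IsIntV.zero, fun i j => by rw [map_zero, map_zero]⟩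

theorem IntBal.smul {x : ι → Fin d → ℝ} {u : Row d →₀ ℝ} (hu : IntBal x u) (k : ℤ) :
    IntBal x ((k : ℝ) • u) :=
  ⟨IsIntV.smul hu.1 k, fun i j => by rw [map_smul, map_smul, hu.2 i j]⟩

theorem IntBal.msc {x : ι → Fin d → ℝ} {u : Row d →₀ ℝ} (hu : IntBal x u) (l : ℝ) :
    IntBal x (Msc l u) :=
  ⟨IsIntV.mapDomain hu.1 _, fun i j => by rw [evl_Msc, evl_Msc, hu.2 i j]⟩

/-- integral rounding -/
theorem exists_round (x : ι → Fin d → ℝ) (u : Row d →₀ ℝ) (hu : u ∈ Kb x) :
    ∃ C : ℝ, 0 ≤ C ∧ ∀ T : ℝ, ∃ w : Row d →₀ ℝ, IntBal x (T • u + w) ∧ scost w = 0 ∧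
      acost w ≤ C := by
  unfold Kb at hu
  induction hu using Submodule.span_induction with
  | mem u hu =>
    have hu' : IntBal x u := hu
    refine ⟨2 * acost u, by have := acost_nonneg u; positivity, fun T => ?_⟩
    have hf0 : 0 ≤ Int.fract T := Int.fract_nonneg T
    have hf1 : Int.fract T ≤ 1 := (Int.fract_lt_one T).le
    refine ⟨(-Int.fract T) • u + Msc (Real.sqrt (Int.fract T)) u, ?_, ?_, ?_⟩
    · have h1 : T • u + ((-Int.fract T) • u + Msc (Real.sqrt (Int.fract T)) u)
          = ((⌊T⌋ : ℤ) : ℝ) • u + Msc (Real.sqrt (Int.fract T)) u := by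
        rw [← add_assoc, ← add_smul]
        congr 2
        have := Int.floor_add_fract T
        linarith only [this]
      rw [h1]
      exact (hu'.smul _).add (hu'.msc _)
    · rw [map_add, map_smul, scost_Msc, Real.sq_sqrt hf0, neg_smul, neg_add_cancel]
    · refine (acost_add_le _ _).trans ?_
      have h1 := acost_Msc (Real.sqrt (Int.fract T)) u
      rw [Real.sq_sqrt hf0] at h1
      rw [acost_smul, abs_neg, abs_of_nonneg hf0]
      have h2 : Int.fract T * acost u ≤ 1 * acost u :=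
        mul_le_mul_of_nonneg_right hf1 (acost_nonneg u)
      linarith only [h1, h2]
  | zero =>
    refine ⟨0, le_rfl, fun T => ⟨0, ?_, map_zero _, by rw [acost_zero]⟩⟩
    rw [smul_zero, add_zero]; exact IntBal.zero
  | add u v _ _ hu hv =>
    obtain ⟨C, hC0, hC⟩ := hu
    obtain ⟨D, hD0, hD⟩ := hv
    refine ⟨C + D, by positivity, fun T => ?_⟩
    obtain ⟨w, hw1, hw2, hw3⟩ := hC T
    obtain ⟨z, hz1, hz2, hz3⟩ := hD T
    refine ⟨w + z, ?_, by rw [map_add, hw2, hz2, add_zero],
      (acost_add_le _ _).trans (add_le_add hw3 hz3)⟩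
    have : T • (u + v) + (w + z) = (T • u + w) + (T • v + z) := by
      rw [smul_add]; abel
    rw [this]
    exact hw1.add hz1
  | smul a u _ hu =>
    obtain ⟨C, hC0, hC⟩ := hu
    refine ⟨C, hC0, fun T => ?_⟩
    obtain ⟨w, hw1, hw2, hw3⟩ := hC (T * a)
    refine ⟨w, ?_, hw2, hw3⟩
    rw [smul_smul]; exact hw1

/-- real version of a natural combination -/
noncomputable def cNR {α : Type*} : (α →₀ ℕ) →+ (α →₀ ℝ) :=
  Finsupp.mapRange.addMonoidHom (Nat.castAddMonoidHom ℝ)

theorem cNR_apply {α : Type*} (f : α →₀ ℕ) (a : α) : cNR f a = (f a : ℝ) := rfl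

theorem cNR_injective {α : Type*} : Function.Injective (cNR (α := α)) := by
  intro f g h
  ext a
  have := DFunLike.congr_fun h a
  rw [cNR_apply, cNR_apply] at this
  exact_mod_cast this

theorem cNR_single {α : Type*} (a : α) (n : ℕ) :
    cNR (Finsupp.single a n) = Finsupp.single a (n : ℝ) :=
  Finsupp.mapRange_single (hf := map_zero _)

theorem cNR_mapDomain {α β : Type*} (k : α → β) (f : α →₀ ℕ) :
    cNR (f.mapDomain k) = (cNR f).mapDomain k := by
  induction f using Finsupp.induction_linear with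
  | zero => simp
  | add f g hf hg => rw [Finsupp.mapDomain_add, map_add, map_add, Finsupp.mapDomain_add, hf, hg]
  | single a n =>
    rw [Finsupp.mapDomain_single, cNR_single, cNR_single, Finsupp.mapDomain_single]

/-- positive part of an integer valued combination -/
noncomputable def zpos {α : Type*} (z : α →₀ ℝ) : α →₀ ℕ :=
  z.mapRange (fun c => (⌊c⌋).toNat) (by simp)

/-- negative part -/
noncomputable def zneg {α : Type*} (z : α →₀ ℝ) : α →₀ ℕ :=
  z.mapRange (fun c => (-⌊c⌋).toNat) (by simp)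

theorem zneg_apply {α : Type*} {z : α →₀ ℝ} (hz : IsIntV z) (a : α) :
    ((zneg z a : ℕ) : ℝ) = max (-(z a)) 0 := by
  obtain ⟨n, hn⟩ := hz a
  unfold zneg
  rw [Finsupp.mapRange_apply, hn, Int.floor_intCast]
  have h1 : (((-n).toNat : ℕ) : ℤ) = max (-n) 0 := Int.toNat_eq_max _
  have h2 : ((((-n).toNat : ℕ) : ℤ) : ℝ) = ((max (-n) 0 : ℤ) : ℝ) := by rw [h1]
  rw [Int.cast_natCast] at h2
  rw [h2]
  push_cast
  rfl

theorem z_split {α : Type*} {z : α →₀ ℝ} (hz : IsIntV z) : z = cNR (zpos z) - cNR (zneg z) := by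
  ext a
  obtain ⟨n, hn⟩ := hz a
  rw [Finsupp.sub_apply, cNR_apply, cNR_apply]
  unfold zpos zneg
  rw [Finsupp.mapRange_apply, Finsupp.mapRange_apply, hn, Int.floor_intCast]
  have h1 : ((n.toNat : ℕ) : ℤ) - (((-n).toNat : ℕ) : ℤ) = n := by
    exact Int.toNat_sub_toNat_neg n
  have h2 : ((((n.toNat : ℕ) : ℤ) - (((-n).toNat : ℕ) : ℤ) : ℤ) : ℝ) = (n : ℝ) := by rw [h1]
  push_cast at h2
  exact h2.symm

/-- constant row -/
def Kr {d : ℕ} (b : ℝ) : Row d := (0, b)

theorem rev_Kr (p : Fin d → ℝ) (b : ℝ) : rev p (Kr b) = b := by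
  simp only [rev, Kr, zero_dotProduct, zero_add]

theorem rcost_Kr (b : ℝ) : rcost (Kr b : Row d) = 0 := by
  unfold rcost Kr
  simp

theorem rcost_sum (F : Row d →₀ ℕ) :
    ((Finsupp.toMultiset F).map rcost).sum = scost (cNR F) := by
  induction F using Finsupp.induction_linear with
  | zero => simp
  | add f g hf hg =>
    rw [Finsupp.toMultiset_add, Multiset.map_add, Multiset.sum_add, hf, hg, map_add, map_add]
  | single a n =>
    have h1 : cNR (Finsupp.single a n) = Finsupp.single a (n : ℝ) := cNR_single a n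
    rw [Finsupp.toMultiset_single, Multiset.map_nsmul, Multiset.map_singleton, Multiset.sum_nsmul,
      Multiset.sum_singleton, h1]
    unfold scost
    rw [Finsupp.linearCombination_single, Nat.cast_smul_eq_nsmul]

theorem scost_const (Z : ℝ →₀ ℕ) : scost (cNR (Z.mapDomain (Kr (d := d)))) = 0 := by
  rw [cNR_mapDomain]
  unfold scost
  rw [Finsupp.linearCombination_mapDomain, Finsupp.linearCombination_apply]
  apply Finset.sum_eq_zero
  intro b _
  simp only [Function.comp_apply]
  rw [rcost_Kr, smul_zero]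

theorem trace_scost (u : Row d →₀ ℝ) :
    (scost u).trace = ∑ h ∈ u.support, u h * (h.1 ⬝ᵥ h.1) := by
  unfold scost
  rw [Finsupp.linearCombination_apply, Finsupp.sum, Matrix.trace_sum]
  apply Finset.sum_congr rfl
  intro h _
  rw [Matrix.trace_smul, smul_eq_mul]
  unfold rcost
  rw [Matrix.trace_vecMulVec]

theorem trace_neg {z : Row d →₀ ℝ} (hz : IsIntV z) : (scost (cNR (zneg z))).trace = qneg z := by
  rw [trace_scost, qneg_eq_bd320 z z.support subset_rfl]
  have hsub : (cNR (zneg z)).support ⊆ z.support := by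
    intro h hh
    rw [Finsupp.mem_support_iff] at hh ⊢
    intro h0
    apply hh
    rw [cNR_apply, zneg_apply hz, h0]
    simp
  have h1 : ∑ h ∈ (cNR (zneg z)).support, (cNR (zneg z)) h * (h.1 ⬝ᵥ h.1)
      = ∑ h ∈ z.support, (cNR (zneg z)) h * (h.1 ⬝ᵥ h.1) := by
    apply Finset.sum_subset hsub
    intro h _ hh
    rw [Finsupp.notMem_support_iff] at hh
    rw [hh, zero_mul]
  rw [h1]
  apply Finset.sum_congr rfl
  intro h _
  rw [cNR_apply, zneg_apply hz]

/-- lists from an integer balanced combination -/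
theorem lists_of_intBal (x : ι → Fin d → ℝ) (z : Row d →₀ ℝ) (hz : IntBal x z) :
    ∃ s t : List (Row d), (∀ v, (s.map (rev (x v))).Perm (t.map (rev (x v)))) ∧
      (s.map rcost).sum = (t.map rcost).sum + scost z ∧ (t.map rcost).sum.trace = qneg z := by
  obtain ⟨Z, hZi, hZ⟩ : ∃ Z : ℝ →₀ ℝ, IsIntV Z ∧ ∀ v, evl (x v) z = Z := by
    rcases isEmpty_or_nonempty ι with h | ⟨⟨v0⟩⟩
    · exact ⟨0, IsIntV.zero, fun v => (h.false v).elim⟩
    · exact ⟨evl (x v0) z, IsIntV.mapDomain hz.1 _, fun v => hz.2 v v0⟩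
  set F : Row d →₀ ℕ := zpos z + (zneg Z).mapDomain Kr with hF
  set G : Row d →₀ ℕ := zneg z + (zpos Z).mapDomain Kr with hG
  have hFc : ((Finsupp.toMultiset F).map rcost).sum = scost (cNR (zpos z)) := by
    rw [rcost_sum, hF, map_add, map_add, scost_const, add_zero]
  have hGc : ((Finsupp.toMultiset G).map rcost).sum = scost (cNR (zneg z)) := by
    rw [rcost_sum, hG, map_add, map_add, scost_const, add_zero]
  have hdom : ∀ v, F.mapDomain (rev (x v)) = G.mapDomain (rev (x v)) := by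
    intro v
    have hK : ∀ W : ℝ →₀ ℕ, (W.mapDomain Kr).mapDomain (rev (x v)) = W := by
      intro W
      rw [← Finsupp.mapDomain_comp]
      have : (rev (x v) ∘ Kr) = id := by
        funext b; exact rev_Kr (x v) b
      rw [this, Finsupp.mapDomain_id]
    rw [hF, hG, Finsupp.mapDomain_add, Finsupp.mapDomain_add, hK, hK]
    apply cNR_injective
    rw [map_add, map_add, cNR_mapDomain, cNR_mapDomain]
    have h1 : (cNR (zpos z)).mapDomain (rev (x v)) - (cNR (zneg z)).mapDomain (rev (x v))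
        = cNR (zpos Z) - cNR (zneg Z) := by
      have h2 : evl (x v) (cNR (zpos z) - cNR (zneg z)) = Z := by
        rw [← z_split hz.1]; exact hZ v
      rw [map_sub] at h2
      rw [← z_split hZi]
      exact h2
    have h3 := sub_eq_sub_iff_add_eq_add.1 h1
    rw [h3, add_comm]
  refine ⟨(Finsupp.toMultiset F).toList, (Finsupp.toMultiset G).toList, fun v => ?_, ?_, ?_⟩
  · rw [← Multiset.coe_eq_coe, ← Multiset.map_coe, ← Multiset.map_coe, Multiset.coe_toList,
      Multiset.coe_toList, Finsupp.toMultiset_map, Finsupp.toMultiset_map, hdom v]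
  · have e1 : (((Finsupp.toMultiset F).toList).map rcost).sum
        = ((Finsupp.toMultiset F).map rcost).sum := by
      rw [← Multiset.sum_coe, ← Multiset.map_coe, Multiset.coe_toList]
    have e2 : (((Finsupp.toMultiset G).toList).map rcost).sum
        = ((Finsupp.toMultiset G).map rcost).sum := by
      rw [← Multiset.sum_coe, ← Multiset.map_coe, Multiset.coe_toList]
    rw [e1, e2, hFc, hGc]
    have h4 : scost z = scost (cNR (zpos z)) - scost (cNR (zneg z)) := by
      rw [← map_sub, ← z_split hz.1]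
    rw [h4, add_sub_cancel]
  · have e2 : (((Finsupp.toMultiset G).toList).map rcost).sum
        = ((Finsupp.toMultiset G).map rcost).sum := by
      rw [← Multiset.sum_coe, ← Multiset.map_coe, Multiset.coe_toList]
    rw [e2, hGc, trace_neg hz.1]

theorem hasFlex_of_Kb [Finite ι] (x : ι → Fin d → ℝ)
    (h : ∀ ε : ℝ, 0 < ε → ∃ u ∈ Kb x, scost u = 1 ∧ qneg u < ε) : HasFlex x := by
  intro η hη
  obtain ⟨u, hu, hu1, huq⟩ := h (η / 2) (by positivity)
  obtain ⟨C, hC0, hC⟩ := exists_round x u hu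
  set T : ℝ := 2 * C / η + 1 with hT
  have hT0 : 0 < T := by positivity
  obtain ⟨w, hw1, hw2, hw3⟩ := hC T
  obtain ⟨s, t, h1, h2, h3⟩ := lists_of_intBal x (T • u + w) hw1
  refine ⟨s, t, T, hT0, h1, ?_, ?_⟩
  · rw [h2, map_add, map_smul, hu1, hw2, add_zero]
  · rw [h3]
    have h4 := qneg_add_le (T • u) w
    rw [qneg_smul_bd321 T hT0.le] at h4
    have h5 : T * qneg u ≤ T * (η / 2) := mul_le_mul_of_nonneg_left huq.le hT0.le
    have h6 : C ≤ T * (η / 2) := by
      rw [hT]
      have : (2 * C / η + 1) * (η / 2) = C + η / 2 := by field_simp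
      rw [this]; linarith only [hη]
    linarith only [hw3, h4, h5, h6]

end Vale.Agent.P058.Gen
end
end

section

section

/-!
Equal fibres give a permutation; perm-folds from families of vectors.
-/

namespace Vale.Agent.P058

/-- Two functions whose fibres have the same cardinality differ by a permutation. -/
theorem exists_perm_of_card_fiber {ι Y : Type*} [Fintype ι] [DecidableEq Y] (f g : ι → Y)
    (h : ∀ y, (Finset.univ.filter fun i => f i = y).card =
      (Finset.univ.filter fun i => g i = y).card) :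
    ∃ p : Equiv.Perm ι, ∀ i, g i = f (p i) := by
  classical
  have e : ∀ y, Nonempty ({i // g i = y} ≃ {i // f i = y}) := fun y => by
    rw [← Fintype.card_eq, Fintype.card_subtype, Fintype.card_subtype]
    exact (h y).symm
  let E : ι ≃ ι := (Equiv.sigmaFiberEquiv g).symm.trans
    ((Equiv.sigmaCongrRight fun y => (e y).some).trans (Equiv.sigmaFiberEquiv f))
  refine ⟨E, fun i => ?_⟩
  have h1 : f (((e (g i)).some ⟨i, rfl⟩ : {j // f j = g i}) : ι) = g i :=
    ((e (g i)).some ⟨i, rfl⟩).2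
  exact h1.symm

end Vale.Agent.P058
end
end

section

section

/-!
A set with flexible balanced lists of rows folds, by coordinate permutations, to arbitrarily
small copies of itself.
-/

namespace Vale.Agent.P058.Gen

open Matrix

variable {ι : Type*} {d : ℕ}

/-- the rows `(a i • e j - a j • e i) / √2`, whose total cost is `|a|² 1 - a aᵀ` -/
noncomputable def complRows (y : Row d) : List (Row d) :=
  (Finset.univ : Finset (Fin d × Fin d)).toList.map fun ij =>
    ((1 / Real.sqrt 2) • (y.1 ij.1 • Pi.single ij.2 (1 : ℝ) - y.1 ij.2 • Pi.single ij.1 (1 : ℝ)), 0)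

theorem complRows_cost (y : Row d) :
    ((complRows y).map rcost).sum = (y.1 ⬝ᵥ y.1) • (1 : Matrix (Fin d) (Fin d) ℝ) - rcost y := by
  have hs : (1 / Real.sqrt 2) * (1 / Real.sqrt 2) = (1 / 2 : ℝ) := by
    rw [div_mul_div_comm, Real.mul_self_sqrt (by norm_num)]; norm_num
  unfold complRows
  rw [List.map_map, Finset.sum_map_toList]
  ext k l
  simp only [Function.comp_apply, rcost, Matrix.sum_apply, Matrix.vecMulVec_apply,
    Matrix.sub_apply, Matrix.smul_apply, Matrix.one_apply, Pi.smul_apply, Pi.sub_apply,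
    smul_eq_mul, dotProduct, Fintype.sum_prod_type]
  have h1 : ∀ i j : Fin d,
      1 / Real.sqrt 2 * (y.1 i * (Pi.single j (1 : ℝ) : Fin d → ℝ) k
          - y.1 j * (Pi.single i (1 : ℝ) : Fin d → ℝ) k) *
        (1 / Real.sqrt 2 * (y.1 i * (Pi.single j (1 : ℝ) : Fin d → ℝ) l
          - y.1 j * (Pi.single i (1 : ℝ) : Fin d → ℝ) l)) =
      (1 / 2) * ((y.1 i) ^ 2 * ((if k = j then 1 else 0) * (if l = j then 1 else 0))
        + (y.1 j) ^ 2 * ((if k = i then 1 else 0) * (if l = i then 1 else 0))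
        - (y.1 i * (if l = i then 1 else 0)) * (y.1 j * (if k = j then 1 else 0))
        - (y.1 i * (if k = i then 1 else 0)) * (y.1 j * (if l = j then 1 else 0))) := by
    intro i j
    simp only [Pi.single_apply]
    rw [← hs]; ring
  simp only [h1, ← Finset.mul_sum, Finset.sum_sub_distrib, Finset.sum_add_distrib,
    ← Finset.sum_mul]
  simp only [mul_ite, mul_one, mul_zero, Finset.sum_ite_eq, Finset.mem_univ, if_true]
  by_cases hkl : k = l
  · subst hkl
    simp only [if_true]
    ring_nf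
  · simp only [one_div, hkl, ↓reduceIte, add_zero, zero_sub]
    ring_nf

theorem compl_flatMap_cost (t : List (Row d)) :
    ((t ++ t.flatMap complRows).map rcost).sum =
      (t.map rcost).sum.trace • (1 : Matrix (Fin d) (Fin d) ℝ) := by
  rw [List.map_append, List.sum_append]
  induction t with
  | nil => simp only [List.map_nil, List.sum_nil, List.flatMap_nil, add_zero, trace_zero, zero_smul]
  | cons y t ih =>
    rw [List.flatMap_cons, List.map_append, List.sum_append, complRows_cost, List.map_cons,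
      List.sum_cons, Matrix.trace_add, add_smul, ← ih]
    have h : (rcost y).trace = y.1 ⬝ᵥ y.1 := by
      simp only [rcost, trace_vecMulVec]
    rw [h]
    abel

/-- the quadratic form of the cost is the sum of the squared differences of the values -/
theorem sum_sq_of_cost (t : List (Row d)) (κ : ℝ)
    (h : (t.map rcost).sum = κ • (1 : Matrix (Fin d) (Fin d) ℝ)) (p q : Fin d → ℝ) :
    ((t.map fun y => (rev p y - rev q y) ^ 2)).sum = κ * ((p - q) ⬝ᵥ (p - q)) := by
  have key : ∀ t : List (Row d), ((t.map fun y => (rev p y - rev q y) ^ 2)).sum =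
      (p - q) ⬝ᵥ ((t.map rcost).sum *ᵥ (p - q)) := by
    intro t
    induction t with
    | nil => simp only [List.map_nil, List.sum_nil, zero_mulVec, dotProduct_zero]
    | cons y t ih =>
      rw [List.map_cons, List.sum_cons, List.map_cons, List.sum_cons, ih, Matrix.add_mulVec,
        dotProduct_add]
      congr 1
      rw [rcost, Matrix.vecMulVec_mulVec, dotProduct_smul]
      simp only [rev, dotProduct_sub, dotProduct_comm (p - q) y.1, MulOpposite.smul_eq_mul_unop,
        MulOpposite.unop_op]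
      ring
  rw [key, h, Matrix.smul_mulVec, Matrix.one_mulVec, dotProduct_smul, smul_eq_mul]

theorem exists_perm_of_ofFn {α : Type*} {N : ℕ} (f g : Fin N → α)
    (h : (List.ofFn g).Perm (List.ofFn f)) :
    ∃ p : Equiv.Perm (Fin N), ∀ k, g k = f (p k) := by
  classical
  have key : ∀ (f : Fin N → α) (y : α),
      (Finset.univ.filter fun i => f i = y).card = (List.ofFn f).count y := by
    intro f y
    rw [List.ofFn_eq_map, List.count, List.countP_map, Finset.card_def, Finset.filter_val,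
      ← Multiset.countP_eq_card_filter, Fin.univ_def]
    simp only [Multiset.coe_countP]
    congr 1
  refine exists_perm_of_card_fiber f g fun y => ?_
  rw [key, key, h.count_eq]

theorem ofFn_get_cast {α β : Type*} (l : List α) (f : α → β) {N : ℕ} (h : N = l.length) :
    List.ofFn (fun k : Fin N => f (l.get (Fin.cast h k))) = l.map f := by
  subst h
  rw [List.ofFn_eq_map]
  apply List.ext_get
  · simp
  · intro n h1 h2
    simp

theorem sum_get_cast {α : Type*} (l : List α) (f : α → ℝ) {N : ℕ} (h : N = l.length) :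
    ∑ k : Fin N, f (l.get (Fin.cast h k)) = (l.map f).sum := by
  subst h
  simp only [Fin.cast_eq_self, List.get_eq_getElem, Fin.sum_univ_fun_getElem]

theorem permFolds_of_hasFlex {n : ℕ} (A : Set (EuclideanSpace ℝ (Fin n)))
    (h : HasFlex (fun (v : A) j => (v : EuclideanSpace ℝ (Fin n)) j)) (ε : ℝ) (hε : 0 < ε) :
    ∃ t : ℝ, 0 ≤ t ∧ t < ε ∧ PermFoldsTo A t := by
  classical
  rcases A.eq_empty_or_nonempty with hA | hA
  · subst hA
    exact ⟨0, le_rfl, hε, 0, fun _ _ => 0, fun _ => 1, fun x hx => absurd hx (by simp),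
      fun x hx => absurd hx (by simp)⟩
  obtain ⟨s, t, δ, hδ, hp, hc, ht⟩ := h (ε ^ 2 / 4) (by positivity)
  set κ : ℝ := (t.map rcost).sum.trace with hκ
  have hκ0 : 0 ≤ κ := by
    rw [hκ]
    clear_value κ
    clear hp hc ht hκ
    induction t with
    | nil => simp only [List.map_nil, List.sum_nil, trace_zero, Std.le_refl]
    | cons y t ih =>
      rw [List.map_cons, List.sum_cons, Matrix.trace_add]
      have h1 : (rcost y).trace = y.1 ⬝ᵥ y.1 := by
        simp only [rcost, trace_vecMulVec]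
      have h2 : 0 ≤ y.1 ⬝ᵥ y.1 := Finset.sum_nonneg fun i _ => mul_self_nonneg _
      rw [h1]
      linarith
  set L : List (Row n) := t.flatMap complRows with hL
  have ht' : ((t ++ L).map rcost).sum = κ • (1 : Matrix (Fin n) (Fin n) ℝ) :=
    compl_flatMap_cost t
  have hs' : ((s ++ L).map rcost).sum = (κ + δ) • (1 : Matrix (Fin n) (Fin n) ℝ) := by
    rw [add_smul, ← ht', List.map_append, List.map_append, List.sum_append, List.sum_append, hc]
    abel
  have hp' : ∀ v : A, ((s ++ L).map (rev fun j => (v : EuclideanSpace ℝ (Fin n)) j)).Perm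
      ((t ++ L).map (rev fun j => (v : EuclideanSpace ℝ (Fin n)) j)) := by
    intro v
    rw [List.map_append, List.map_append]
    exact (hp v).append_right _
  have hlen : (t ++ L).length = (s ++ L).length := by
    obtain ⟨v0, hv0⟩ := hA
    have := (hp' ⟨v0, hv0⟩).length_eq
    simpa using this.symm
  have hpos : 0 < κ + δ := by linarith only [hδ, hκ0]
  set r : ℝ := Real.sqrt (κ + δ) with hr
  have hr0 : 0 < r := Real.sqrt_pos.2 hpos
  have hr2 : r ^ 2 = κ + δ := Real.sq_sqrt hpos.le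
  have hdist : ∀ x y : EuclideanSpace ℝ (Fin n),
      ((fun j => x j) - fun j => y j) ⬝ᵥ ((fun j => x j) - fun j => y j) = dist x y ^ 2 := by
    intro x y
    rw [EuclideanSpace.dist_eq, Real.sq_sqrt (by (clear * -; positivity)), dotProduct]
    refine Finset.sum_congr rfl fun j _ => ?_
    rw [Real.dist_eq, sq_abs, Pi.sub_apply, sq]
  have hperm : ∀ x : EuclideanSpace ℝ (Fin n), ∃ p : Equiv.Perm (Fin (t ++ L).length),
      x ∈ A → ∀ k, rev (fun j => x j) ((s ++ L).get (Fin.cast hlen k)) =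
        rev (fun j => x j) ((t ++ L).get (p k)) := by
    intro x
    by_cases hx : x ∈ A
    · obtain ⟨p, hp⟩ := exists_perm_of_ofFn
        (fun k : Fin (t ++ L).length => rev (fun j => x j) ((t ++ L).get (Fin.cast rfl k)))
        (fun k : Fin (t ++ L).length => rev (fun j => x j) ((s ++ L).get (Fin.cast hlen k)))
        (by
          rw [ofFn_get_cast (s ++ L) (rev fun j => x j) hlen,
            ofFn_get_cast (t ++ L) (rev fun j => x j) rfl]
          exact hp' ⟨x, hx⟩)
      exact ⟨p, fun _ k => hp k⟩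
    · exact ⟨1, fun h => absurd h hx⟩
  choose p hpk using hperm
  refine ⟨Real.sqrt (κ / (κ + δ)), Real.sqrt_nonneg _, ?_, (t ++ L).length,
    fun x k => r⁻¹ * rev (fun j => x j) ((t ++ L).get k), p, ?_, ?_⟩
  · rw [Real.sqrt_lt' hε, div_lt_iff₀ hpos]
    have h1 : κ ≤ ε ^ 2 / 4 * δ := ht
    have h2 : 0 < ε ^ 2 * δ := by positivity
    have h3 : 0 ≤ ε ^ 2 * κ := by (clear * - hε hκ0; positivity)
    nlinarith only [ht, h2, h3]
  · intro x hx y hy
    have h1 := sum_get_cast (t ++ L)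
      (fun z => (rev (fun j => x j) z - rev (fun j => y j) z) ^ 2) rfl
    rw [sum_sq_of_cost _ κ ht', hdist] at h1
    have h2 : ∀ k : Fin (t ++ L).length,
        (r⁻¹ * rev (fun j => x j) ((t ++ L).get k) - r⁻¹ * rev (fun j => y j) ((t ++ L).get k)) ^ 2
        = r⁻¹ ^ 2 * (rev (fun j => x j) ((t ++ L).get (Fin.cast rfl k)) -
          rev (fun j => y j) ((t ++ L).get (Fin.cast rfl k))) ^ 2 := by
      intro k
      rw [← mul_sub, mul_pow]
      rfl
    simp only [h2]
    rw [← Finset.mul_sum, h1, mul_pow, Real.sq_sqrt (by (clear * - hκ0 hδ; positivity)), inv_pow, hr2]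
    (clear * - hκ0 hδ; field_simp)
  · intro x hx y hy
    have h1 := sum_get_cast (s ++ L)
      (fun z => (rev (fun j => x j) z - rev (fun j => y j) z) ^ 2) hlen
    rw [sum_sq_of_cost _ (κ + δ) hs', hdist] at h1
    have h2 : ∀ k : Fin (t ++ L).length,
        (r⁻¹ * rev (fun j => x j) ((t ++ L).get (p x k)) -
          r⁻¹ * rev (fun j => y j) ((t ++ L).get (p y k))) ^ 2
        = r⁻¹ ^ 2 * (rev (fun j => x j) ((s ++ L).get (Fin.cast hlen k)) -
          rev (fun j => y j) ((s ++ L).get (Fin.cast hlen k))) ^ 2 := by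
      intro k
      rw [← mul_sub, mul_pow, hpk x hx k, hpk y hy k]
    simp only [h2]
    rw [← Finset.mul_sum, h1, inv_pow, hr2]
    (clear * - hκ0 hδ; field_simp)

end Vale.Agent.P058.Gen
end
end

section

section

namespace Vale.Agent.P058

open Finset

/-- Straus' colouring: for real weights `μ` with total weight zero and `b ≠ 0` there is a colouring
of `ℝ` by a finite set for which `∑ μ_i y_i = b` has no monochromatic solution. -/
theorem exists_coloring {ι : Type*} [Fintype ι] (μ : ι → ℝ) (h0 : ∑ i, μ i = 0) {b : ℝ}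
    (hb : b ≠ 0) :
    ∃ χ : ℝ → (ι → ZMod (2 * (Fintype.card ι + 1))),
      ∀ y : ι → ℝ, (∀ i j, χ (y i) = χ (y j)) → ∑ i, μ i * y i ≠ b := by
  classical
  set K : ℕ := Fintype.card ι + 1 with hK
  refine ⟨fun y i => ((⌊(K : ℝ) * (μ i * y) / b⌋ : ℤ) : ZMod (2 * K)), fun y hy hsum => ?_⟩
  rcases isEmpty_or_nonempty ι with hι | ⟨⟨i0⟩⟩
  · simp at hsum
    exact hb hsum.symm
  have h1 : ∀ i, ∃ m : ℤ, |(K : ℝ) * (μ i * (y i - y i0)) / b - 2 * K * m| < 1 := by
    intro i
    have h2 := congrFun (hy i i0) i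
    simp only at h2
    rw [ZMod.intCast_eq_intCast_iff_dvd_sub] at h2
    obtain ⟨m, hm⟩ := h2
    refine ⟨-m, ?_⟩
    have e1 : (K : ℝ) * (μ i * (y i - y i0)) / b
        = (K : ℝ) * (μ i * y i) / b - (K : ℝ) * (μ i * y i0) / b := by ring
    have f1 := Int.floor_le ((K : ℝ) * (μ i * y i) / b)
    have f2 := Int.lt_floor_add_one ((K : ℝ) * (μ i * y i) / b)
    have f3 := Int.floor_le ((K : ℝ) * (μ i * y i0) / b)
    have f4 := Int.lt_floor_add_one ((K : ℝ) * (μ i * y i0) / b)
    have e2 : ((⌊(K : ℝ) * (μ i * y i0) / b⌋ : ℤ) : ℝ) - ((⌊(K : ℝ) * (μ i * y i) / b⌋ : ℤ) : ℝ)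
        = 2 * K * m := by
      have := congrArg (fun z : ℤ => (z : ℝ)) hm
      push_cast at this
      exact this
    rw [e1, abs_lt]
    push_cast
    constructor <;> nlinarith only [f1, f4, e2, f2, f3]
  choose m hm using h1
  have hs : ∑ i, (K : ℝ) * (μ i * (y i - y i0)) / b = K := by
    have : ∑ i, (K : ℝ) * (μ i * (y i - y i0)) / b
        = (K : ℝ) * (∑ i, μ i * y i - (∑ i, μ i) * y i0) / b := by
      rw [Finset.sum_mul, ← Finset.sum_sub_distrib, Finset.mul_sum, Finset.sum_div]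
      refine Finset.sum_congr rfl (fun i _ => ?_)
      ring
    rw [this, hsum, h0]
    field_simp
    ring
  have hlt : |(K : ℝ) - 2 * K * (∑ i, m i : ℤ)| < K := by
    have e3 : (K : ℝ) - 2 * K * (∑ i, m i : ℤ)
        = ∑ i, ((K : ℝ) * (μ i * (y i - y i0)) / b - 2 * K * m i) := by
      rw [Finset.sum_sub_distrib, hs, ← Finset.mul_sum]
      push_cast
      rfl
    rw [e3]
    calc |∑ i, ((K : ℝ) * (μ i * (y i - y i0)) / b - 2 * K * m i)|
        ≤ ∑ i, |(K : ℝ) * (μ i * (y i - y i0)) / b - 2 * K * m i| :=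
          Finset.abs_sum_le_sum_abs _ _
      _ ≤ ∑ _i : ι, (1 : ℝ) := Finset.sum_le_sum (fun i _ => (hm i).le)
      _ = Fintype.card ι := by simp only [sum_const, card_univ, nsmul_eq_mul, mul_one]
      _ < K := by rw [hK]; push_cast; linarith only []
  have hKpos : (0 : ℝ) < K := by rw [hK]; positivity
  set M : ℤ := ∑ i, m i
  have : |(1 : ℝ) - 2 * M| < 1 := by
    have e4 : (K : ℝ) - 2 * K * M = K * (1 - 2 * M) := by ring
    rw [e4, abs_mul, abs_of_pos hKpos] at hlt
    nlinarith only [hlt]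
  rw [abs_lt] at this
  have h5 : (0 : ℝ) < (M : ℝ) := by linarith only [this]
  have h6 : (M : ℝ) < 1 := by linarith only [this]
  have h7 : (0 : ℤ) < M := by exact_mod_cast h5
  have h8 : M < (1 : ℤ) := by exact_mod_cast h6
  omega

end Vale.Agent.P058
end
end

section

section

namespace Vale.Agent.P058

open TensorProduct

/-- The separability idempotent of a number field, acting on `ℚ`-bilinear forms on `ℝ`. -/
theorem exists_idem (S : Set ℝ) (hS : S.Finite) (hSa : ∀ s ∈ S, IsAlgebraic ℚ s) :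
    ∃ (ι : Type) (_ : Fintype ι) (a b : ι → ℝ), ∑ j, a j * b j = 1 ∧
      ∀ (B : ℝ →ₗ[ℚ] ℝ →ₗ[ℚ] ℝ), ∀ k ∈ S, ∀ s r : ℝ,
        ∑ j, B (a j * (k * s)) (b j * r) = ∑ j, B (a j * s) (b j * (k * r)) := by
  let K := IntermediateField.adjoin ℚ S
  have : Finite S := hS
  have hfd : FiniteDimensional ℚ K :=
    IntermediateField.finiteDimensional_adjoin fun s hs => (hSa s hs).isIntegral
  have : Algebra.FormallyUnramified ℚ K := Algebra.FormallyUnramified.of_isSeparable ℚ K
  obtain ⟨T, hT⟩ := TensorProduct.exists_finset (Algebra.FormallyUnramified.elem ℚ K)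
  have hmul := Algebra.FormallyUnramified.lmul_elem (R := ℚ) (S := K)
  rw [hT, map_sum] at hmul
  refine ⟨T, inferInstance, fun j => (j.1.1 : ℝ), fun j => (j.1.2 : ℝ), ?_, ?_⟩
  · have h1 := congrArg (algebraMap K ℝ) hmul
    rw [map_sum, map_one] at h1
    rw [← h1, ← Finset.sum_coe_sort T]
    rfl
  · intro B k hk s r
    let Φ : K ⊗[ℚ] K →ₗ[ℚ] ℝ := TensorProduct.lift
      { toFun := fun p =>
          { toFun := fun q => B ((p : ℝ) * s) ((q : ℝ) * r)
            map_add' := fun q q' => by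
              rw [← map_add]
              congr 1
              push_cast
              ring
            map_smul' := fun c q => by
              rw [RingHom.id_apply, ← map_smul]
              congr 1
              rw [Rat.smul_def, Rat.smul_def]
              push_cast
              ring }
        map_add' := fun p p' => by
          ext q
          simp only [LinearMap.coe_mk, AddHom.coe_mk, LinearMap.add_apply]
          rw [← LinearMap.add_apply, ← map_add]
          congr 2
          push_cast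
          ring
        map_smul' := fun c p => by
          ext q
          simp only [LinearMap.coe_mk, AddHom.coe_mk, LinearMap.smul_apply, RingHom.id_apply]
          rw [← LinearMap.smul_apply, ← map_smul]
          congr 2
          rw [Rat.smul_def, Rat.smul_def]
          push_cast
          ring }
    have hΦ : ∀ p q : K, Φ (p ⊗ₜ q) = B ((p : ℝ) * s) ((q : ℝ) * r) := fun p q => rfl
    let kK : K := ⟨k, IntermediateField.subset_adjoin ℚ S hk⟩
    have h2 := congrArg Φ (Algebra.FormallyUnramified.one_tmul_mul_elem (R := ℚ) kK)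
    rw [hT, Finset.mul_sum, Finset.mul_sum, map_sum, map_sum] at h2
    simp only [Algebra.TensorProduct.tmul_mul_tmul, one_mul, hΦ] at h2
    rw [← Finset.sum_coe_sort T, ← Finset.sum_coe_sort T] at h2
    have e1 : ∀ j : T, B ((j.1.1 : ℝ) * (k * s)) ((j.1.2 : ℝ) * r) =
        B (((kK * j.1.1 : K) : ℝ) * s) ((j.1.2 : ℝ) * r) := by
      intro j
      congr 2
      push_cast
      ring
    have e2 : ∀ j : T, B ((j.1.1 : ℝ) * s) ((j.1.2 : ℝ) * (k * r)) =
        B ((j.1.1 : ℝ) * s) (((kK * j.1.2 : K) : ℝ) * r) := by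
      intro j
      congr 1
      push_cast
      ring
    rw [Finset.sum_congr rfl fun j _ => e1 j, Finset.sum_congr rfl fun j _ => e2 j]
    exact h2.symm

end Vale.Agent.P058
end
end

section

section

namespace Vale.Agent.P058

open Finset

/-- the coordinate permutation of `ℝ^N` -/
noncomputable def permIso (N : ℕ) :
    Equiv.Perm (Fin N) →* (EuclideanSpace ℝ (Fin N) ≃ᵢ EuclideanSpace ℝ (Fin N)) where
  toFun σ := (LinearIsometryEquiv.piLpCongrLeft 2 ℝ ℝ σ).toIsometryEquiv
  map_one' := by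
    ext w i
    simp [LinearIsometryEquiv.piLpCongrLeft_apply, Equiv.piCongrLeft']
    rfl
  map_mul' σ τ := by
    ext w i
    simp [LinearIsometryEquiv.piLpCongrLeft_apply, Equiv.piCongrLeft']
    rfl

lemma permIso_apply (N : ℕ) (σ : Equiv.Perm (Fin N)) (w : EuclideanSpace ℝ (Fin N)) (i : Fin N) :
    permIso N σ w i = w (σ.symm i) := by
  simp [permIso, LinearIsometryEquiv.piLpCongrLeft_apply, Equiv.piCongrLeft']

lemma dist_sq {N : ℕ} (x y : EuclideanSpace ℝ (Fin N)) :
    dist x y ^ 2 = ∑ i, (x i - y i) ^ 2 := by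
  rw [EuclideanSpace.dist_eq, Real.sq_sqrt (Finset.sum_nonneg fun i _ => by positivity)]
  refine Finset.sum_congr rfl fun i _ => ?_
  rw [Real.dist_eq, sq_abs]

theorem FoldsTo.of_perm {d : ℕ} {A : Set (EuclideanSpace ℝ (Fin d))} {t : ℝ} (ht : 0 ≤ t)
    (h : PermFoldsTo A t) : FoldsTo A t := by
  obtain ⟨N, v, p, h1, h2⟩ := h
  refine ⟨N, (permIso N).range, fun x => WithLp.toLp 2 (v x), fun x => permIso N (p x)⁻¹, ?_,
    fun x _ => ⟨_, rfl⟩, fun x hx y hy => ?_, fun x hx y hy => ?_⟩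
  · exact Finite.of_surjective _ (permIso N).rangeRestrict_surjective
  · rw [← sq_eq_sq₀ dist_nonneg (mul_nonneg ht dist_nonneg), dist_sq]
    exact h1 x hx y hy
  · rw [← sq_eq_sq₀ dist_nonneg dist_nonneg, dist_sq]
    simp only [permIso_apply]
    exact h2 x hx y hy

theorem FoldsTo.canShrink {d : ℕ} {A : Set (EuclideanSpace ℝ (Fin d))}
    (hA : A.Finite) {t : ℝ} (h : FoldsTo A t) :
    CanShrink (m := A) (fun x y => dist (x : EuclideanSpace ℝ (Fin d)) y ^ 2) (t ^ 2) := by
  obtain ⟨n, G, f, g, hG, hg, h1, h2⟩ := h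
  have : Finite A := hA
  let act : MulAction G (G × A) :=
    { smul := fun k a => (k * a.1, a.2)
      one_smul := fun a => by
        change ((1 : G) * a.1, a.2) = a
        rw [one_mul]
      mul_smul := fun k l a => by
        change (k * l * a.1, a.2) = (k * (l * a.1), a.2)
        rw [mul_assoc] }
  have hact : ∀ (k : G) (a : G × A), k • a = (k * a.1, a.2) := fun _ _ => rfl
  let D : G × A → G × A → ℝ := fun a b =>
    dist ((a.1 : EuclideanSpace ℝ (Fin n) ≃ᵢ EuclideanSpace ℝ (Fin n)) (f a.2))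
      ((b.1 : EuclideanSpace ℝ (Fin n) ≃ᵢ EuclideanSpace ℝ (Fin n)) (f b.2)) ^ 2
  have hD : IsEuc D := ⟨Fin n, inferInstance,
    fun a i => ((a.1 : EuclideanSpace ℝ (Fin n) ≃ᵢ EuclideanSpace ℝ (Fin n)) (f a.2)) i,
    fun a b => dist_sq _ _⟩
  have hDG : ∀ (k : G) (a b : G × A), D (k • a) (k • b) = D a b := by
    intro k a b
    simp only [D, hact, Subgroup.coe_mul, IsometryEquiv.mul_apply, IsometryEquiv.dist_eq]
  refine ⟨G × A, inferInstance, D, fun a b => ∃ k : G, k • a = b, fun x => (1, x),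
    fun x => (⟨g x, hg x x.2⟩, x), IR.of_group hD hDG, fun a => ⟨1, one_smul _ _⟩, fun x => ?_,
    fun x y => ?_, fun x y => ?_⟩
  · refine ⟨⟨g x, hg x x.2⟩, ?_⟩
    rw [hact, mul_one]
  · simp only [D, Subgroup.coe_one, IsometryEquiv.coe_one, id_eq]
    rw [h1 x x.2 y y.2]
    ring
  · simp only [D]
    rw [h2 x x.2 y y.2]

theorem IsSubtransitive.permFoldsTo {d : ℕ} {A : Set (EuclideanSpace ℝ (Fin d))}
    (h : IsSubtransitive A) : PermFoldsTo A 0 := by
  classical
  obtain ⟨n, X, φ, hX, htr, hφ, hd⟩ := h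
  rcases A.eq_empty_or_nonempty with rfl | ⟨a0, ha0⟩
  · exact ⟨0, fun _ _ => 0, fun _ => 1, by simp, by simp⟩
  have hXf : Finite X := hX
  have : Fintype X := Fintype.ofFinite X
  -- the finite group of distance preserving permutations of `X`
  let Γ : Subgroup (Equiv.Perm X) :=
    { carrier := {σ | ∀ p q : X, dist (σ p) (σ q) = dist p q}
      mul_mem' := fun {σ τ} hσ hτ p q => by
        simp only [Equiv.Perm.coe_mul, Function.comp_apply]
        rw [hσ, hτ]
      one_mem' := fun p q => rfl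
      inv_mem' := fun {σ} hσ p q => by
        rw [← hσ (σ⁻¹ p) (σ⁻¹ q)]
        simp only [Equiv.Perm.coe_inv, Equiv.apply_symm_apply] }
  have : Fintype Γ := Fintype.ofFinite Γ
  let x0 : X := ⟨φ a0, hφ a0 ha0⟩
  have hex : ∀ y : X, ∃ h : Γ, (h : Equiv.Perm X) x0 = y := by
    intro y
    obtain ⟨g, hgX, hg⟩ := htr x0 x0.2 y y.2
    have hm : ∀ p : X, g p ∈ X := fun p => hgX.subset (Set.mem_image_of_mem g p.2)
    have hinj : Function.Injective (fun p : X => (⟨g p, hm p⟩ : X)) := by
      intro p q hpq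
      have := congrArg Subtype.val hpq
      exact Subtype.ext (g.injective this)
    let σ : Equiv.Perm X := Equiv.ofBijective _ (Finite.injective_iff_bijective.1 hinj)
    have hσ : ∀ p : X, ((σ p : X) : EuclideanSpace ℝ (Fin n)) = g p := fun p => rfl
    refine ⟨⟨σ, fun p q => ?_⟩, ?_⟩
    · change dist ((σ p : X) : EuclideanSpace ℝ (Fin n)) (σ q : X) = dist (p : EuclideanSpace ℝ (Fin n)) q
      rw [hσ, hσ, g.dist_eq]
    · exact Subtype.ext hg
  choose H hH using hex
  let e : Γ × Fin n ≃ Fin (Fintype.card (Γ × Fin n)) := Fintype.equivFin _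
  let y : EuclideanSpace ℝ (Fin d) → X := fun x => if hx : x ∈ A then ⟨φ x, hφ x hx⟩ else x0
  have hy : ∀ x ∈ A, (y x : EuclideanSpace ℝ (Fin n)) = φ x := fun x hx => by
    simp only [y, dif_pos hx]
  let c : ℝ := (Real.sqrt (Fintype.card Γ))⁻¹
  have hc : c ^ 2 * (Fintype.card Γ : ℝ) = 1 := by
    have h0 : (0 : ℝ) < Fintype.card Γ := by
      exact_mod_cast Fintype.card_pos_iff.2 ⟨1⟩
    simp only [c]
    rw [inv_pow, Real.sq_sqrt h0.le, inv_mul_cancel₀ h0.ne']
  -- right translation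
  let r : Γ → Equiv.Perm (Γ × Fin n) := fun h => Equiv.prodCongr (Equiv.mulRight h) (Equiv.refl _)
  refine ⟨Fintype.card (Γ × Fin n),
    fun _ k => c * (((e.symm k).1 : Equiv.Perm X) x0 : EuclideanSpace ℝ (Fin n)) (e.symm k).2,
    fun x => (e.symm.trans (r (H (y x)))).trans e, fun x _ z _ => by simp only [sub_self, ne_eq, OfNat.ofNat_ne_zero, not_false_eq_true, zero_pow, sum_const_zero, zero_mul], fun x hx z hz => ?_⟩
  have e1 : ∀ (w : EuclideanSpace ℝ (Fin d)) (a : Γ × Fin n),
      (c * (((e.symm (((e.symm.trans (r (H (y w)))).trans e) (e a))).1 : Equiv.Perm X) x0 :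
        EuclideanSpace ℝ (Fin n)) (e.symm (((e.symm.trans (r (H (y w)))).trans e) (e a))).2)
      = c * ((a.1 : Equiv.Perm X) (y w) : EuclideanSpace ℝ (Fin n)) a.2 := by
    intro w a
    simp only [Equiv.trans_apply, Equiv.symm_apply_apply, r, Equiv.prodCongr_apply, Prod.map_fst,
      Prod.map_snd, Equiv.coe_mulRight, Equiv.refl_apply, Subgroup.coe_mul,
      Equiv.Perm.coe_mul, Function.comp_apply, hH]
  rw [← Equiv.sum_comp e]
  simp only [e1]
  rw [Fintype.sum_prod_type]
  have e2 : ∀ a : Γ, ∑ i : Fin n, (c * ((a : Equiv.Perm X) (y x) : EuclideanSpace ℝ (Fin n)) i -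
      c * ((a : Equiv.Perm X) (y z) : EuclideanSpace ℝ (Fin n)) i) ^ 2 = c ^ 2 * dist x z ^ 2 := by
    intro a
    have h1 : dist ((a : Equiv.Perm X) (y x) : EuclideanSpace ℝ (Fin n))
        ((a : Equiv.Perm X) (y z) : EuclideanSpace ℝ (Fin n)) = dist x z := by
      have h2 := a.2 (y x) (y z)
      rw [Subtype.dist_eq, Subtype.dist_eq, hy x hx, hy z hz, hd x hx z hz] at h2
      exact h2
    rw [← h1, dist_sq, Finset.mul_sum]
    refine Finset.sum_congr rfl fun i _ => ?_
    ring
  rw [Finset.sum_congr rfl fun a _ => e2 a, Finset.sum_const, Finset.card_univ, nsmul_eq_mul]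
  calc (Fintype.card Γ : ℝ) * (c ^ 2 * dist x z ^ 2)
      = (c ^ 2 * (Fintype.card Γ : ℝ)) * dist x z ^ 2 := by ring
    _ = dist x z ^ 2 := by rw [hc, one_mul]

theorem isSubtransitive_iff {d : ℕ} {A : Set (EuclideanSpace ℝ (Fin d))} (hne : A.Nonempty) :
    IsSubtransitive A ↔ FoldsTo A 0 := by
  refine ⟨fun h => FoldsTo.of_perm le_rfl h.permFoldsTo, ?_⟩
  rintro ⟨n, G, f, g, hG, hg, h1, h2⟩
  obtain ⟨a0, ha0⟩ := hne
  have hf : ∀ x ∈ A, f x = f a0 := by
    intro x hx
    have := h1 x hx a0 ha0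
    rw [zero_mul] at this
    exact dist_eq_zero.1 this
  refine ⟨n, Set.range fun k : G => (k : EuclideanSpace ℝ (Fin n) ≃ᵢ EuclideanSpace ℝ (Fin n)) (f a0),
    fun x => g x (f a0), Set.finite_range _, ?_, fun x hx => ⟨⟨g x, hg x hx⟩, rfl⟩,
    fun x hx y hy => ?_⟩
  · rintro _ ⟨k, rfl⟩ _ ⟨l, rfl⟩
    refine ⟨((l * k⁻¹ : G) : EuclideanSpace ℝ (Fin n) ≃ᵢ EuclideanSpace ℝ (Fin n)), ?_, ?_⟩
    · ext z
      constructor
      · rintro ⟨_, ⟨m, rfl⟩, rfl⟩
        exact ⟨l * k⁻¹ * m, by simp only [Subgroup.coe_mul, InvMemClass.coe_inv, IsometryEquiv.coe_mul, Function.comp_apply]⟩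
      · rintro ⟨m, rfl⟩
        exact ⟨_, ⟨k * l⁻¹ * m, rfl⟩, by simp only [Subgroup.coe_mul, InvMemClass.coe_inv, IsometryEquiv.coe_mul, Function.comp_apply, IsometryEquiv.inv_apply_self, IsometryEquiv.apply_inv_self]⟩
    · simp only [Subgroup.coe_mul, InvMemClass.coe_inv, IsometryEquiv.coe_mul, Function.comp_apply, IsometryEquiv.inv_apply_self]
  · have e1 := h2 x hx y hy
    rw [hf x hx, hf y hy] at e1
    exact e1

end Vale.Agent.P058
end
end

section

section

namespace Vale.Agent.P058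

open Finset

/-- Points of the complex plane as points of `ℝ²`. -/
noncomputable def toPlane (z : ℂ) : EuclideanSpace ℝ (Fin 2) := !₂[z.re, z.im]

lemma dist_toPlane_sq (a b : ℂ) : dist (toPlane a) (toPlane b) ^ 2 = ‖a - b‖ ^ 2 := by
  rw [EuclideanSpace.dist_sq_eq]
  simp only [toPlane, Real.dist_eq, sq_abs, Fin.sum_univ_two, Fin.isValue, Matrix.cons_val_zero, Matrix.cons_val_one, Matrix.cons_val_fin_one, ← Complex.normSq_eq_norm_sq, Complex.normSq_apply, Complex.sub_re, Complex.sub_im]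
  ring

/-- Two-power roots of unity are dense in the unit circle. -/
lemma exists_root_near (e : ℂ) (he : ‖e‖ = 1) (ε : ℝ) (hε : 0 < ε) :
    ∃ (K : ℕ) (ζ : ℂ), ζ ^ (2 ^ K) = 1 ∧ ‖ζ - e‖ < ε := by
  obtain ⟨θ, hθ⟩ : ∃ θ : ℝ, Complex.exp (θ * Complex.I) = e := by
    refine ⟨Complex.arg e, ?_⟩
    have := Complex.norm_mul_exp_arg_mul_I e
    rw [he] at this
    simpa using this
  obtain ⟨K, hK⟩ : ∃ K : ℕ, 2 * Real.pi / ε < (2 : ℝ) ^ K := pow_unbounded_of_one_lt _ (by norm_num)
  have h2K : (0 : ℝ) < 2 ^ K := by positivity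
  set n : ℤ := ⌊θ * 2 ^ K / (2 * Real.pi)⌋ with hn
  refine ⟨K, Complex.exp ((2 * Real.pi * n / 2 ^ K : ℝ) * Complex.I), ?_, ?_⟩
  · rw [← Complex.exp_nat_mul]
    have : ((2 ^ K : ℕ) : ℂ) * ((2 * Real.pi * n / 2 ^ K : ℝ) * Complex.I) =
        n * (2 * Real.pi * Complex.I) := by
      push_cast
      field_simp
    rw [this, Complex.exp_int_mul_two_pi_mul_I]
  · rw [← hθ]
    have h1 : ‖Complex.exp ((2 * Real.pi * n / 2 ^ K : ℝ) * Complex.I) -
        Complex.exp (θ * Complex.I)‖ ≤ |2 * Real.pi * n / 2 ^ K - θ| := by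
      have e1 : Complex.exp ((2 * Real.pi * n / 2 ^ K : ℝ) * Complex.I) -
          Complex.exp (θ * Complex.I) =
          Complex.exp (θ * Complex.I) *
            (Complex.exp (Complex.I * (2 * Real.pi * n / 2 ^ K - θ : ℝ)) - 1) := by
        rw [mul_sub, ← Complex.exp_add, mul_one]
        congr 2
        push_cast
        ring
      rw [e1, norm_mul, Complex.norm_exp_ofReal_mul_I, one_mul]
      exact Real.norm_exp_I_mul_ofReal_sub_one_le
    refine lt_of_le_of_lt h1 ?_
    have hpi := Real.pi_pos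
    have e2 : (n : ℝ) ≤ θ * 2 ^ K / (2 * Real.pi) := Int.floor_le _
    have e3 : θ * 2 ^ K / (2 * Real.pi) < n + 1 := Int.lt_floor_add_one _
    rw [le_div_iff₀ (by positivity)] at e2
    rw [div_lt_iff₀ (by positivity)] at e3
    rw [div_lt_iff₀ hε] at hK
    rw [abs_lt]
    constructor
    · rw [lt_sub_iff_add_lt, lt_div_iff₀ h2K]
      nlinarith only [hK, e3]
    · rw [sub_lt_iff_lt_add, div_lt_iff₀ h2K]
      nlinarith only [hK, hpi, e2]

/-- The cyclic kite with vertices `1, -1, c + s i, c - s i`. -/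
noncomputable def kiteC (c s : ℝ) : Fin 4 → ℂ := ![1, -1, ⟨c, s⟩, ⟨c, -s⟩]

lemma kite_canShrink (c s : ℝ) (hcs : c ^ 2 + s ^ 2 = 1) (hs : s ≠ 0) (ε : ℝ) (hε : 0 < ε) :
    ∃ η, 0 ≤ η ∧ η < ε ∧
      CanShrink (fun i l => ‖kiteC c s i - kiteC c s l‖ ^ 2) η := by
  set e : ℂ := ⟨c, s⟩ with he
  have hen : ‖e‖ = 1 := by
    rw [← sq_eq_sq₀ (norm_nonneg _) zero_le_one, ← Complex.normSq_eq_norm_sq,
      Complex.normSq_apply]
    simp only [he]
    linarith only [hcs]
  have hden : 1 - (c * c - s * s) ≠ 0 := by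
    have : 0 < s ^ 2 := by positivity
    linarith
  have hcont : ContinuousAt (fun w : ℂ => ((w.re - c) / (1 - (c * w.re - s * w.im))) ^ 2) e := by
    have h1 : ContinuousAt (fun w : ℂ => w.re - c) e :=
      Complex.continuous_re.continuousAt.sub continuousAt_const
    have h2 : ContinuousAt (fun w : ℂ => 1 - (c * w.re - s * w.im)) e :=
      continuousAt_const.sub
        ((continuousAt_const.mul Complex.continuous_re.continuousAt).sub
          (continuousAt_const.mul Complex.continuous_im.continuousAt))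
    exact (h1.div h2 hden).pow 2
  have hcont2 : ContinuousAt (fun w : ℂ => 1 - (c * w.re - s * w.im)) e :=
    continuousAt_const.sub
        ((continuousAt_const.mul Complex.continuous_re.continuousAt).sub
          (continuousAt_const.mul Complex.continuous_im.continuousAt))
  have hev : ∀ᶠ w in nhds e, ((w.re - c) / (1 - (c * w.re - s * w.im))) ^ 2 < ε := by
    refine hcont.eventually (gt_mem_nhds ?_)
    simp only [he]
    simpa using hε
  have hev2 : ∀ᶠ w in nhds e, 1 - (c * w.re - s * w.im) ≠ 0 := hcont2.eventually_ne hden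
  obtain ⟨r, hr, hball⟩ := Metric.mem_nhds_iff.1 (hev.and hev2)
  obtain ⟨K, ζ, hζ, hζe⟩ := exists_root_near e hen r hr
  have hmem := hball (show ζ ∈ Metric.ball e r by rwa [Metric.mem_ball, dist_eq_norm])
  obtain ⟨h1, h2⟩ := hmem
  set lam : ℝ := (ζ.re - c) / (1 - (c * ζ.re - s * ζ.im)) with hlam
  have hlam1 : lam * (1 - (c * ζ.re - s * ζ.im)) = ζ.re - c := by
    rw [hlam, div_mul_cancel₀ _ h2]
  have hζn : ζ.re ^ 2 + ζ.im ^ 2 = 1 := by
    have : ‖ζ‖ = 1 := by
      have := congrArg norm hζ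
      rw [norm_pow, norm_one] at this
      exact (pow_eq_one_iff_of_nonneg (norm_nonneg _) (by positivity)).1 this
    have h3 : ‖ζ‖ ^ 2 = 1 := by rw [this, one_pow]
    rw [← Complex.normSq_eq_norm_sq, Complex.normSq_apply] at h3
    linarith only [h3]
  have hlam2 : lam * (c * ζ.im + s * ζ.re) = s - ζ.im := by
    have : (1 - (c * ζ.re - s * ζ.im)) * (lam * (c * ζ.im + s * ζ.re) - (s - ζ.im)) = 0 := by
      linear_combination (c * ζ.im + s * ζ.re) * hlam1 + s * hζn - ζ.im * hcs
    have := (mul_eq_zero.1 this).resolve_left h2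
    linarith only [this]
  -- `z i * (1 + lam * x i) = lam + x i`
  set z : Fin 4 → ℂ := ![1, -1, ζ, starRingEnd ℂ ζ] with hz
  have hzK : ∀ i, z i ^ (2 ^ (K + 1)) = 1 := by
    have e1 : ζ ^ (2 ^ (K + 1)) = 1 := by rw [pow_succ, pow_mul, hζ, one_pow]
    intro i
    fin_cases i
    · simp [hz]
    · simp only [hz]
      change (-1 : ℂ) ^ (2 ^ (K + 1)) = 1
      rw [pow_succ', pow_mul]
      norm_num
    · exact e1
    · change (starRingEnd ℂ ζ) ^ (2 ^ (K + 1)) = 1
      rw [← map_pow, e1, map_one]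
  have hzu : ∀ i, z i * (1 + lam * kiteC c s i) = lam + kiteC c s i := by
    intro i
    fin_cases i
    · simp only [hz, Fin.zero_eta, Fin.isValue, Matrix.cons_val_zero, kiteC, mul_one, one_mul]; ring
    · simp only [hz, Fin.mk_one, Fin.isValue, Matrix.cons_val_one, Matrix.cons_val_zero, kiteC, mul_neg, mul_one, neg_mul, one_mul, neg_add_rev, neg_neg]
    · change ζ * (1 + lam * (⟨c, s⟩ : ℂ)) = lam + (⟨c, s⟩ : ℂ)
      apply Complex.ext
      · simp; linarith only [hlam1]
      · simp only [Complex.mul_im, Complex.add_im, Complex.one_im, Complex.ofReal_re, Complex.ofReal_im, zero_mul, add_zero, zero_add, Complex.add_re, Complex.one_re, Complex.mul_re, sub_zero]; linarith only [hlam2]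
    · change (starRingEnd ℂ ζ) * (1 + lam * (⟨c, -s⟩ : ℂ)) = lam + (⟨c, -s⟩ : ℂ)
      apply Complex.ext
      · simp only [Complex.mul_re, Complex.conj_re, Complex.add_re, Complex.one_re, Complex.ofReal_re, Complex.ofReal_im, mul_neg, zero_mul, neg_zero, sub_zero, Complex.conj_im, Complex.add_im, Complex.one_im, Complex.mul_im, add_zero, zero_add, neg_mul, neg_neg]; linarith only [hlam1]
      · simp only [Complex.mul_im, Complex.conj_re, Complex.add_im, Complex.one_im, Complex.ofReal_re, mul_neg, Complex.ofReal_im, zero_mul, add_zero, zero_add, Complex.conj_im, Complex.add_re, Complex.one_re, Complex.mul_re, neg_zero, sub_zero, neg_mul]; linarith only [hlam2]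
  refine ⟨lam ^ 2, sq_nonneg _, h1, CanShrink.of_complex (J := Unit) (K + 1)
    (fun i _ => 1 + lam * kiteC c s i) (fun i _ => z i) (fun i _ => hzK i) ?_ ?_⟩
  · intro i l
    simp only [Finset.univ_unique, Finset.sum_const, Finset.card_singleton, one_smul]
    rw [add_sub_add_left_eq_sub, ← mul_sub, norm_mul, mul_pow]
    simp
  · intro i l
    simp only [Finset.univ_unique, Finset.sum_const, Finset.card_singleton, one_smul]
    rw [hzu, hzu, add_sub_add_left_eq_sub]

/-- From the combinatorial form to the Ramsey property. -/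
lemma isRamsey_of_IR {d : ℕ} {m : Type} (x : m → EuclideanSpace ℝ (Fin d))
    (h : IR (fun i l => dist (x i) (x l) ^ 2) (fun _ _ => True)) :
    IsRamsey (Set.range x) := by
  classical
  intro r _
  obtain ⟨β, _, D, ⟨ι, _, w, hw⟩, H⟩ := h (Fin r)
  let eι := Fintype.equivFin ι
  let N := Fintype.card ι
  let W : β → EuclideanSpace ℝ (Fin (N + 1)) := fun b =>
    WithLp.toLp 2 (Fin.cons 0 fun i => w b (eι.symm i))
  have hW : ∀ b b', dist (W b) (W b') ^ 2 = D b b' := by
    intro b b'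
    rw [EuclideanSpace.dist_sq_eq, Fin.sum_univ_succ, hw,
      ← Equiv.sum_comp eι.symm (fun i => (w b i - w b' i) ^ 2)]
    simp only [Fin.cons_zero, dist_self, ne_eq, OfNat.ofNat_ne_zero, not_false_eq_true, zero_pow, Fin.cons_succ, Real.dist_eq, sq_abs, zero_add, W]
    rfl
  refine ⟨N + 1, by omega, fun c => ?_⟩
  obtain ⟨φ, hφ1, hφ2⟩ := H fun b => c (W b)
  by_cases hm : Nonempty m
  · obtain ⟨i₀⟩ := hm
    have hex : ∀ y ∈ Set.range x, ∃ i, x i = y := fun y hy => hy
    let g : EuclideanSpace ℝ (Fin d) → m := fun y =>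
      if h : ∃ i, x i = y then h.choose else i₀
    have hg : ∀ y ∈ Set.range x, x (g y) = y := by
      intro y hy
      have : ∃ i, x i = y := hy
      simp only [g, dif_pos this]
      exact this.choose_spec
    refine ⟨fun y => W (φ (g y)), fun y hy y' hy' => ?_, c (W (φ i₀)), fun y hy => ?_⟩
    · rw [← sq_eq_sq₀ dist_nonneg dist_nonneg, hW, hφ1]
      simp only [hg y hy, hg y' hy']
    · exact hφ2 _ _ trivial
  · have hr : Nonempty (Fin r) := ⟨⟨0, by omega⟩⟩
    refine ⟨fun _ => 0, ?_, hr.some, ?_⟩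
    · rintro y ⟨i, -⟩
      exact absurd ⟨i⟩ hm
    · rintro y ⟨i, -⟩
      exact absurd ⟨i⟩ hm

/-- Every cyclic kite is Ramsey. -/
theorem isRamsey_kite (c s : ℝ) (hcs : c ^ 2 + s ^ 2 = 1) (hs : s ≠ 0) :
    IsRamsey (Set.range fun i => toPlane (kiteC c s i)) := by
  refine isRamsey_of_IR _ ?_
  simp only [dist_toPlane_sq]
  exact IR.of_shrink (kite_canShrink c s hcs hs)

end Vale.Agent.P058
end
end

section

section

namespace Vale.Agent.P058

/-- A finite set which folds to arbitrarily small copies of itself is Ramsey. -/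
theorem isRamsey_of_folds {d : ℕ} {A : Set (EuclideanSpace ℝ (Fin d))} (hA : A.Finite)
    (h : ∀ ε : ℝ, 0 < ε → ∃ t : ℝ, 0 ≤ t ∧ t < ε ∧ FoldsTo A t) : IsRamsey A := by
  have hfin : Finite A := hA.to_subtype
  have h1 : IR (α := A) (fun x y => dist (x : EuclideanSpace ℝ (Fin d)) y ^ 2)
      (fun _ _ => True) := by
    refine IR.of_shrink fun ε hε => ?_
    obtain ⟨t, ht0, ht1, ht2⟩ := h (min 1 ε) (lt_min one_pos hε)
    refine ⟨t ^ 2, sq_nonneg t, ?_, ht2.canShrink hA⟩
    have h3 : t < 1 := lt_of_lt_of_le ht1 (min_le_left _ _)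
    have h4 : t < ε := lt_of_lt_of_le ht1 (min_le_right _ _)
    nlinarith
  have h2 := isRamsey_of_IR (fun x : A => (x : EuclideanSpace ℝ (Fin d))) h1
  rwa [Subtype.range_coe] at h2

end Vale.Agent.P058
end
end

section

section

/-!
Ramsey sets have a signed balanced profile.
-/

namespace Vale.Agent.P058

open Finset

/-- The coordinates of a congruent copy are affine functionals. -/
lemma exists_affine_coord {n D : ℕ} {ι : Type*} [Fintype ι] (x : ι → E n) (v₀ : ι)
    (f : ι → E D) (hf : ∀ v w, dist (f v) (f w) = dist (x v) (x w)) (i : Fin D) :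
    ∃ (a : E n) (b : ℝ), ∀ v : ι, f v i = inner ℝ a (x v) + b := by
  classical
  let P : (ι → ℝ) →ₗ[ℝ] E n :=
    ∑ v, (LinearMap.toSpanSingleton ℝ (E n) (x v - x v₀)).comp (LinearMap.proj v)
  let Q : (ι → ℝ) →ₗ[ℝ] E D :=
    ∑ v, (LinearMap.toSpanSingleton ℝ (E D) (f v - f v₀)).comp (LinearMap.proj v)
  have hP : ∀ c, P c = ∑ v, c v • (x v - x v₀) := by
    intro c; simp only [LinearMap.sum_apply, LinearMap.coe_comp, LinearMap.coe_proj, Function.comp_apply, Function.eval, LinearMap.toSpanSingleton_apply, P]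
  have hQ : ∀ c, Q c = ∑ v, c v • (f v - f v₀) := by
    intro c; simp only [LinearMap.sum_apply, LinearMap.coe_comp, LinearMap.coe_proj, Function.comp_apply, Function.eval, LinearMap.toSpanSingleton_apply, Q]
  have hker : LinearMap.ker P ≤ LinearMap.ker Q := by
    intro c hc
    rw [LinearMap.mem_ker] at hc ⊢
    let u : ι → ℝ := fun v => c v - if v = v₀ then ∑ w, c w else 0
    have hu : ∑ v, u v = 0 := by simp only [sum_sub_distrib, sum_ite_eq', mem_univ, ↓reduceIte, sub_self, u]
    have e1 : ∀ {k : ℕ} (p : ι → E k), ∑ v, u v • p v = ∑ v, c v • (p v - p v₀) := by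
      intro k p
      simp only [u, sub_smul, smul_sub, Finset.sum_sub_distrib, ite_smul, zero_smul,
        Finset.sum_ite_eq', Finset.mem_univ, if_true, Finset.sum_smul]
    have e2 := inner_eq_of_dist_eq x f hf u u hu hu
    rw [e1, e1, ← hP, ← hQ, hc, inner_zero_left] at e2
    exact inner_self_eq_zero.mp e2
  let φ : Module.Dual ℝ (ι → ℝ) := (EuclideanSpace.proj i : E D →L[ℝ] ℝ).toLinearMap.comp Q
  have hφ : φ ∈ (LinearMap.ker P).dualAnnihilator := by
    rw [Submodule.mem_dualAnnihilator]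
    intro w hw
    have h1 := hker hw
    rw [LinearMap.mem_ker] at h1
    simp [φ, h1]
  rw [← LinearMap.range_dualMap_eq_dualAnnihilator_ker] at hφ
  obtain ⟨ψ, hψ⟩ := hφ
  let a : E n := (InnerProductSpace.toDual ℝ (E n)).symm (LinearMap.toContinuousLinearMap ψ)
  have ha : ∀ z, inner ℝ a z = ψ z := by
    intro z
    simp [a, InnerProductSpace.toDual_symm_apply]
  refine ⟨a, f v₀ i - inner ℝ a (x v₀), fun v => ?_⟩
  have h2 : ψ (x v - x v₀) = f v i - f v₀ i := by
    have h3 := LinearMap.congr_fun hψ (Pi.single v 1)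
    rw [LinearMap.dualMap_apply, hP] at h3
    have h4 : ∑ w, (Pi.single v (1 : ℝ) : ι → ℝ) w • (x w - x v₀) = x v - x v₀ := by
      simp only [Pi.single_apply, ite_smul, one_smul, zero_smul, sum_ite_eq', mem_univ, ↓reduceIte]
    rw [h4] at h3
    rw [h3]
    simp only [φ, LinearMap.comp_apply, hQ]
    have h5 : ∑ w, (Pi.single v (1 : ℝ) : ι → ℝ) w • (f w - f v₀) = f v - f v₀ := by
      simp only [Pi.single_apply, ite_smul, one_smul, zero_smul, sum_ite_eq', mem_univ, ↓reduceIte]
    rw [h5]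
    simp
  rw [map_sub, ← ha, ← ha] at h2
  linarith only [h2]

/-- the value of a row -/
noncomputable def rowv {n : ℕ} (y : E n × ℝ) (v : E n) : ℝ := inner ℝ y.1 v + y.2

/-- the vector of a row -/
noncomputable def rowVec {n : ℕ} (A : Set (E n)) (y : E n × ℝ) :
    (A → (ℝ →₀ ℚ)) × (A × A → ℝ) :=
  (fun v => Finsupp.single (rowv y v) 1, fun p => (rowv y p.1 - rowv y p.2) ^ 2)

/-- the diagonal -/
noncomputable def diagMap {n : ℕ} (A : Set (E n)) :
    (ℝ →₀ ℚ) →ₗ[ℚ] (A → (ℝ →₀ ℚ)) × (A × A → ℝ) :=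
  (LinearMap.inl ℚ _ _).comp (LinearMap.pi fun _ => LinearMap.id)

lemma diagMap_apply {n : ℕ} (A : Set (E n)) (φ : ℝ →₀ ℚ) : diagMap A φ = (fun _ => φ, 0) := rfl

/-- The first alternative: the squared distances are a rational combination of rows. -/
lemma signed_of_mem {n : ℕ} (A : Set (E n)) [Fintype A]
    (h : ((0 : A → (ℝ →₀ ℚ)), fun p : A × A => dist (p.1 : E n) p.2 ^ 2) ∈
      LinearMap.range (diagMap A) ⊔ Submodule.span ℚ (Set.range (rowVec A))) :
    HasSignedProfile A := by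
  classical
  obtain ⟨t, ht, s, hs, hts⟩ := Submodule.mem_sup.mp h
  obtain ⟨φ, rfl⟩ := ht
  obtain ⟨c, hc⟩ := Finsupp.mem_span_range_iff_exists_finsupp.mp hs
  -- the two components
  have h1 : ∀ v : A, (∑ y ∈ c.support, c y • Finsupp.single (rowv y v) (1 : ℚ)) = -φ := by
    intro v
    have e1 := congrArg (fun z => z.1 v) hts
    simp only [diagMap_apply, Prod.fst_add, Pi.add_apply, Pi.zero_apply] at e1
    have e2 : s.1 v = ∑ y ∈ c.support, c y • Finsupp.single (rowv y v) (1 : ℚ) := by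
      rw [← hc, Finsupp.sum]
      simp only [rowVec, Prod.smul_mk, Prod.fst_sum, Finset.sum_apply, Pi.smul_apply, Finsupp.smul_single, smul_eq_mul, mul_one]
    rw [← e2]
    exact eq_neg_of_add_eq_zero_right e1
  have h2 : ∀ v w : A, (∑ y ∈ c.support, (c y : ℝ) * (rowv y v - rowv y w) ^ 2)
      = dist (v : E n) w ^ 2 := by
    intro v w
    have e1 := congrArg (fun z => z.2 (v, w)) hts
    simp only [diagMap_apply, Prod.snd_add, Pi.add_apply, Pi.zero_apply, zero_add] at e1
    rw [← e1, ← hc, Finsupp.sum]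
    simp only [rowVec, Prod.smul_mk, Prod.snd_sum, Finset.sum_apply, Pi.smul_apply, Rat.smul_def]
  -- common denominator
  set N : ℕ := ∏ y ∈ c.support, (c y).den with hN
  have hNpos : 0 < N := Finset.prod_pos fun y _ => (c y).den_pos
  have hex : ∀ y, ∃ z : ℤ, y ∈ c.support → (z : ℚ) = N * c y := by
    intro y
    by_cases hy : y ∈ c.support
    · obtain ⟨k, hk⟩ : (c y).den ∣ N := Finset.dvd_prod_of_mem _ hy
      refine ⟨k * (c y).num, fun _ => ?_⟩
      rw [hk]
      push_cast
      have := Rat.mul_den_eq_num (c y)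
      rw [mul_comm ((c y).den : ℚ) (k : ℚ), mul_assoc, mul_comm ((c y).den : ℚ), this]
    · exact ⟨0, fun h => absurd h hy⟩
  choose z hz using hex
  set ρ : ℝ := Real.sqrt N with hρ
  have hNR : (0 : ℝ) < N := by exact_mod_cast hNpos
  have hρ0 : 0 < ρ := Real.sqrt_pos.mpr hNR
  have hρ2 : ρ ^ 2 = N := Real.sq_sqrt hNR.le
  let e : Fin c.support.card ≃ c.support := (Fintype.equivFinOfCardEq (by simp only [Finsupp.mem_support_iff, ne_eq, Fintype.card_coe])).symm
  refine ⟨c.support.card, fun j => z (e j).1, fun j => ρ⁻¹ • (e j).1.1, fun j => ρ⁻¹ * (e j).1.2,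
    ?_, ?_⟩
  · intro v hv w hw t
    have key : ∀ v ∈ A, (∑ j, if inner ℝ (ρ⁻¹ • (e j).1.1) v + ρ⁻¹ * (e j).1.2 = t
        then z (e j).1 else 0 : ℤ) = ∑ y ∈ c.support, if rowv y v = ρ * t then z y else 0 := by
      intro v _
      rw [← Finset.sum_coe_sort c.support, ← e.sum_comp]
      refine Finset.sum_congr rfl fun j _ => ?_
      have e3 : (inner ℝ (ρ⁻¹ • (e j).1.1) v + ρ⁻¹ * (e j).1.2 = t) ↔
          rowv (e j).1 v = ρ * t := by
        rw [real_inner_smul_left, ← mul_add, rowv]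
        constructor
        · intro h
          rw [← h, mul_inv_cancel_left₀ hρ0.ne']
        · intro h
          rw [h, inv_mul_cancel_left₀ hρ0.ne']
      simp only [e3]
    have key2 : ∀ v : A, ((∑ y ∈ c.support, if rowv y v = ρ * t then z y else 0 : ℤ) : ℚ) =
        N * (-φ) (ρ * t) := by
      intro v
      rw [← h1 v, Finsupp.finsetSum_apply, Finset.mul_sum]
      push_cast
      refine Finset.sum_congr rfl fun y hy => ?_
      rw [Pi.smul_apply, Finsupp.single_apply]
      split_ifs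
      · rw [hz y hy]; simp
      · simp
    rw [key v hv, key w hw]
    have e4 := (key2 ⟨v, hv⟩).trans (key2 ⟨w, hw⟩).symm
    exact_mod_cast e4
  · intro v hv w hw
    rw [← h2 ⟨v, hv⟩ ⟨w, hw⟩, ← Finset.sum_coe_sort c.support, ← e.sum_comp]
    refine Finset.sum_congr rfl fun j _ => ?_
    have e5 : ((z (e j).1 : ℤ) : ℝ) = N * (c (e j).1 : ℝ) := by
      have := hz (e j).1 (e j).2
      exact_mod_cast congrArg (fun q : ℚ => (q : ℝ)) this
    rw [e5, real_inner_smul_left, real_inner_smul_left, rowv, rowv]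
    rw [← mul_sub, mul_pow, inv_pow, hρ2]
    simp only [add_sub_add_right_eq_sub]
    (clear * - hNpos; field_simp)

/-- **Ramsey sets have a signed balanced profile.** -/
theorem isRamsey_imp_signed {n : ℕ} {A : Set (EuclideanSpace ℝ (Fin n))} (hA : A.Finite)
    (hne : A.Nonempty) (hR : IsRamsey A) : HasSignedProfile A := by
  classical
  have : Fintype A := hA.fintype
  obtain ⟨x₀, hx₀⟩ := hne
  have : Nonempty A := ⟨⟨x₀, hx₀⟩⟩
  by_cases h : ((0 : A → (ℝ →₀ ℚ)), fun p : A × A => dist (p.1 : E n) p.2 ^ 2) ∈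
      LinearMap.range (diagMap A) ⊔ Submodule.span ℚ (Set.range (rowVec A))
  · exact signed_of_mem A h
  exfalso
  obtain ⟨Φ, hΦ1, hΦ2⟩ := Submodule.exists_dual_map_eq_bot_of_notMem h inferInstance
  set δ : ℚ := Φ ((0 : A → (ℝ →₀ ℚ)), fun p : A × A => dist (p.1 : E n) p.2 ^ 2) with hδ
  have hΦ0 : ∀ z ∈ LinearMap.range (diagMap A) ⊔ Submodule.span ℚ (Set.range (rowVec A)),
      Φ z = 0 := by
    intro z hz
    have h1 : Φ z ∈ Submodule.map Φ
      (LinearMap.range (diagMap A) ⊔ Submodule.span ℚ (Set.range (rowVec A))) := ⟨z, hz, rfl⟩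
    rw [hΦ2, Submodule.mem_bot] at h1
    exact h1
  -- the functions
  let F : A → ℝ → ℚ := fun v t => Φ (Pi.single v (Finsupp.single t 1), 0)
  have hF0 : ∀ t, ∑ v, F v t = 0 := by
    intro t
    have h1 := hΦ0 (diagMap A (Finsupp.single t 1)) (Submodule.mem_sup_left ⟨_, rfl⟩)
    rw [diagMap_apply] at h1
    rw [← h1, ← map_sum]
    congr 1
    refine Prod.ext ?_ ?_
    · rw [Prod.fst_sum]
      exact Finset.univ_sum_single (fun _ : A => (Finsupp.single t 1 : ℝ →₀ ℚ))
    · rw [Prod.snd_sum]; simp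
  have hF1 : ∀ y : E n × ℝ, ∑ v : A, F v (rowv y v) +
      Φ (0, fun p : A × A => (rowv y p.1 - rowv y p.2) ^ 2) = 0 := by
    intro y
    have h1 := hΦ0 (rowVec A y) (Submodule.mem_sup_right (Submodule.subset_span ⟨y, rfl⟩))
    rw [← h1, ← map_sum, ← map_add]
    congr 1
    refine Prod.ext ?_ ?_
    · rw [Prod.fst_add, Prod.fst_sum]
      simp only [add_zero]
      exact Finset.univ_sum_single (fun v : A => (Finsupp.single (rowv y v) 1 : ℝ →₀ ℚ))
    · rw [Prod.snd_add, Prod.snd_sum]; simp only [sum_const_zero, zero_add, rowVec]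
  -- the colouring
  obtain ⟨r, hr, hcol⟩ := exists_colouring_of_functions A 1 one_pos le_rfl
  obtain ⟨D, -, H⟩ := hR r hr
  let G : A → E D → ℝ := fun v p => -(((δ : ℝ))⁻¹ * ∑ i, (F v (p i) : ℝ))
  obtain ⟨c, hc⟩ := hcol (E D) G ⟨x₀, hx₀⟩
  obtain ⟨f, hf, i, hi⟩ := H c
  have hsum : ∑ v : A, (G v (f v) - G v (f x₀)) = 1 := by
    have e1 : ∑ v : A, G v (f x₀) = 0 := by
      simp only [G, Finset.sum_neg_distrib, ← Finset.mul_sum]
      rw [Finset.sum_comm]
      have : ∀ j : Fin D, ∑ v : A, (F v (f x₀ j) : ℝ) = 0 := by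
        intro j
        have := hF0 (f x₀ j)
        exact_mod_cast congrArg (fun q : ℚ => (q : ℝ)) this
      simp only [this, sum_const_zero, mul_zero, neg_zero]
    have hcoord : ∀ j : Fin D, ∃ y : E n × ℝ, ∀ v : A, f v j = rowv y v := by
      intro j
      obtain ⟨a, b, hab⟩ := exists_affine_coord (fun v : A => (v : E n)) ⟨x₀, hx₀⟩
        (fun v : A => f v) (fun v w => hf v v.2 w w.2) j
      exact ⟨(a, b), hab⟩
    choose y hy using hcoord
    have e2 : ∑ j : Fin D, Φ (0, fun p : A × A => (rowv (y j) p.1 - rowv (y j) p.2) ^ 2) = δ := by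
      rw [← map_sum, hδ]
      congr 1
      refine Prod.ext ?_ ?_
      · rw [Prod.fst_sum]; simp only [sum_const_zero]
      · rw [Prod.snd_sum]
        funext p
        rw [Finset.sum_apply]
        simp only [← hy]
        rw [← hf p.1 p.1.2 p.2 p.2.2, EuclideanSpace.dist_eq, Real.sq_sqrt (by (clear * -; positivity))]
        refine Finset.sum_congr rfl fun j _ => ?_
        rw [Real.dist_eq, sq_abs]
    have e3 : ∑ v : A, ∑ j, F v (f v j) = -δ := by
      rw [Finset.sum_comm, ← e2, ← Finset.sum_neg_distrib]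
      refine Finset.sum_congr rfl fun j _ => ?_
      have := hF1 (y j)
      simp only [hy]
      linarith only [this]
    have e4 : ∑ v : A, G v (f v) = 1 := by
      simp only [G, Finset.sum_neg_distrib, ← Finset.mul_sum]
      have e5 : ∑ v : A, ∑ j, (F v (f v j) : ℝ) = -(δ : ℝ) := by
        exact_mod_cast congrArg (fun q : ℚ => (q : ℝ)) e3
      rw [e5]
      have : (δ : ℝ) ≠ 0 := by exact_mod_cast hΦ1
      field_simp
    rw [Finset.sum_sub_distrib, e1, e4, sub_zero]
  exact hc (fun v => f v) (fun v => by rw [hi v v.2, hi x₀ hx₀]) hsum.ge hsum.le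

end Vale.Agent.P058
end
end

section

section

/-!
A set which folds to a smaller copy of itself has a signed balanced profile.
-/

namespace Vale.Agent.P058.Gen

open Finset

/-- A signed balanced profile indexed by an arbitrary finite type, up to a positive factor. -/
lemma hasSignedProfile_of {n : ℕ} {A : Set (EuclideanSpace ℝ (Fin n))} {J : Type*} [Fintype J]
    (m : J → ℤ) (a : J → EuclideanSpace ℝ (Fin n)) (b : J → ℝ) (c : ℝ) (hc : 0 < c)
    (h1 : ∀ v ∈ A, ∀ w ∈ A, ∀ t : ℝ, (∑ j, if inner ℝ (a j) v + b j = t then m j else 0) =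
      ∑ j, if inner ℝ (a j) w + b j = t then m j else 0)
    (h2 : ∀ v ∈ A, ∀ w ∈ A, ∑ j, (m j : ℝ) * (inner ℝ (a j) v - inner ℝ (a j) w) ^ 2 =
      c * dist v w ^ 2) : HasSignedProfile A := by
  classical
  set ρ : ℝ := Real.sqrt c with hρ
  have hρ0 : 0 < ρ := Real.sqrt_pos.mpr hc
  have hρ2 : ρ ^ 2 = c := Real.sq_sqrt hc.le
  let e : Fin (Fintype.card J) ≃ J := (Fintype.equivFin J).symm
  refine ⟨Fintype.card J, fun j => m (e j), fun j => ρ⁻¹ • a (e j), fun j => ρ⁻¹ * b (e j),
    ?_, ?_⟩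
  · intro v hv w hw t
    have key : ∀ v, (∑ j, if inner ℝ (ρ⁻¹ • a (e j)) v + ρ⁻¹ * b (e j) = t
        then m (e j) else 0 : ℤ) = ∑ j, if inner ℝ (a j) v + b j = ρ * t then m j else 0 := by
      intro v
      rw [← e.sum_comp]
      refine Finset.sum_congr rfl fun j _ => ?_
      have e3 : (inner ℝ (ρ⁻¹ • a (e j)) v + ρ⁻¹ * b (e j) = t) ↔
          inner ℝ (a (e j)) v + b (e j) = ρ * t := by
        rw [real_inner_smul_left, ← mul_add]
        constructor
        · intro h
          rw [← h, mul_inv_cancel_left₀ hρ0.ne']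
        · intro h
          rw [h, inv_mul_cancel_left₀ hρ0.ne']
      simp only [e3]
    rw [key, key]
    exact h1 v hv w hw _
  · intro v hv w hw
    have h3 := h2 v hv w hw
    rw [← e.sum_comp] at h3
    have h4 : ∑ j, (m (e j) : ℝ) * (inner ℝ (ρ⁻¹ • a (e j)) v - inner ℝ (ρ⁻¹ • a (e j)) w) ^ 2 =
        c⁻¹ * ∑ j, (m (e j) : ℝ) * (inner ℝ (a (e j)) v - inner ℝ (a (e j)) w) ^ 2 := by
      rw [Finset.mul_sum]
      refine Finset.sum_congr rfl fun j _ => ?_
      rw [real_inner_smul_left, real_inner_smul_left, ← mul_sub, mul_pow, inv_pow, hρ2]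
      ring
    rw [h4, h3, inv_mul_cancel_left₀ hc.ne']

/-- Coordinates of a map multiplying distances by `t` are affine functionals. -/
lemma exists_affine_coord_scaled {n D : ℕ} {ι : Type*} [Fintype ι] (x : ι → E n) (v₀ : ι)
    (f : ι → E D) {t : ℝ} (ht : 0 ≤ t) (hf : ∀ v w, dist (f v) (f w) = t * dist (x v) (x w))
    (i : Fin D) : ∃ (a : E n) (b : ℝ), ∀ v : ι, f v i = inner ℝ a (x v) + b := by
  obtain ⟨a, b, h⟩ := exists_affine_coord (fun v => t • x v) v₀ f (fun v w => by
    rw [hf, dist_smul₀, Real.norm_of_nonneg ht]) i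
  refine ⟨t • a, b, fun v => ?_⟩
  rw [h, real_inner_smul_left, real_inner_smul_right]

theorem signed_of_foldsTo {n : ℕ} (A : Set (EuclideanSpace ℝ (Fin n))) (hA : A.Finite) (t : ℝ)
    (ht : 0 ≤ t) (ht1 : t < 1) (h : FoldsTo A t) : HasSignedProfile A := by
  classical
  have : Fintype A := hA.fintype
  rcases A.eq_empty_or_nonempty with rfl | ⟨x₀, hx₀⟩
  · exact ⟨0, fun _ => 0, fun _ => 0, fun _ => 0, by simp, by simp⟩
  obtain ⟨N, G, f, g, hG, hgG, hf, hg⟩ := h
  have : Fintype G := Fintype.ofFinite G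
  -- affine coordinates
  have hpos : ∀ p : G × Fin N, ∃ y : E n × ℝ, ∀ v ∈ A,
      (p.1 : E N ≃ᵢ E N) (g v (f v)) p.2 = inner ℝ y.1 v + y.2 := by
    rintro ⟨k, i⟩
    obtain ⟨a, b, hab⟩ := exists_affine_coord (fun v : A => (v : E n)) ⟨x₀, hx₀⟩
      (fun v : A => (k : E N ≃ᵢ E N) (g v (f v)))
      (fun v w => by rw [IsometryEquiv.dist_eq]; exact hg v v.2 w w.2) i
    exact ⟨(a, b), fun v hv => hab ⟨v, hv⟩⟩
  have hneg : ∀ p : G × Fin N, ∃ y : E n × ℝ, ∀ v ∈ A,
      (p.1 : E N ≃ᵢ E N) (f v) p.2 = inner ℝ y.1 v + y.2 := by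
    rintro ⟨k, i⟩
    obtain ⟨a, b, hab⟩ := exists_affine_coord_scaled (fun v : A => (v : E n)) ⟨x₀, hx₀⟩
      (fun v : A => (k : E N ≃ᵢ E N) (f v)) ht
      (fun v w => by rw [IsometryEquiv.dist_eq]; exact hf v v.2 w w.2) i
    exact ⟨(a, b), fun v hv => hab ⟨v, hv⟩⟩
  choose yp hyp using hpos
  choose yn hyn using hneg
  have hcard : (0 : ℝ) < Fintype.card G := by exact_mod_cast Fintype.card_pos
  refine hasSignedProfile_of (J := (G × Fin N) ⊕ (G × Fin N))
    (Sum.elim (fun _ => 1) (fun _ => -1)) (Sum.elim (fun p => (yp p).1) (fun p => (yn p).1))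
    (Sum.elim (fun p => (yp p).2) (fun p => (yn p).2))
    (Fintype.card G * (1 - t ^ 2)) (by
      apply mul_pos hcard
      nlinarith only [ht1, ht]) ?_ ?_
  · -- the signed multisets of values vanish
    have key : ∀ v ∈ A, ∀ s : ℝ, (∑ j : (G × Fin N) ⊕ (G × Fin N),
        if inner ℝ (Sum.elim (fun p => (yp p).1) (fun p => (yn p).1) j) v +
          Sum.elim (fun p => (yp p).2) (fun p => (yn p).2) j = s then
          (Sum.elim (fun _ => 1) (fun _ => -1) j : ℤ) else 0) = 0 := by
      intro v hv s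
      rw [Fintype.sum_sum_type]
      simp only [Sum.elim_inl, Sum.elim_inr]
      have e1 : (∑ p : G × Fin N, if inner ℝ (yp p).1 v + (yp p).2 = s then (1 : ℤ) else 0) =
          ∑ p : G × Fin N, if (p.1 : E N ≃ᵢ E N) (g v (f v)) p.2 = s then (1 : ℤ) else 0 :=
        Finset.sum_congr rfl fun p _ => by rw [hyp p v hv]
      have e2 : (∑ p : G × Fin N, if inner ℝ (yn p).1 v + (yn p).2 = s then (-1 : ℤ) else 0) =
          -∑ p : G × Fin N, if (p.1 : E N ≃ᵢ E N) (f v) p.2 = s then (1 : ℤ) else 0 := by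
        rw [← Finset.sum_neg_distrib]
        refine Finset.sum_congr rfl fun p _ => ?_
        rw [← hyn p v hv]
        split_ifs <;> simp
      have e3 : (∑ p : G × Fin N, if (p.1 : E N ≃ᵢ E N) (g v (f v)) p.2 = s then (1 : ℤ) else 0) =
          ∑ p : G × Fin N, if (p.1 : E N ≃ᵢ E N) (f v) p.2 = s then (1 : ℤ) else 0 := by
        let gv : G := ⟨g v, hgG v hv⟩
        rw [← (Equiv.prodCongr (Equiv.mulRight gv) (Equiv.refl (Fin N))).sum_comp
          (fun p : G × Fin N => if (p.1 : E N ≃ᵢ E N) (f v) p.2 = s then (1 : ℤ) else 0)]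
        refine Finset.sum_congr rfl fun p _ => ?_
        rfl
      refine (congrArg₂ (· + ·) e1 e2).trans ?_
      rw [e3, add_neg_cancel]
    intro v hv w hw s
    rw [key v hv s, key w hw s]
  · intro v hv w hw
    rw [Fintype.sum_sum_type]
    simp only [Sum.elim_inl, Sum.elim_inr, Int.cast_one, one_mul, Int.cast_neg, neg_mul]
    rw [Finset.sum_neg_distrib]
    have e1 : ∑ p : G × Fin N, (inner ℝ (yp p).1 v - inner ℝ (yp p).1 w) ^ 2 =
        Fintype.card G * dist v w ^ 2 := by
      have : ∀ p : G × Fin N, (inner ℝ (yp p).1 v - inner ℝ (yp p).1 w) =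
          (p.1 : E N ≃ᵢ E N) (g v (f v)) p.2 - (p.1 : E N ≃ᵢ E N) (g w (f w)) p.2 := by
        intro p; rw [hyp p v hv, hyp p w hw]; ring
      simp only [this]
      rw [Fintype.sum_prod_type]
      have e5 : ∀ k : G, ∑ i, ((k : E N ≃ᵢ E N) (g v (f v)) i - (k : E N ≃ᵢ E N) (g w (f w)) i) ^ 2
          = dist v w ^ 2 := by
        intro k
        rw [← hg v hv w hw, ← IsometryEquiv.dist_eq (k : E N ≃ᵢ E N), EuclideanSpace.dist_eq,
          Real.sq_sqrt (by (clear * -; positivity))]
        refine Finset.sum_congr rfl fun i _ => ?_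
        rw [Real.dist_eq, sq_abs]
      simp only [e5]
      rw [Finset.sum_const, Finset.card_univ, nsmul_eq_mul]
    have e2 : ∑ p : G × Fin N, (inner ℝ (yn p).1 v - inner ℝ (yn p).1 w) ^ 2 =
        Fintype.card G * (t * dist v w) ^ 2 := by
      have : ∀ p : G × Fin N, (inner ℝ (yn p).1 v - inner ℝ (yn p).1 w) =
          (p.1 : E N ≃ᵢ E N) (f v) p.2 - (p.1 : E N ≃ᵢ E N) (f w) p.2 := by
        intro p; rw [hyn p v hv, hyn p w hw]; ring
      simp only [this]
      rw [Fintype.sum_prod_type]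
      have e5 : ∀ k : G, ∑ i, ((k : E N ≃ᵢ E N) (f v) i - (k : E N ≃ᵢ E N) (f w) i) ^ 2
          = (t * dist v w) ^ 2 := by
        intro k
        rw [← hf v hv w hw, ← IsometryEquiv.dist_eq (k : E N ≃ᵢ E N), EuclideanSpace.dist_eq,
          Real.sq_sqrt (by (clear * -; positivity))]
        refine Finset.sum_congr rfl fun i _ => ?_
        rw [Real.dist_eq, sq_abs]
      simp only [e5]
      rw [Finset.sum_const, Finset.card_univ, nsmul_eq_mul]
    rw [e1, e2]
    ring

end Vale.Agent.P058.Gen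
end
end

section

section

namespace Vale.Agent.P058

/-- A finite set with a signed balanced profile folds to arbitrarily small copies of itself. -/
theorem folds_of_signed {d : ℕ} {A : Set (EuclideanSpace ℝ (Fin d))} (hA : A.Finite)
    (hne : A.Nonempty) (h : HasSignedProfile A) (ε : ℝ) (hε : 0 < ε) :
    ∃ t : ℝ, 0 ≤ t ∧ t < ε ∧ FoldsTo A t := by
  have hfin : Finite A := hA.to_subtype
  have hne' : Nonempty A := hne.to_subtype
  obtain ⟨v, hv, hS⟩ := Gen.exists_Kb_of_signed A hA hne h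
  obtain ⟨t, h0, h1, h2⟩ := Gen.permFolds_of_hasFlex A
    (Gen.hasFlex_of_Kb _ fun η hη => Gen.amplify _ v hv hS η hη) ε hε
  exact ⟨t, h0, h1, FoldsTo.of_perm h0 h2⟩

/-- A finite set is Ramsey if and only if it has a signed balanced profile. -/
theorem isRamsey_iff_signed {d : ℕ} {A : Set (EuclideanSpace ℝ (Fin d))} (hA : A.Finite)
    (hne : A.Nonempty) : IsRamsey A ↔ HasSignedProfile A :=
  ⟨isRamsey_imp_signed hA hne, fun h =>
    isRamsey_of_folds hA (folds_of_signed hA hne h)⟩

/-- A finite set is Ramsey if and only if it folds to a copy of itself scaled by some `t < 1`. -/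
theorem isRamsey_iff_fold {d : ℕ} {A : Set (EuclideanSpace ℝ (Fin d))} (hA : A.Finite)
    (hne : A.Nonempty) : IsRamsey A ↔ ∃ t : ℝ, 0 ≤ t ∧ t < 1 ∧ FoldsTo A t :=
  ⟨fun h => folds_of_signed hA hne (isRamsey_imp_signed hA hne h) 1 one_pos,
    fun ⟨t, h0, h1, h2⟩ =>
    (isRamsey_iff_signed hA hne).2 (Gen.signed_of_foldsTo A hA t h0 h1 h2)⟩

end Vale.Agent.P058
end
end

section

section

namespace Vale.Agent.P058

open Finset

theorem inner_eq_affv {n : ℕ} (a v : EuclideanSpace ℝ (Fin n)) (b : ℝ) :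
    inner ℝ a v + b = affv (fun i => a i) b v := by
  unfold affv
  congr 1
  rw [PiLp.inner_apply]
  refine Finset.sum_congr rfl fun i _ => ?_
  simp [mul_comm]

theorem sum_single_apply {k : ℕ} (m : Fin k → ℤ) (y : Fin k → ℝ) (t : ℝ) :
    (∑ j, Finsupp.single (y j) (m j)) t = ∑ j, if y j = t then m j else 0 := by
  classical
  rw [Finsupp.finsetSum_apply]
  refine Finset.sum_congr rfl fun j _ => ?_
  rw [Finsupp.single_apply]

theorem hasProfile_iff {n : ℕ} (P : ℤ → Prop) (A : Set (EuclideanSpace ℝ (Fin n))) :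
    HasProfile P A ↔ ∃ (k : ℕ) (m : Fin k → ℤ) (a : Fin k → EuclideanSpace ℝ (Fin n))
      (b : Fin k → ℝ), (∀ j, P (m j)) ∧
    (∀ v ∈ A, ∀ w ∈ A, ∀ t : ℝ, (∑ j, if inner ℝ (a j) v + b j = t then m j else 0) =
      ∑ j, if inner ℝ (a j) w + b j = t then m j else 0) ∧
    ∀ v ∈ A, ∀ w ∈ A, ∑ j, (m j : ℝ) * (inner ℝ (a j) v - inner ℝ (a j) w) ^ 2 =
      dist v w ^ 2 := by
  constructor
  · rintro ⟨k, m, a, b, hP, h⟩
    have key : ∀ j (v : EuclideanSpace ℝ (Fin n)),
        inner ℝ (WithLp.toLp 2 (a j) : EuclideanSpace ℝ (Fin n)) v + b j =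
          affv (a j) (b j) v := fun j v => inner_eq_affv _ _ _
    have key2 : ∀ j (v w : EuclideanSpace ℝ (Fin n)),
        inner ℝ (WithLp.toLp 2 (a j) : EuclideanSpace ℝ (Fin n)) v -
          inner ℝ (WithLp.toLp 2 (a j) : EuclideanSpace ℝ (Fin n)) w =
          affv (a j) (b j) v - affv (a j) (b j) w := by
      intro j v w
      rw [← key, ← key]
      ring
    refine ⟨k, m, fun j => WithLp.toLp 2 (a j), b, hP, fun v hv w hw t => ?_, fun v hv w hw => ?_⟩
    · simp only [key]
      rw [← sum_single_apply, ← sum_single_apply, (h v hv w hw).1]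
    · simp only [key2]
      exact (h v hv w hw).2
  · rintro ⟨k, m, a, b, hP, h1, h2⟩
    refine ⟨k, m, fun j i => a j i, b, hP, fun v hv w hw => ⟨?_, ?_⟩⟩
    · ext t
      rw [sum_single_apply, sum_single_apply]
      simp only [← inner_eq_affv]
      exact h1 v hv w hw t
    · rw [← h2 v hv w hw]
      refine Finset.sum_congr rfl fun j _ => ?_
      rw [← inner_eq_affv, ← inner_eq_affv]
      congr 2
      ring

theorem isRamsey_iff_profile {n : ℕ} {A : Set (EuclideanSpace ℝ (Fin n))} (hA : A.Finite)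
    (hne : A.Nonempty) : IsRamsey A ↔ HasProfile (fun _ => True) A := by
  rw [isRamsey_iff_signed hA hne, hasProfile_iff]
  simp only [implies_true, true_and]
  rfl

theorem profile_of_permFold {n : ℕ} {A : Set (EuclideanSpace ℝ (Fin n))} (hA : A.Finite)
    (hne : A.Nonempty) (h : PermFoldsTo A 0) : HasProfile (fun m => 0 < m) A := by
  classical
  rw [hasProfile_iff]
  obtain ⟨N, v, p, h1, h2⟩ := h
  have : Fintype A := hA.fintype
  obtain ⟨x0, hx0⟩ := hne
  have hv : ∀ x ∈ A, v x = v x0 := by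
    intro x hx
    have h3 := h1 x hx x0 hx0
    rw [zero_mul, zero_pow two_ne_zero] at h3
    funext k
    have h4 := (Finset.sum_eq_zero_iff_of_nonneg (fun k _ => sq_nonneg _)).1 h3 k
      (Finset.mem_univ k)
    exact sub_eq_zero.1 (pow_eq_zero_iff two_ne_zero |>.1 h4)
  have hco := fun i : Fin N => exists_affine_coord (fun x : A => (x : EuclideanSpace ℝ (Fin n)))
    ⟨x0, hx0⟩ (fun x : A => (WithLp.toLp 2 fun k => v x (p x k) : EuclideanSpace ℝ (Fin N)))
    (fun x y => by
      rw [← sq_eq_sq₀ dist_nonneg dist_nonneg, dist_sq]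
      exact h2 x x.2 y y.2) i
  choose a b hab using hco
  have hab' : ∀ i, ∀ x ∈ A, v x (p x i) = inner ℝ (a i) x + b i := fun i x hx =>
    hab i ⟨x, hx⟩
  refine ⟨N, fun _ => 1, a, b, fun _ => one_pos, fun x hx y hy t => ?_, fun x hx y hy => ?_⟩
  · have key : ∀ x ∈ A, (∑ j, if inner ℝ (a j) x + b j = t then (1 : ℤ) else 0) =
        ∑ j, if v x0 j = t then (1 : ℤ) else 0 := by
      intro x hx
      rw [← Equiv.sum_comp (p x) (fun j => if v x0 j = t then (1 : ℤ) else 0)]
      refine Finset.sum_congr rfl fun j _ => ?_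
      rw [← hab' j x hx, hv x hx]
    rw [key x hx, key y hy]
  · rw [← h2 x hx y hy]
    refine Finset.sum_congr rfl fun j _ => ?_
    rw [hab' j x hx, hab' j y hy]
    push_cast
    ring

theorem permFold_of_profile {n : ℕ} {A : Set (EuclideanSpace ℝ (Fin n))}
    (hne : A.Nonempty) (h : HasProfile (fun m => 0 < m) A) : PermFoldsTo A 0 := by
  classical
  rw [hasProfile_iff] at h
  obtain ⟨k, m, a, b, hm, h1, h2⟩ := h
  obtain ⟨x0, hx0⟩ := hne
  let J := Σ j : Fin k, Fin (m j).toNat
  let N := Fintype.card J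
  let e : Fin N ≃ J := (Fintype.equivFin J).symm
  let y : EuclideanSpace ℝ (Fin n) → Fin N → ℝ := fun x i =>
    inner ℝ (a (e i).1) x + b (e i).1
  have hcard : ∀ x t, ((Finset.univ.filter fun i => y x i = t).card : ℤ) =
      ∑ j, if inner ℝ (a j) x + b j = t then m j else 0 := by
    intro x t
    rw [Finset.card_filter]
    push_cast
    have h3 : ∑ i : Fin N, (if y x i = t then (1 : ℤ) else 0) =
        ∑ z : J, if inner ℝ (a z.1) x + b z.1 = t then (1 : ℤ) else 0 :=
      e.sum_comp (fun z : J => if inner ℝ (a z.1) x + b z.1 = t then (1 : ℤ) else 0)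
    rw [h3, Fintype.sum_sigma]
    refine Finset.sum_congr rfl fun j _ => ?_
    split_ifs with hj
    · simp only [Finset.sum_const, Finset.card_univ, Fintype.card_fin, nsmul_eq_mul, mul_one]
      exact Int.toNat_of_nonneg (hm j).le
    · simp only [sum_const_zero]
  have hp : ∀ x : EuclideanSpace ℝ (Fin n), ∃ p : Equiv.Perm (Fin N), x ∈ A →
      ∀ i, y x i = y x0 (p i) := by
    intro x
    by_cases hx : x ∈ A
    · obtain ⟨p, hp⟩ := exists_perm_of_card_fiber (y x0) (y x) (fun t => by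
        have h3 := h1 x0 hx0 x hx t
        rw [← hcard, ← hcard] at h3
        exact_mod_cast h3)
      exact ⟨p, fun _ => hp⟩
    · exact ⟨1, fun h => absurd h hx⟩
  choose p hp using hp
  refine ⟨N, fun _ => y x0, p, fun x _ z _ => by simp only [sub_self, ne_eq, OfNat.ofNat_ne_zero, not_false_eq_true, zero_pow, sum_const_zero, zero_mul], fun x hx z hz => ?_⟩
  have h3 : ∀ i, y x0 (p x i) - y x0 (p z i) =
      inner ℝ (a (e i).1) x - inner ℝ (a (e i).1) z := by
    intro i
    rw [← hp x hx, ← hp z hz]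
    simp only [y]
    ring
  simp only [h3]
  rw [← h2 x hx z hz, e.sum_comp (fun w : J => (inner ℝ (a w.1) x - inner ℝ (a w.1) z) ^ 2),
    Fintype.sum_sigma]
  refine Finset.sum_congr rfl fun j _ => ?_
  simp only [Finset.sum_const, Finset.card_univ, Fintype.card_fin, nsmul_eq_mul]
  congr 1
  exact_mod_cast Int.toNat_of_nonneg (hm j).le

theorem isSubtransitive_iff_profile {n : ℕ} {A : Set (EuclideanSpace ℝ (Fin n))} (hA : A.Finite)
    (hne : A.Nonempty) : IsSubtransitive A ↔ HasProfile (fun m => 0 < m) A :=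
  ⟨fun h => profile_of_permFold hA hne h.permFoldsTo, fun h =>
    (isSubtransitive_iff hne).2 (FoldsTo.of_perm le_rfl (permFold_of_profile hne h))⟩

end Vale.Agent.P058
end
end

section

section

namespace Vale.Agent.P058

open Finset

/-- Necessary condition for being Ramsey, coming from derivations of the field `ℝ`. -/
theorem ramsey_necessary {ι : Type*} [Fintype ι] {d : ℕ} (x : ι → E d)
    (hx : affineSpan ℝ (Set.range x) = ⊤) (hR : IsRamsey (Set.range x))
    (δ : Derivation ℚ ℝ ℝ) (μ : ι → ℝ)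
    (h0 : ∑ i, μ i = 0) (h1 : ∀ k, ∑ i, μ i * x i k = 0)
    (h2 : ∀ k l, ∑ i, μ i * (x i k * x i l) = 0)
    (h3 : ∀ k, ∑ i, μ i * δ (x i k) = 0)
    (h4 : ∀ k l, ∑ i, μ i * (x i k * δ (x i l) - x i l * δ (x i k)) = 0) :
    ∑ i, μ i * ‖dv δ (x i)‖ ^ 2 = 0 := by
  classical
  by_contra hb
  obtain ⟨χ, hχ⟩ := exists_coloring μ h0 hb
  rcases isEmpty_or_nonempty ι with hι | ⟨⟨i0⟩⟩
  · simp at hb
  have : NeZero (2 * (Fintype.card ι + 1)) := ⟨by omega⟩
  let e := Fintype.equivFin (ι → ZMod (2 * (Fintype.card ι + 1)))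
  have hcard : 2 ≤ Fintype.card (ι → ZMod (2 * (Fintype.card ι + 1))) := by
    rw [Fintype.card_fun, ZMod.card]
    have h1 : 1 ≤ Fintype.card ι := Fintype.card_pos_iff.mpr ⟨i0⟩
    calc 2 ≤ 2 * (Fintype.card ι + 1) := by omega
      _ = (2 * (Fintype.card ι + 1)) ^ 1 := (pow_one _).symm
      _ ≤ _ := Nat.pow_le_pow_right (by omega) h1
  obtain ⟨D, _, hD⟩ := hR _ hcard
  obtain ⟨f, hf, i, hi⟩ := hD (fun p => e (χ (‖dv δ p‖ ^ 2)))
  have hdist : ∀ i j, dist (f (x i)) (f (x j)) = dist (x i) (x j) :=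
    fun i j => hf _ ⟨i, rfl⟩ _ ⟨j, rfl⟩
  have hcol : ∀ i j, χ (‖dv δ (f (x i))‖ ^ 2) = χ (‖dv δ (f (x j))‖ ^ 2) := by
    intro j k
    apply e.injective
    rw [hi _ ⟨j, rfl⟩, hi _ ⟨k, rfl⟩]
  exact hχ (fun i => ‖dv δ (f (x i))‖ ^ 2) hcol
    (sum_norm_dv δ x (fun i => f (x i)) hx hdist μ h0 h1 h2 h3 h4)

end Vale.Agent.P058
end
end

section

section

namespace Vale.Agent.P058

open Finset

/-- cosines of the three levels `-θ, 0, θ` -/
def lc (c : ℝ) : Fin 3 → ℝ := ![c, 1, c]
/-- sines of the three levels -/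
def ls (s : ℝ) : Fin 3 → ℝ := ![-s, 0, s]
/-- level weights -/
def lw : Fin 3 → ℝ := ![1, -2, 1]
/-- cosines of `0, 2π/3, 4π/3` -/
noncomputable def tu : Fin 3 → ℝ := ![1, -1 / 2, -1 / 2]
/-- sines of `0, 2π/3, 4π/3` -/
noncomputable def tv : Fin 3 → ℝ := ![0, Real.sqrt 3 / 2, -(Real.sqrt 3 / 2)]

/-- The nine points `exp (i (nθ + 2πk/3))`, `n ∈ {-1,0,1}`, `k ∈ {0,1,2}`. -/
noncomputable def ninePt (c s : ℝ) (i : Fin 3 × Fin 3) : E 2 :=
  !₂[lc c i.1 * tu i.2 - ls s i.1 * tv i.2, ls s i.1 * tu i.2 + lc c i.1 * tv i.2]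

lemma deriv_sqrt_three (δ : Derivation ℚ ℝ ℝ) : δ (Real.sqrt 3) = 0 := by
  have h : Real.sqrt 3 * Real.sqrt 3 = 3 := Real.mul_self_sqrt (by norm_num)
  have h2 := congrArg δ h
  have h3 : δ (3 : ℝ) = 0 := by
    have := δ.map_natCast 3
    simpa only [Nat.cast_ofNat] using this
  rw [Derivation.leibniz, h3, smul_eq_mul] at h2
  have h4 : Real.sqrt 3 ≠ 0 := by positivity
  have h5 : Real.sqrt 3 * δ (Real.sqrt 3) = 0 := by linarith only [h2]
  rcases mul_eq_zero.mp h5 with h | h
  · exact absurd h h4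
  · exact h

lemma deriv_tu (δ : Derivation ℚ ℝ ℝ) (k : Fin 3) : δ (tu k) = 0 := by
  have h : ∀ q : ℚ, δ (q : ℝ) = 0 := fun q => by
    have := δ.map_algebraMap q
    simpa only [eq_ratCast] using this
  have h1 := h 1
  have h2 := h (-1 / 2)
  push_cast at h1 h2
  fin_cases k <;> simp only [tu] <;> simpa using by first | exact h1 | exact h2

lemma deriv_tv (δ : Derivation ℚ ℝ ℝ) (k : Fin 3) : δ (tv k) = 0 := by
  have h3 : δ (Real.sqrt 3 / 2) = 0 := by
    have h : ∀ q : ℚ, δ (q : ℝ) = 0 := fun q => by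
      have := δ.map_algebraMap q
      simpa only [eq_ratCast] using this
    have h2 := h (1 / 2)
    push_cast at h2
    have e : Real.sqrt 3 / 2 = Real.sqrt 3 * (1 / 2 : ℝ) := by ring
    rw [e, Derivation.leibniz, h2, deriv_sqrt_three]
    simp
  fin_cases k
  · simp only [tv, Fin.zero_eta, Fin.isValue, Matrix.cons_val_zero, map_zero]
  · simpa only [tv, Fin.mk_one, Fin.isValue, Matrix.cons_val_one, Matrix.cons_val_zero] using h3
  · simpa only [tv, Fin.reduceFinMk, Matrix.cons_val, map_neg, neg_eq_zero] using h3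

lemma deriv_nine0 (δ : Derivation ℚ ℝ ℝ) (c s : ℝ) (i : Fin 3 × Fin 3) :
    δ (ninePt c s i 0) = lc (δ c) i.1 * tu i.2 - ls (δ s) i.1 * tv i.2
      - (if i.1 = 1 then tu i.2 else 0) := by
  obtain ⟨i, j⟩ := i
  have e : ninePt c s (i, j) 0 = lc c i * tu j - ls s i * tv j := rfl
  rw [e, map_sub, Derivation.leibniz, Derivation.leibniz, deriv_tu, deriv_tv]
  fin_cases i <;> simp [lc, ls, mul_comm]

lemma deriv_nine1 (δ : Derivation ℚ ℝ ℝ) (c s : ℝ) (i : Fin 3 × Fin 3) :
    δ (ninePt c s i 1) = ls (δ s) i.1 * tu i.2 + lc (δ c) i.1 * tv i.2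
      - (if i.1 = 1 then tv i.2 else 0) := by
  obtain ⟨i, j⟩ := i
  have e : ninePt c s (i, j) 1 = ls s i * tu j + lc c i * tv j := rfl
  rw [e, map_add, Derivation.leibniz, Derivation.leibniz, deriv_tu, deriv_tv]
  fin_cases i <;> simp [lc, ls, mul_comm]

lemma span_ninePt (c s : ℝ) : affineSpan ℝ (Set.range (ninePt c s)) = ⊤ := by
  rw [eq_top_iff]
  intro y _
  have hq : Real.sqrt 3 ^ 2 = 3 := Real.sq_sqrt (by norm_num)
  have hq0 : Real.sqrt 3 ≠ 0 := by positivity
  let w : Fin 3 × Fin 3 → ℝ := fun i =>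
    if i.1 = 1 then 1 / 3 + 2 / 3 * (tu i.2 * y 0 + tv i.2 * y 1) else 0
  have hw : ∑ i, w i = 1 := by
    simp only [Fin.isValue, one_div, tu, tv, Fintype.sum_prod_type, sum_ite_irrel, Fin.sum_univ_three, Matrix.cons_val_zero, one_mul, zero_mul, add_zero, Matrix.cons_val_one, Matrix.cons_val, neg_mul, sum_const_zero, sum_ite_eq', mem_univ, ↓reduceIte, w]
    ring
  have hy : y = (Finset.univ : Finset (Fin 3 × Fin 3)).affineCombination ℝ (ninePt c s) w := by
    rw [Finset.affineCombination_eq_linear_combination _ _ _ hw]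
    ext k
    fin_cases k
    · simp only [Fin.zero_eta, Fin.isValue, one_div, tu, tv, ninePt, lc, ls, ite_smul, zero_smul, Fintype.sum_prod_type, sum_ite_irrel, Fin.sum_univ_three, Matrix.cons_val_zero, one_mul, zero_mul, add_zero, mul_one, mul_zero, sub_zero, Matrix.cons_val_one, Matrix.cons_val, neg_mul, mul_neg, sub_neg_eq_add, sum_const_zero, sum_ite_eq', mem_univ, ↓reduceIte, zero_add, PiLp.add_apply, PiLp.smul_apply, smul_eq_mul, w]
      ring
    · simp only [Fin.mk_one, Fin.isValue, one_div, tu, tv, ninePt, lc, ls, ite_smul, zero_smul, Fintype.sum_prod_type, sum_ite_irrel, Fin.sum_univ_three, Matrix.cons_val_zero, one_mul, zero_mul, add_zero, mul_one, mul_zero, sub_zero, Matrix.cons_val_one, Matrix.cons_val, neg_mul, mul_neg, sub_neg_eq_add, sum_const_zero, sum_ite_eq', mem_univ, ↓reduceIte, zero_add, PiLp.add_apply, PiLp.smul_apply, Matrix.cons_val_fin_one, smul_eq_mul, w]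
      linear_combination (-(y 1) / 3) * hq
  rw [hy]
  exact affineCombination_mem_affineSpan hw _

theorem not_ramsey_ninePt (δ : Derivation ℚ ℝ ℝ) (c s : ℝ) (hcs : c ^ 2 + s ^ 2 = 1)
    (hδ : δ c ≠ 0) : ¬ IsRamsey (Set.range (ninePt c s)) := by
  intro hR
  have hq : Real.sqrt 3 ^ 2 = 3 := Real.sq_sqrt (by norm_num)
  have hd : c * δ c + s * δ s = 0 := by
    have := congrArg δ hcs
    simp only [map_add, Derivation.leibniz_pow, Derivation.map_one_eq_zero, smul_eq_mul,
      nsmul_eq_mul] at this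
    norm_num at this
    linarith only [this]
  have key := ramsey_necessary (ninePt c s) (span_ninePt c s) hR δ (fun i => lw i.1)
    (by simp only [lw, Fintype.sum_prod_type, sum_const, card_univ, Fintype.card_fin, nsmul_eq_mul, Nat.cast_ofNat, Fin.sum_univ_three, Fin.isValue, Matrix.cons_val_zero, mul_one, Matrix.cons_val_one, mul_neg, Matrix.cons_val]; norm_num)
    (by
      intro k
      fin_cases k <;>
      simp [Fintype.sum_prod_type, Fin.sum_univ_three, lw, ninePt, lc, ls, tu, tv] <;> ring)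
    (by
      intro k l
      fin_cases k <;> fin_cases l <;>
      simp [Fintype.sum_prod_type, Fin.sum_univ_three, lw, ninePt, lc, ls, tu, tv] <;>
      nlinarith [hq, hcs])
    (by
      intro k
      fin_cases k
      · simp only [Fin.zero_eta, deriv_nine0]
        simp only [lw, lc, tu, ls, tv, Fin.isValue, Fintype.sum_prod_type, Fin.sum_univ_three, Matrix.cons_val_zero, mul_one, mul_zero, sub_zero, Matrix.cons_val_one, Matrix.cons_val, mul_neg, sub_neg_eq_add, zero_ne_one, ↓reduceIte, one_mul, neg_mul, sub_self, zero_mul, add_zero, Fin.reduceEq]; ring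
      · simp only [Fin.mk_one, deriv_nine1]
        simp only [lw, ls, tu, lc, tv, Fin.isValue, Fintype.sum_prod_type, Fin.sum_univ_three, Matrix.cons_val_zero, mul_one, mul_zero, add_zero, ite_self, sub_zero, Matrix.cons_val_one, Matrix.cons_val, mul_neg, one_mul, neg_mul, zero_ne_one, ↓reduceIte, zero_mul, zero_add, sub_self, Fin.reduceEq]; ring)
    (by
      intro k l
      fin_cases k <;> fin_cases l <;>
      simp only [Fin.zero_eta, Fin.mk_one, deriv_nine0, deriv_nine1] <;>
      simp [Fintype.sum_prod_type, Fin.sum_univ_three, lw, ninePt, lc, ls, tu, tv] <;>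
      linarith)
  have hnorm : ∀ i, ‖dv δ (ninePt c s i)‖ ^ 2 =
      δ (ninePt c s i 0) ^ 2 + δ (ninePt c s i 1) ^ 2 := by
    intro i
    rw [EuclideanSpace.real_norm_sq_eq, Fin.sum_univ_two]
    rfl
  simp only [hnorm, deriv_nine0, deriv_nine1] at key
  simp only [lw, lc, tu, ls, tv, Fin.isValue, Fintype.sum_prod_type, Fin.sum_univ_three, Matrix.cons_val_zero, mul_one, mul_zero, sub_zero, add_zero, ite_self, Matrix.cons_val_one, Matrix.cons_val, mul_neg, sub_neg_eq_add, zero_ne_one, ↓reduceIte, even_two, Even.neg_pow, one_mul, neg_mul, sub_self, ne_eq, OfNat.ofNat_ne_zero, not_false_eq_true, zero_pow, zero_mul, zero_add, Fin.reduceEq] at key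
  have h6 : 6 * (δ c ^ 2 + δ s ^ 2) = 0 := by nlinarith only [key]
  have : 0 < δ c ^ 2 := by (clear * - hδ; positivity)
  nlinarith only [key, this]

end Vale.Agent.P058
end
end

section

section

namespace Vale.Agent.P058

open Finset

lemma exists_transcendental_Ioo : ∃ c : ℝ, c ∈ Set.Ioo (0 : ℝ) 1 ∧ Transcendental ℚ c := by
  by_contra h
  push Not at h
  have h1 : Set.Ioo (0 : ℝ) 1 ⊆ {x : ℝ | IsAlgebraic ℚ x} := by
    intro x hx
    have := h x hx
    rw [Transcendental, not_not] at this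
    exact this
  have h2 : (Set.Ioo (0 : ℝ) 1).Countable := (Algebraic.countable ℚ ℝ).mono h1
  rw [Cardinal.Real.Ioo_countable_iff] at h2
  norm_num at h2

lemma exists_derivation_ne (c : ℝ) (hc : Transcendental ℚ c) :
    ∃ δ : Derivation ℚ ℝ ℝ, δ c ≠ 0 := by
  have h : AlgebraicIndependent ℚ (fun _ : Unit => c) := by
    rwa [algebraicIndependent_unique_type_iff]
  obtain ⟨D, hD⟩ := exists_derivation h (fun _ => (1 : ℝ))
  exact ⟨D, by rw [hD ()]; norm_num⟩

theorem not_ramsey_of_transcendental (c s : ℝ) (hcs : c ^ 2 + s ^ 2 = 1)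
    (hc : Transcendental ℚ c) : ¬ IsRamsey (Set.range (ninePt c s)) := by
  obtain ⟨δ, hδ⟩ := exists_derivation_ne c hc
  exact not_ramsey_ninePt δ c s hcs hδ

lemma norm_ninePt (c s : ℝ) (hcs : c ^ 2 + s ^ 2 = 1) (i : Fin 3 × Fin 3) :
    dist (ninePt c s i) 0 = 1 := by
  have hq : Real.sqrt 3 ^ 2 = 3 := Real.sq_sqrt (by norm_num)
  rw [dist_zero_right, ← sq_eq_sq₀ (norm_nonneg _) zero_le_one, EuclideanSpace.real_norm_sq_eq,
    Fin.sum_univ_two]
  obtain ⟨i, j⟩ := i
  fin_cases i <;> fin_cases j <;> simp [ninePt, lc, ls, tu, tv] <;> nlinarith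

theorem exists_spherical_not_ramsey :
    ∃ A : Set (EuclideanSpace ℝ (Fin 2)), A.Finite ∧ A.Nonempty ∧ IsSpherical A ∧
      ¬ IsRamsey A := by
  obtain ⟨c, ⟨hc0, hc1⟩, hc⟩ := exists_transcendental_Ioo
  have hcs : c ^ 2 + (Real.sqrt (1 - c ^ 2)) ^ 2 = 1 := by
    rw [Real.sq_sqrt (by nlinarith)]; ring
  refine ⟨Set.range (ninePt c (Real.sqrt (1 - c ^ 2))), Set.finite_range _,
    Set.range_nonempty _, ⟨0, 1, ?_⟩, not_ramsey_of_transcendental _ _ hcs hc⟩
  rintro _ ⟨i, rfl⟩
  exact norm_ninePt _ _ hcs i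

end Vale.Agent.P058
end
end

section

section

namespace Vale.Agent.P058

open Finset

lemma IsTransitive.sum_eq {n : ℕ} {X : Set (EuclideanSpace ℝ (Fin n))} (hX : X.Finite)
    (hT : IsTransitive X) (F : ℝ → ℝ) {p q : EuclideanSpace ℝ (Fin n)} (hp : p ∈ X)
    (hq : q ∈ X) :
    ∑ y ∈ hX.toFinset, F (dist q y) = ∑ y ∈ hX.toFinset, F (dist p y) := by
  classical
  obtain ⟨g, hg1, hg2⟩ := hT p hp q hq
  have himg : hX.toFinset = hX.toFinset.image g := by
    ext y
    simp only [Set.Finite.mem_toFinset, Finset.mem_image]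
    constructor
    · intro hy
      rw [← hg1] at hy
      exact hy
    · intro hy
      rw [← hg1]
      exact hy
  rw [himg, Finset.sum_image (fun a _ b _ h => g.injective h), ← himg]
  refine Finset.sum_congr rfl fun y _ => ?_
  rw [← hg2, g.dist_eq]

/-- An additive map that anticommutes with multiplication by the square root of two. -/
lemma exists_conj (t : ℝ) (ht : t ≠ 0) :
    ∃ L : ℝ →ₗ[ℚ] ℝ, (∀ x, L (Real.sqrt 2 * x) = -(Real.sqrt 2 * L x)) ∧ L t ≠ 0 := by
  have h2 : Real.sqrt 2 * Real.sqrt 2 = 2 := Real.mul_self_sqrt (by norm_num)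
  obtain ⟨l, hl⟩ : ∃ l : Module.Dual ℚ ℝ, l t ≠ 0 := by
    by_contra h
    push Not at h
    exact ht ((Module.forall_dual_apply_eq_zero_iff ℚ t).1 h)
  let L : ℝ →ₗ[ℚ] ℝ :=
    { toFun := fun x => Real.sqrt 2 * (l x : ℚ) - (l (Real.sqrt 2 * x) : ℚ)
      map_add' := by
        intro x y
        rw [mul_add, map_add, map_add]
        push_cast
        ring
      map_smul' := by
        intro q x
        have : Real.sqrt 2 * (q • x) = q • (Real.sqrt 2 * x) := by
          rw [Rat.smul_def, Rat.smul_def]; ring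
        rw [this, map_smul, map_smul, smul_eq_mul, smul_eq_mul, RingHom.id_apply,
          Rat.smul_def]
        push_cast
        ring }
  refine ⟨L, fun x => ?_, fun h0 => ?_⟩
  · change Real.sqrt 2 * (l (Real.sqrt 2 * x) : ℚ) -
      (l (Real.sqrt 2 * (Real.sqrt 2 * x)) : ℚ) =
      -(Real.sqrt 2 * (Real.sqrt 2 * (l x : ℚ) - (l (Real.sqrt 2 * x) : ℚ)))
    have : Real.sqrt 2 * (Real.sqrt 2 * x) = (2 : ℚ) • x := by
      rw [← mul_assoc, h2, Rat.smul_def]; norm_num
    rw [this, map_smul, smul_eq_mul]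
    push_cast
    linear_combination (l x : ℝ) * h2
  · change Real.sqrt 2 * (l t : ℚ) - (l (Real.sqrt 2 * t) : ℚ) = 0 at h0
    have hlt : ((l t : ℚ) : ℝ) ≠ 0 := by exact_mod_cast hl
    apply irrational_sqrt_two
    refine ⟨l (Real.sqrt 2 * t) / l t, ?_⟩
    push_cast
    rw [div_eq_iff hlt]
    linarith

theorem not_subtransitive_kite (c s : ℝ) (hcs : c ^ 2 + s ^ 2 = 1)
    (hc : c = 2 * Real.sqrt 2 - 3) :
    ¬ IsSubtransitive (Set.range fun i => toPlane (kiteC c s i)) := by
  classical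
  rintro ⟨n, X, f, hX, hT, hfX, hf⟩
  have h2 : Real.sqrt 2 * Real.sqrt 2 = 2 := Real.mul_self_sqrt (by norm_num)
  have h2pos : 0 < Real.sqrt 2 := Real.sqrt_pos.2 (by norm_num)
  let p : Fin 4 → EuclideanSpace ℝ (Fin n) := fun i => f (toPlane (kiteC c s i))
  have hpX : ∀ i, p i ∈ X := fun i => hfX _ ⟨i, rfl⟩
  have hd : ∀ i l, ‖p i - p l‖ ^ 2 = ‖kiteC c s i - kiteC c s l‖ ^ 2 := by
    intro i l
    rw [← dist_eq_norm, hf _ ⟨i, rfl⟩ _ ⟨l, rfl⟩, dist_toPlane_sq]
  have hn : ∀ z : ℂ, ‖z‖ ^ 2 = z.re ^ 2 + z.im ^ 2 := by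
    intro z
    rw [← Complex.normSq_eq_norm_sq, Complex.normSq_apply]; ring
  have d01 : ‖p 0 - p 1‖ ^ 2 = 4 := by
    rw [hd, hn]; simp [kiteC]; norm_num
  have d02 : ‖p 0 - p 2‖ ^ 2 = 2 - 2 * c := by
    rw [hd, hn]; simp only [kiteC, Fin.isValue, Matrix.cons_val_zero, Matrix.cons_val, Complex.sub_re, Complex.one_re, Complex.sub_im, Complex.one_im, zero_sub, even_two, Even.neg_pow]; linarith only [hcs]
  have d03 : ‖p 0 - p 3‖ ^ 2 = 2 - 2 * c := by
    rw [hd, hn]; simp [kiteC]; linarith only [hcs]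
  have d12 : ‖p 2 - p 1‖ ^ 2 = 2 + 2 * c := by
    rw [hd, hn]; simp only [kiteC, Fin.isValue, Matrix.cons_val, Matrix.cons_val_one, Matrix.cons_val_zero, sub_neg_eq_add, Complex.add_re, Complex.one_re, Complex.add_im, Complex.one_im, add_zero]; linarith only [hcs]
  have d13 : ‖p 3 - p 1‖ ^ 2 = 2 + 2 * c := by
    rw [hd, hn]; simp only [kiteC, Fin.isValue, Matrix.cons_val, Matrix.cons_val_one, Matrix.cons_val_zero, sub_neg_eq_add, Complex.add_re, Complex.one_re, Complex.add_im, Complex.one_im, add_zero, even_two, Even.neg_pow]; linarith only [hcs]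
  have d23 : ‖p 2 - p 3‖ ^ 2 = 4 * s ^ 2 := by
    rw [hd, hn]; simp [kiteC]; ring
  have hrel : (1 + c) • (p 0 - p 1) = (p 2 - p 1) + (p 3 - p 1) := by
    have e1 := norm_sub_sq_real (p 0 - p 1) (p 2 - p 1)
    have e2 := norm_sub_sq_real (p 0 - p 1) (p 3 - p 1)
    have e3 := norm_sub_sq_real (p 2 - p 1) (p 3 - p 1)
    rw [sub_sub_sub_cancel_right] at e1 e2 e3
    rw [← sub_eq_zero, ← norm_eq_zero, ← sq_eq_zero_iff, norm_sub_sq_real, norm_smul, mul_pow,
      Real.norm_eq_abs, sq_abs, norm_add_sq_real, inner_add_right, real_inner_smul_left,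
      real_inner_smul_left, d01, d12, d13]
    rw [d01, d12, d02] at e1
    rw [d01, d13, d03] at e2
    rw [d12, d13, d23] at e3
    have e1' : inner ℝ (p 0 - p 1) (p 2 - p 1) = 2 + 2 * c := by linarith only [e1]
    have e2' : inner ℝ (p 0 - p 1) (p 3 - p 1) = 2 + 2 * c := by linarith only [e2]
    have e3' : inner ℝ (p 2 - p 1) (p 3 - p 1) = 2 + 2 * c - 2 * s ^ 2 := by linarith only [e3]
    rw [e1', e2', e3']
    have hs2 : s ^ 2 = 1 - c ^ 2 := by linarith only [hcs]
    rw [hs2]
    ring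
  set C : ℝ := (1 + c) * ‖p 0‖ ^ 2 + (1 - c) * ‖p 1‖ ^ 2 - ‖p 2‖ ^ 2 - ‖p 3‖ ^ 2 with hC
  have hV : ∀ y, (1 + c) * dist (p 0) y ^ 2 + (1 - c) * dist (p 1) y ^ 2 - dist (p 2) y ^ 2 -
      dist (p 3) y ^ 2 = C := by
    intro y
    have e := congrArg (fun v => inner ℝ v y) hrel
    simp only [inner_add_left, real_inner_smul_left, inner_sub_left] at e
    simp only [dist_eq_norm, norm_sub_sq_real, hC]
    linear_combination -2 * e
  have hsum : ∀ (F : ℝ → ℝ) (i : Fin 4), ∑ y ∈ hX.toFinset, F (dist (p i) y) =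
      ∑ y ∈ hX.toFinset, F (dist (p 0) y) := fun F i => hT.sum_eq hX F (hpX 0) (hpX i)
  have hC0 : C = 0 := by
    have e : ∑ y ∈ hX.toFinset, ((1 + c) * dist (p 0) y ^ 2 + (1 - c) * dist (p 1) y ^ 2 -
        dist (p 2) y ^ 2 - dist (p 3) y ^ 2) = ∑ y ∈ hX.toFinset, C :=
      Finset.sum_congr rfl fun y _ => hV y
    rw [Finset.sum_sub_distrib, Finset.sum_sub_distrib, Finset.sum_add_distrib,
      ← Finset.mul_sum, ← Finset.mul_sum, hsum (fun t => t ^ 2) 1, hsum (fun t => t ^ 2) 2,
      hsum (fun t => t ^ 2) 3, Finset.sum_const, nsmul_eq_mul] at e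
    have hcard : (hX.toFinset.card : ℝ) ≠ 0 := by
      have : 0 < hX.toFinset.card := Finset.card_pos.2 ⟨p 0, by simpa using hpX 0⟩
      exact_mod_cast this.ne'
    have : (hX.toFinset.card : ℝ) * C = 0 := by linarith only [e]
    exact (mul_eq_zero.1 this).resolve_left hcard
  have ht : (2 - 2 * c : ℝ) ≠ 0 := by
    rw [hc]
    intro h
    nlinarith only [h2, h]
  obtain ⟨L, hL, hLt⟩ := exists_conj (2 - 2 * c) ht
  let W : Fin 4 → EuclideanSpace ℝ (Fin n) → ℝ := fun i y => L (dist (p i) y ^ 2)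
  have hLq : ∀ (q : ℚ) (x : ℝ), L ((q : ℝ) * x) = q * L x := by
    intro q x
    rw [← Rat.smul_def, map_smul, Rat.smul_def]
  have hW : ∀ y, (4 + 2 * Real.sqrt 2) * W 1 y =
      (2 + 2 * Real.sqrt 2) * W 0 y + W 2 y + W 3 y := by
    intro y
    have e := hV y
    rw [hC0, hc] at e
    have e' : ((2 : ℚ) : ℝ) * (Real.sqrt 2 * dist (p 0) y ^ 2) +
        ((-2 : ℚ) : ℝ) * (dist (p 0) y ^ 2) +
        ((4 : ℚ) : ℝ) * (dist (p 1) y ^ 2) +
        ((-2 : ℚ) : ℝ) * (Real.sqrt 2 * dist (p 1) y ^ 2) +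
        (((-1 : ℚ) : ℝ) * dist (p 2) y ^ 2 + ((-1 : ℚ) : ℝ) * dist (p 3) y ^ 2) = 0 := by
      push_cast
      linarith only [e]
    have e2 := congrArg L e'
    simp only [map_add, hLq, hL, map_zero] at e2
    simp only [W]
    push_cast at e2
    linarith only [e2]
  have hN : ∀ i, ∑ y ∈ hX.toFinset, W i y ^ 2 = ∑ y ∈ hX.toFinset, W 0 y ^ 2 :=
    fun i => hsum (fun t => L (t ^ 2) ^ 2) i
  have hzero : ∑ y ∈ hX.toFinset, ((2 + 2 * Real.sqrt 2) * (W 0 y - W 2 y) ^ 2 +
      (2 + 2 * Real.sqrt 2) * (W 0 y - W 3 y) ^ 2 + (W 2 y - W 3 y) ^ 2) = 0 := by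
    have e : ∀ y ∈ hX.toFinset, ((2 + 2 * Real.sqrt 2) * (W 0 y - W 2 y) ^ 2 +
      (2 + 2 * Real.sqrt 2) * (W 0 y - W 3 y) ^ 2 + (W 2 y - W 3 y) ^ 2) =
      (4 + 2 * Real.sqrt 2) * (2 + 2 * Real.sqrt 2) * W 0 y ^ 2 +
      (4 + 2 * Real.sqrt 2) * W 2 y ^ 2 + (4 + 2 * Real.sqrt 2) * W 3 y ^ 2 -
      (4 + 2 * Real.sqrt 2) ^ 2 * W 1 y ^ 2 := by
      intro y _
      have := hW y
      have e3 : (4 + 2 * Real.sqrt 2) ^ 2 * W 1 y ^ 2 =
        ((2 + 2 * Real.sqrt 2) * W 0 y + W 2 y + W 3 y) ^ 2 := by rw [← this]; ring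
      rw [e3]
      ring
    rw [Finset.sum_congr rfl e, Finset.sum_sub_distrib, Finset.sum_add_distrib,
      Finset.sum_add_distrib, ← Finset.mul_sum, ← Finset.mul_sum, ← Finset.mul_sum,
      ← Finset.mul_sum, hN 1, hN 2, hN 3]
    ring
  have hnonneg : ∀ y ∈ hX.toFinset, 0 ≤ ((2 + 2 * Real.sqrt 2) * (W 0 y - W 2 y) ^ 2 +
      (2 + 2 * Real.sqrt 2) * (W 0 y - W 3 y) ^ 2 + (W 2 y - W 3 y) ^ 2) := fun y _ => by
    (clear * -; positivity)
  have hfin := (Finset.sum_eq_zero_iff_of_nonneg hnonneg).1 hzero (p 0) (by simpa using hpX 0)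
  have hW02 : W 0 (p 0) = W 2 (p 0) := by
    have e1 : (W 0 (p 0) - W 2 (p 0)) ^ 2 = 0 := by
      nlinarith only [hfin, h2pos]
    exact sub_eq_zero.1 (pow_eq_zero_iff (two_ne_zero) |>.1 e1)
  apply hLt
  have e0 : W 0 (p 0) = 0 := by simp [W]
  have e2 : W 2 (p 0) = L (2 - 2 * c) := by
    simp only [W]
    rw [dist_comm, dist_eq_norm, d02]
  rw [← e2, ← hW02, e0]

/-- There is a finite Ramsey set that is not subtransitive. -/
theorem exists_ramsey_not_subtransitive :
    ∃ A : Set (EuclideanSpace ℝ (Fin 2)), A.Finite ∧ A.Nonempty ∧ IsRamsey A ∧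
      ¬ IsSubtransitive A := by
  set c : ℝ := 2 * Real.sqrt 2 - 3 with hc
  have h2 : Real.sqrt 2 * Real.sqrt 2 = 2 := Real.mul_self_sqrt (by norm_num)
  have h2pos : 0 < Real.sqrt 2 := Real.sqrt_pos.2 (by norm_num)
  have hpos : 0 < 1 - c ^ 2 := by
    rw [hc]
    nlinarith
  have hcs : c ^ 2 + (Real.sqrt (1 - c ^ 2)) ^ 2 = 1 := by
    rw [Real.sq_sqrt hpos.le]; ring
  exact ⟨Set.range fun i => toPlane (kiteC c (Real.sqrt (1 - c ^ 2)) i), Set.finite_range _,
    Set.range_nonempty _, isRamsey_kite c _ hcs (Real.sqrt_ne_zero'.2 hpos),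
    not_subtransitive_kite c _ hcs hc⟩

end Vale.Agent.P058
end
end

section

section

/-!
If a finite set has no signed balanced profile, a rational-linear functional certifies it, and
the certificate may be taken to be quadratic.
-/

namespace Vale.Agent.P058

open Finset

/-- The certificate: functions on the values of rows, and a functional on the costs. -/
theorem exists_cert {n : ℕ} {A : Set (E n)} [Fintype A] (h : ¬ HasSignedProfile A) :
    ∃ (F : A → ℝ → ℝ) (L : (A × A → ℝ) →ₗ[ℚ] ℚ),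
      L (fun p => dist (p.1 : E n) p.2 ^ 2) ≠ 0 ∧
      ∀ y : E n × ℝ, ∑ v : A, F v (rowv y v) +
        (L (fun p : A × A => (rowv y p.1 - rowv y p.2) ^ 2) : ℝ) = 0 := by
  classical
  have h' : ((0 : A → (ℝ →₀ ℚ)), fun p : A × A => dist (p.1 : E n) p.2 ^ 2) ∉
      LinearMap.range (diagMap A) ⊔ Submodule.span ℚ (Set.range (rowVec A)) :=
    fun h1 => h (signed_of_mem A h1)
  obtain ⟨Φ, hΦ1, hΦ2⟩ := Submodule.exists_dual_map_eq_bot_of_notMem h' inferInstance
  have hΦ0 : ∀ z ∈ LinearMap.range (diagMap A) ⊔ Submodule.span ℚ (Set.range (rowVec A)),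
      Φ z = 0 := by
    intro z hz
    have h1 : Φ z ∈ Submodule.map Φ
      (LinearMap.range (diagMap A) ⊔ Submodule.span ℚ (Set.range (rowVec A))) := ⟨z, hz, rfl⟩
    rw [hΦ2, Submodule.mem_bot] at h1
    exact h1
  refine ⟨fun v t => (Φ (Pi.single v (Finsupp.single t 1), 0) : ℚ),
    Φ.comp (LinearMap.inr ℚ _ _), hΦ1, fun y => ?_⟩
  have h2 : ∑ v : A, Φ (Pi.single v (Finsupp.single (rowv y v) 1), 0) +
      Φ (0, fun p : A × A => (rowv y p.1 - rowv y p.2) ^ 2) = 0 := by
    have h1 := hΦ0 (rowVec A y) (Submodule.mem_sup_right (Submodule.subset_span ⟨y, rfl⟩))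
    rw [← h1, ← map_sum, ← map_add]
    congr 1
    refine Prod.ext ?_ ?_
    · rw [Prod.fst_add, Prod.fst_sum]
      simp only [add_zero]
      exact Finset.univ_sum_single (fun v : A => (Finsupp.single (rowv y v) 1 : ℝ →₀ ℚ))
    · rw [Prod.snd_add, Prod.snd_sum]; simp only [sum_const_zero, zero_add, rowVec]
  have h3 := congrArg (fun q : ℚ => (q : ℝ)) h2
  simpa only [LinearMap.coe_comp, LinearMap.coe_inr, Function.comp_apply, Rat.cast_add, Rat.cast_sum,     Rat.cast_zero] using h3

/-- all `k`-fold differences vanish -/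
def VD {V : Type*} [Add V] : ℕ → (V → ℝ) → Prop
  | 0, φ => ∀ t, φ t = 0
  | k + 1, φ => ∀ b, VD k (fun t => φ (t + b) - φ t)

lemma VD.neg {V : Type*} [Add V] : ∀ (k : ℕ) (φ : V → ℝ), VD k φ → VD k (fun t => -φ t)
  | 0, φ, h => fun t => by
      show -φ t = 0
      rw [h t, neg_zero]
  | k + 1, φ, h => fun b => by
      have := VD.neg k _ (h b)
      refine cast (congrArg (VD k) ?_) this
      funext t
      ring

lemma VD.diff {V : Type*} [AddCommSemigroup V] (u : V) :
    ∀ (k : ℕ) (φ : V → ℝ), VD k φ → VD k (fun t => φ (t + u) - φ t)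
  | 0, φ, h => fun t => by
      show φ (t + u) - φ t = 0
      rw [h t, h (t + u), sub_zero]
  | k + 1, φ, h => fun b => by
      have := VD.diff u k _ (h b)
      refine cast (congrArg (VD k) ?_) this
      funext t
      rw [add_right_comm t u b]
      ring

lemma VD.of_comp {V : Type*} [AddZeroClass V] (e : V →+ ℝ) (he : Function.Surjective e) :
    ∀ (k : ℕ) (φ : ℝ → ℝ), VD k (fun y => φ (e y)) → VD k φ
  | 0, φ, h => fun t => by
      obtain ⟨y, rfl⟩ := he t
      exact h y
  | k + 1, φ, h => fun b => by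
      obtain ⟨u, rfl⟩ := he b
      refine VD.of_comp e he k _ ?_
      refine cast (congrArg (VD k) ?_) (h u)
      funext y
      show φ (e (y + u)) - φ (e y) = _
      rw [map_add]

/-- In a separated relation all functions are polynomial. -/
theorem VD.of_relation {V ι : Type*} [AddCommMonoid V] [DecidableEq ι] (ev : ι → V →+ ℝ)
    (v₀ : ι) (hsur : Function.Surjective (ev v₀))
    (hsep : ∀ w, w ≠ v₀ → ∀ b : ℝ, ∃ u : V, ev w u = 0 ∧ ev v₀ u = b) (s : Finset ι) :
    v₀ ∉ s → ∀ (k : ℕ) (F : ι → ℝ → ℝ) (P : V → ℝ), VD k P →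
      (∀ y, F v₀ (ev v₀ y) + ∑ v ∈ s, F v (ev v y) + P y = 0) → VD (k + s.card) (F v₀) := by
  induction s using Finset.induction_on with
  | empty =>
    intro _ k F P hP h
    refine VD.of_comp (ev v₀) hsur _ _ ?_
    refine cast (congrArg (VD k) ?_) (VD.neg k P hP)
    funext y
    have := h y
    rw [Finset.sum_empty] at this
    linarith only [this]
  | insert w s hw ih =>
    intro hv₀ k F P hP h
    rw [Finset.mem_insert, not_or] at hv₀
    rw [Finset.card_insert_of_notMem hw, ← add_assoc]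
    intro b
    obtain ⟨u, hu1, hu2⟩ := hsep w (Ne.symm hv₀.1) b
    have key := ih hv₀.2 k (fun v t => F v (t + ev v u) - F v t)
      (fun y => P (y + u) - P y) (VD.diff u k P hP) (fun y => by
        have h1 := h (y + u)
        have h2 := h y
        rw [Finset.sum_insert hw] at h1 h2
        simp only [map_add, hu1, add_zero] at h1
        rw [Finset.sum_sub_distrib]
        linarith only [h2, h1])
    rw [hu2] at key
    exact key

end Vale.Agent.P058
end
end

section

section

/-!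
The quadratic part of a generalised polynomial `ℝ → ℝ`.
-/

namespace Vale.Agent.P058

open Finset Gen

lemma Dl_diff {E : Type*} [AddCommGroup E] (f : E → ℝ) (b : E) (l : List E) :
    ∀ e, Dl (fun t => f (t + b) - f t) l e = Dl f (b :: l) e := by
  induction l with
  | nil => intro e; rfl
  | cons η l ih =>
    intro e
    rw [Dl_cons, ih, ih, ← Dl_perm f (List.Perm.swap b η l) e, Dl_cons f η]

lemma VD.toDV {E : Type*} [AddCommGroup E] : ∀ (k : ℕ) (f : E → ℝ), VD k f → DV f k
  | 0, f, h => by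
      intro l hl e
      rw [List.length_eq_zero_iff.1 hl]
      exact h e
  | k + 1, f, h => by
      intro l hl e
      match l, hl with
      | η :: l, hl =>
        rw [← Dl_diff]
        exact VD.toDV k _ (h η) l (by simpa using hl) e

lemma Dl_replicate (f : ℝ → ℝ) (t : ℝ) (k : ℕ) :
    ∀ e, (fwdDiff t)^[k] f e = Dl f (List.replicate k t) e := by
  induction k with
  | zero => intro e; rfl
  | succ k ih =>
    intro e
    rw [Function.iterate_succ_apply', List.replicate_succ, Dl_cons, ← ih, ← ih]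
    rfl

lemma Dl_smul {E : Type*} [AddCommGroup E] (f : E → ℝ) (m : ℕ) (l : List E) :
    ∀ e, Dl (fun t => f (m • t)) l e = Dl f (l.map (fun η => m • η)) (m • e) := by
  induction l with
  | nil => intro e; rfl
  | cons η l ih => intro e; rw [List.map_cons, Dl_cons, Dl_cons, ih, ih, smul_add]

lemma Dl_sum {E κ : Type*} [AddCommGroup E] (s : Finset κ) (c : κ → ℝ) (f : κ → E → ℝ)
    (l : List E) : ∀ e, Dl (fun t => ∑ j ∈ s, c j * f j t) l e = ∑ j ∈ s, c j * Dl (f j) l e := by
  induction l with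
  | nil => intro e; rfl
  | cons η l ih =>
    intro e
    rw [Dl_cons, ih, ih, ← Finset.sum_sub_distrib]
    refine Finset.sum_congr rfl fun j _ => ?_
    rw [Dl_cons]
    ring

lemma DV_sum {E κ : Type*} [AddCommGroup E] (s : Finset κ) (c : κ → ℝ) (f : κ → E → ℝ) (K : ℕ)
    (h : ∀ j ∈ s, DV (f j) K) : DV (fun t => ∑ j ∈ s, c j * f j t) K := by
  intro l hl e
  rw [Dl_sum]
  exact Finset.sum_eq_zero fun j hj => by rw [h j hj l hl e, mul_zero]

lemma DV_comp_nsmul {E : Type*} [AddCommGroup E] {f : E → ℝ} {K : ℕ} (h : DV f K) (m : ℕ) :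
    DV (fun t => f (m • t)) K := by
  intro l hl e
  rw [Dl_smul]
  exact h _ (by simp [hl]) _

/-- a quadratically homogeneous generalised polynomial is quadratic -/
lemma DV_three_of_homog {E : Type*} [AddCommGroup E] (ψ : E → ℝ)
    (h2 : ∀ t, ψ (2 • t) = 4 * ψ t) (M : ℕ) (h : DV ψ M) : DV ψ 3 := by
  have hdown : ∀ N, 3 ≤ N → DV ψ (N + 1) → DV ψ N := by
    intro N hN h l hl e
    rw [DV_const ψ h l hl e 0]
    have e1 := DV_scale ψ h 2 l [] (by simpa using hl)
    rw [List.append_nil, List.append_nil] at e1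
    have e2 := Dl_smul ψ 2 l 0
    rw [smul_zero, e1] at e2
    have e3 : Dl (fun t => ψ (2 • t)) l 0 = 4 * Dl ψ l 0 := by
      have e4 := Dl_sum (Finset.univ : Finset Unit) (fun _ => 4) (fun _ => ψ) l 0
      simp only [Finset.univ_unique, Finset.sum_singleton] at e4
      rw [← e4]
      congr 1
      funext t
      exact h2 t
    rw [e3, hl] at e2
    have h8 : (8 : ℝ) ≤ (2 : ℝ) ^ N := by
      calc (8 : ℝ) = 2 ^ 3 := by norm_num
        _ ≤ 2 ^ N := pow_le_pow_right₀ (by norm_num) hN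
    push_cast at e2
    have h9 : ((2 : ℝ) ^ N - 4) * Dl ψ l 0 = 0 := by linarith only [e2]
    rcases mul_eq_zero.1 h9 with h10 | h10
    · linarith only [h8, h10]
    · exact h10
  have h1 : ∀ j, DV ψ (3 + j) → DV ψ 3 := by
    intro j
    induction j with
    | zero => exact id
    | succ j ih => exact fun h => ih (hdown (3 + j) (by omega) h)
  exact h1 M (DV_mono ψ h (by omega))

/-- The quadratic part of a generalised polynomial. -/
theorem quadPartVD {k : ℕ} {φ : ℝ → ℝ} (h : VD k φ) :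
    ∃ B : ℝ →ₗ[ℚ] ℝ →ₗ[ℚ] ℝ, (∀ s t, B s t = B t s) ∧ ∀ t : ℝ, ∃ P : Polynomial ℝ,
      (∀ n : ℕ, P.eval (n : ℝ) = φ (n * t)) ∧ P.coeff 2 = B t t := by
  have hφ : DV φ k := VD.toDV k φ h
  let P : ℝ → Polynomial ℝ := fun t => ∑ j ∈ range k,
    Polynomial.C (Dl φ (List.replicate j t) 0 / (j.factorial : ℝ)) * descPochhammer ℝ j
  have hP : ∀ (t : ℝ) (n : ℕ), (P t).eval (n : ℝ) = φ (n * t) := by
    intro t n
    have h1 := shift_eq_sum_fwdDiff_iter t φ n 0
    rw [zero_add, nsmul_eq_mul] at h1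
    rw [h1, Polynomial.eval_finsetSum]
    have h2 : ∀ j, (Polynomial.C (Dl φ (List.replicate j t) 0 / (j.factorial : ℝ)) *
        descPochhammer ℝ j).eval (n : ℝ) = n.choose j • (fwdDiff t)^[j] φ 0 := by
      intro j
      rw [Polynomial.eval_mul, Polynomial.eval_C, descPochhammer_eval_eq_descFactorial,
        Nat.descFactorial_eq_factorial_mul_choose, Dl_replicate, nsmul_eq_mul]
      have : (j.factorial : ℝ) ≠ 0 := by positivity
      push_cast
      field_simp
    rw [Finset.sum_congr rfl fun j _ => h2 j]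
    have h3 : ∀ j, k ≤ j → n.choose j • (fwdDiff t)^[j] φ 0 = 0 := by
      intro j hj
      rw [Dl_replicate, DV_mono φ hφ hj _ (List.length_replicate) 0, smul_zero]
    have h4 : ∀ j, n < j → n.choose j • (fwdDiff t)^[j] φ 0 = 0 := by
      intro j hj
      rw [Nat.choose_eq_zero_of_lt hj, zero_smul]
    rcases le_total k (n + 1) with hk | hk
    · refine Finset.sum_subset (Finset.range_subset_range.2 hk) fun j _ hj => h3 j ?_
      simpa using hj
    · refine (Finset.sum_subset (Finset.range_subset_range.2 hk) fun j _ hj => h4 j ?_).symm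
      simpa using hj
  let ψ : ℝ → ℝ := fun t => (P t).coeff 2
  have hψ : ψ = fun t => ∑ j ∈ range k, ((descPochhammer ℝ j).coeff 2 / (j.factorial : ℝ)) *
      Dl φ (List.replicate j t) 0 := by
    funext t
    simp only [ψ, P, Polynomial.finsetSum_coeff, Polynomial.coeff_C_mul]
    refine Finset.sum_congr rfl fun j _ => ?_
    ring
  have hψV : DV ψ k := by
    rw [hψ]
    refine DV_sum _ _ _ _ fun j _ => ?_
    have e1 : (fun t => Dl φ (List.replicate j t) 0) = fun t => ∑ i ∈ range (j + 1),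
        ((((-1) ^ (j - i) * (j.choose i : ℤ) : ℤ)) : ℝ) * φ (i • t) := by
      funext t
      rw [← Dl_replicate, fwdDiff_iter_eq_sum_shift]
      refine Finset.sum_congr rfl fun i _ => ?_
      rw [zero_add, zsmul_eq_mul]
    rw [e1]
    exact DV_sum _ _ (fun i t => φ (i • t)) _ fun i _ => DV_comp_nsmul hφ i
  have hψ2 : ∀ t, ψ (2 • t) = 4 * ψ t := by
    intro t
    have e1 : P (2 • t) = (P t).comp (Polynomial.C 2 * Polynomial.X) := by
      refine Polynomial.eq_of_infinite_eval_eq _ _ ?_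
      refine Set.Infinite.mono (s := Set.range (fun n : ℕ => (n : ℝ))) ?_
        (Set.infinite_range_of_injective Nat.cast_injective)
      rintro _ ⟨n, rfl⟩
      show (P (2 • t)).eval (n : ℝ) = ((P t).comp (Polynomial.C 2 * Polynomial.X)).eval (n : ℝ)
      rw [hP, Polynomial.eval_comp, Polynomial.eval_mul, Polynomial.eval_C, Polynomial.eval_X]
      have e2 := hP t (2 * n)
      push_cast at e2
      rw [e2]
      congr 1
      rw [nsmul_eq_mul]
      push_cast
      ring
    show (P (2 • t)).coeff 2 = 4 * (P t).coeff 2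
    rw [e1, Polynomial.comp_C_mul_X_coeff]
    ring
  have h3 : DV ψ 3 := DV_three_of_homog ψ hψ2 k hψV
  have hψ0 : ψ 0 = 0 := by
    have := hψ2 0
    rw [smul_zero] at this
    linarith only [this]
  let β : ℝ → ℝ → ℝ := fun x y => Dl ψ [x, y] 0 / 2
  have hβs : ∀ x y, β x y = β y x := by
    intro x y
    simp only [β]
    rw [Dl_perm ψ (List.Perm.swap y x []) 0]
  have hβa : ∀ x x' y, β (x + x') y = β x y + β x' y := by
    intro x x' y
    simp only [β]
    rw [DV_add ψ h3 [y] (by simp) x x']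
    ring
  have hβa' : ∀ x y y', β x (y + y') = β x y + β x y' := by
    intro x y y'
    rw [hβs x, hβa, hβs y, hβs y']
  refine ⟨LinearMap.mk₂ ℚ β hβa ?_ hβa' ?_, ?_, fun t => ⟨P t, hP t, ?_⟩⟩
  · intro c x y
    exact map_rat_smul (AddMonoidHom.mk' (fun x => β x y) fun a b => hβa a b y) c x
  · intro c x y
    exact map_rat_smul (AddMonoidHom.mk' (fun y => β x y) fun a b => hβa' x a b) c y
  · intro s t
    exact hβs s t
  · show ψ t = β t t
    simp only [β, Dl_cons, Dl_nil, zero_add, hψ0]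
    have := hψ2 t
    rw [two_nsmul] at this
    rw [this]
    ring

end Vale.Agent.P058
end
end

section

section

/-!
Finite spherical sets with algebraic coordinates have a signed balanced profile.
-/

namespace Vale.Agent.P058

open Finset

lemma rowv_add {n : ℕ} (y y' : E n × ℝ) (v : E n) : rowv (y + y') v = rowv y v + rowv y' v := by
  simp only [rowv, Prod.fst_add, Prod.snd_add, inner_add_left]
  ring

lemma rowv_smul {n : ℕ} (c : ℝ) (y : E n × ℝ) (v : E n) : rowv (c • y) v = c * rowv y v := by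
  simp only [rowv, Prod.smul_fst, Prod.smul_snd, real_inner_smul_left, smul_eq_mul]
  ring

lemma rowv_single {n : ℕ} (i : Fin n) (v : E n) :
    rowv (EuclideanSpace.single i (1 : ℝ), (0 : ℝ)) v = v i := by
  rw [rowv, EuclideanSpace.inner_single_left]
  simp

/-- The certificate may be taken quadratic. -/
theorem exists_quad_cert {n : ℕ} {A : Set (E n)} [Fintype A] (h : ¬ HasSignedProfile A) :
    ∃ (B : A → (ℝ →ₗ[ℚ] ℝ →ₗ[ℚ] ℝ)) (L : (A × A → ℝ) →ₗ[ℚ] ℚ),
      L (fun p => dist (p.1 : E n) p.2 ^ 2) ≠ 0 ∧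
      ∀ y y' : E n × ℝ, ∑ v : A, B v (rowv y v) (rowv y' v) +
        (L (fun p : A × A => (rowv y p.1 - rowv y p.2) * (rowv y' p.1 - rowv y' p.2)) : ℝ)
          = 0 := by
  classical
  obtain ⟨F, L, hL, hF⟩ := exists_cert h
  -- the functionals
  let ev : A → (E n × ℝ) →+ ℝ := fun v =>
    { toFun := fun y => rowv y v
      map_zero' := by simp only [rowv, Prod.fst_zero, inner_zero_left, Prod.snd_zero, add_zero]
      map_add' := fun y y' => rowv_add y y' v }
  have hVD : ∀ v : A, VD (3 + (Finset.univ.erase v).card) (F v) := by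
    intro v
    refine VD.of_relation ev v (fun t => ⟨(0, t), by simp only [rowv, AddMonoidHom.coe_mk, ZeroHom.coe_mk, inner_zero_left, zero_add, ev]⟩) ?_
      (Finset.univ.erase v) (Finset.notMem_erase v _) 3 F
      (fun y => (L (fun p : A × A => (rowv y p.1 - rowv y p.2) ^ 2) : ℝ)) ?_ ?_
    · intro w hw b
      have hne : (v : E n) - w ≠ 0 := by
        rw [sub_ne_zero]
        exact fun h1 => hw (Subtype.ext h1.symm)
      have hn : inner ℝ ((v : E n) - w) ((v : E n) - w) ≠ (0 : ℝ) := by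
        rwa [inner_self_ne_zero]
      refine ⟨((b / inner ℝ ((v : E n) - w) ((v : E n) - w)) • ((v : E n) - w),
        -(b / inner ℝ ((v : E n) - w) ((v : E n) - w)) * inner ℝ ((v : E n) - w) (w : E n)),
        ?_, ?_⟩
      · simp only [ev, AddMonoidHom.coe_mk, ZeroHom.coe_mk, rowv, real_inner_smul_left]
        ring
      · simp only [ev, AddMonoidHom.coe_mk, ZeroHom.coe_mk, rowv, real_inner_smul_left]
        have e1 : inner ℝ ((v : E n) - w) (v : E n) - inner ℝ ((v : E n) - w) (w : E n) =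
            (inner ℝ ((v : E n) - w) ((v : E n) - w) : ℝ) := by
          rw [← inner_sub_right]
        rw [show b / inner ℝ ((v : E n) - w) ((v : E n) - w) * inner ℝ ((v : E n) - w) (v : E n) +
            -(b / inner ℝ ((v : E n) - w) ((v : E n) - w)) * inner ℝ ((v : E n) - w) (w : E n) =
            b / inner ℝ ((v : E n) - w) ((v : E n) - w) *
            (inner ℝ ((v : E n) - w) (v : E n) - inner ℝ ((v : E n) - w) (w : E n)) by ring, e1]
        (clear * - hn; field_simp)
    · intro b₁ b₂ b₃ y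
      simp only [rowv_add]
      rw [← Rat.cast_zero, ← map_zero L]
      simp only [← Rat.cast_sub, ← map_sub]
      congr 2
      funext p
      simp only [Pi.sub_apply, Pi.zero_apply]
      ring
    · intro y
      have h1 := hF y
      rw [← Finset.add_sum_erase _ _ (Finset.mem_univ v)] at h1
      exact h1
  choose B hBs hB using fun v => quadPartVD (hVD v)
  -- the diagonal identity
  have hdiag : ∀ y : E n × ℝ, ∑ v : A, B v (rowv y v) (rowv y v) +
      (L (fun p : A × A => (rowv y p.1 - rowv y p.2) ^ 2) : ℝ) = 0 := by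
    intro y
    choose P hP1 hP2 using fun v => hB v (rowv y v)
    set ℓ : ℝ := (L (fun p : A × A => (rowv y p.1 - rowv y p.2) ^ 2) : ℝ) with hℓ
    have hR : ∑ v : A, P v + Polynomial.C ℓ * Polynomial.X ^ 2 = 0 := by
      refine Polynomial.eq_zero_of_infinite_isRoot _ ?_
      refine Set.Infinite.mono (s := Set.range (fun n : ℕ => (n : ℝ))) ?_
        (Set.infinite_range_of_injective Nat.cast_injective)
      rintro _ ⟨k, rfl⟩
      show Polynomial.eval (k : ℝ) (∑ v : A, P v + Polynomial.C ℓ * Polynomial.X ^ 2) = 0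
      rw [Polynomial.eval_add, Polynomial.eval_finsetSum, Polynomial.eval_mul,
        Polynomial.eval_C, Polynomial.eval_pow, Polynomial.eval_X]
      have h1 := hF ((k : ℝ) • y)
      simp only [rowv_smul] at h1
      rw [← h1]
      congr 1
      · exact Finset.sum_congr rfl fun v _ => hP1 v k
      · have e1 : (fun p : A × A => ((k : ℝ) * rowv y p.1 - (k : ℝ) * rowv y p.2) ^ 2) =
            ((k : ℚ) ^ 2) • fun p : A × A => (rowv y p.1 - rowv y p.2) ^ 2 := by
          funext p
          rw [Pi.smul_apply, Rat.smul_def]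
          push_cast
          ring
        rw [e1, map_smul, hℓ]
        push_cast [smul_eq_mul]
        ring
    have h2 := congrArg (fun p => Polynomial.coeff p 2) hR
    simp only [Polynomial.coeff_add, Polynomial.finsetSum_coeff, Polynomial.coeff_C_mul,
      Polynomial.coeff_X_pow, Polynomial.coeff_zero, if_true, mul_one] at h2
    rw [← h2]
    congr 1
    exact Finset.sum_congr rfl fun v _ => (hP2 v).symm
  refine ⟨B, L, hL, fun y y' => ?_⟩
  have h1 := hdiag (y + y')
  have h2 := hdiag y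
  have h3 := hdiag y'
  have e1 : ∀ v : A, B v (rowv (y + y') v) (rowv (y + y') v) =
      B v (rowv y v) (rowv y v) + B v (rowv y' v) (rowv y' v) +
        2 * B v (rowv y v) (rowv y' v) := by
    intro v
    rw [rowv_add, map_add, map_add, LinearMap.add_apply, LinearMap.add_apply,
      hBs v (rowv y' v) (rowv y v)]
    ring
  have e2 : L (fun p : A × A => (rowv (y + y') p.1 - rowv (y + y') p.2) ^ 2) =
      L (fun p : A × A => (rowv y p.1 - rowv y p.2) ^ 2) +
      L (fun p : A × A => (rowv y' p.1 - rowv y' p.2) ^ 2) +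
      2 * L (fun p : A × A => (rowv y p.1 - rowv y p.2) * (rowv y' p.1 - rowv y' p.2)) := by
    rw [two_mul, ← map_add, ← map_add, ← map_add]
    congr 1
    funext p
    simp only [Pi.add_apply, rowv_add]
    ring
  rw [Finset.sum_congr rfl fun v _ => e1 v, Finset.sum_add_distrib, Finset.sum_add_distrib,
    ← Finset.mul_sum, e2] at h1
  push_cast at h1
  linarith only [h2, h3, h1]

end Vale.Agent.P058
end
end

section

section

/-!
Finite spherical sets with algebraic distances have a signed balanced profile.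
-/

namespace Vale.Agent.P058

open Finset Matrix

/-- General form of the algebraic criterion. -/
theorem signed_of_rows {n : ℕ} {A : Set (E n)} (hA : A.Finite) {κ : Type*} [Fintype κ]
    (y : κ → E n × ℝ) (H : κ → κ → ℝ) (g : E n × ℝ)
    (hy : ∀ v ∈ A, ∀ j, IsAlgebraic ℚ (rowv (y j) v)) (hH : ∀ j k, IsAlgebraic ℚ (H j k))
    (hD : ∀ p ∈ A, ∀ q ∈ A, dist p q ^ 2 = ∑ j, ∑ k, H j k *
      ((rowv (y j) p - rowv (y j) q) * (rowv (y k) p - rowv (y k) q)))
    (hg : ∀ v ∈ A, ∑ j, ∑ k, H j k * (rowv (y j) v * rowv (y k) v) = rowv g v) :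
    HasSignedProfile A := by
  classical
  have : Fintype A := hA.fintype
  by_contra hno
  obtain ⟨B, L, hL, hBL⟩ := exists_quad_cert hno
  obtain ⟨ι, _, a, b, hab, hbal⟩ := exists_idem
    ((Set.range fun p : A × κ => rowv (y p.2) (p.1 : E n)) ∪
      Set.range fun p : κ × κ => H p.1 p.2)
    ((Set.finite_range _).union (Set.finite_range _)) (by
      rintro _ (⟨p, rfl⟩ | ⟨p, rfl⟩)
      · exact hy p.1 p.1.2 p.2
      · exact hH _ _)
  let T : A → ℝ → ℝ → ℝ := fun v s r => ∑ j, B v (a j * s) (b j * r)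
  have hT : ∀ y y' : E n × ℝ, ∑ v : A, T v (rowv y v) (rowv y' v) =
      -(L (fun p : A × A => (rowv y p.1 - rowv y p.2) * (rowv y' p.1 - rowv y' p.2)) : ℝ) := by
    intro y y'
    have h1 : ∀ j, ∑ v : A, B v (a j * rowv y v) (b j * rowv y' v) =
        -(L (fun p : A × A => (a j * b j) *
          ((rowv y p.1 - rowv y p.2) * (rowv y' p.1 - rowv y' p.2))) : ℝ) := by
      intro j
      have h2 := hBL (a j • y) (b j • y')
      simp only [rowv_smul] at h2
      have e1 : (fun p : A × A => (a j * rowv y p.1 - a j * rowv y p.2) *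
          (b j * rowv y' p.1 - b j * rowv y' p.2)) = fun p : A × A => (a j * b j) *
          ((rowv y p.1 - rowv y p.2) * (rowv y' p.1 - rowv y' p.2)) := by
        funext p
        ring
      rw [e1] at h2
      linarith only [h2]
    simp only [T]
    rw [Finset.sum_comm, Finset.sum_congr rfl fun j _ => h1 j, Finset.sum_neg_distrib,
      ← Rat.cast_sum, ← map_sum]
    congr 3
    funext p
    rw [Finset.sum_apply, ← Finset.sum_mul, hab, one_mul]
  have hTy : ∀ (v w : A) (j : κ) (s r : ℝ),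
      T v (rowv (y j) (w : E n) * s) r = T v s (rowv (y j) (w : E n) * r) := by
    intro v w j s r
    exact hbal (B v) _ (Or.inl ⟨(w, j), rfl⟩) s r
  have hTH : ∀ (v : A) (j k : κ) (s r : ℝ), T v (H j k * s) r = T v s (H j k * r) := by
    intro v j k s r
    exact hbal (B v) _ (Or.inr ⟨(j, k), rfl⟩) s r
  have hTadd : ∀ (v : A) (s : ℝ) (f : κ → ℝ), ∑ i, T v s (f i) = T v s (∑ i, f i) := by
    intro v s f
    simp only [T]
    rw [Finset.sum_comm]
    refine Finset.sum_congr rfl fun j _ => ?_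
    rw [← map_sum, ← Finset.mul_sum]
  have hD0 : (L (fun p => dist (p.1 : E n) p.2 ^ 2) : ℝ) = 0 := by
    have e1 : (fun p : A × A => dist (p.1 : E n) p.2 ^ 2) = ∑ j : κ, ∑ k : κ, fun p : A × A =>
        (rowv (H j k • y j) (p.1 : E n) - rowv (H j k • y j) (p.2 : E n)) *
        (rowv (y k) (p.1 : E n) - rowv (y k) (p.2 : E n)) := by
      funext p
      rw [Finset.sum_apply, hD p.1 p.1.2 p.2 p.2.2]
      refine Finset.sum_congr rfl fun j _ => ?_
      rw [Finset.sum_apply]
      refine Finset.sum_congr rfl fun k _ => ?_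
      rw [rowv_smul, rowv_smul]
      ring
    have e2 : ∀ j k : κ, (L (fun p : A × A =>
        (rowv (H j k • y j) (p.1 : E n) - rowv (H j k • y j) (p.2 : E n)) *
        (rowv (y k) (p.1 : E n) - rowv (y k) (p.2 : E n))) : ℝ) =
        -∑ v : A, T v 1 (H j k * (rowv (y j) v * rowv (y k) v)) := by
      intro j k
      have h1 := hT (H j k • y j) (y k)
      rw [← neg_eq_iff_eq_neg.2 h1]
      congr 1
      refine Finset.sum_congr rfl fun v _ => ?_
      rw [rowv_smul, hTH]
      have h2 := hTy v v j 1 (H j k * rowv (y k) v)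
      rw [mul_one] at h2
      rw [h2]
      congr 1
      ring
    rw [e1]
    simp only [map_sum, Rat.cast_sum]
    rw [Finset.sum_congr rfl fun j _ => Finset.sum_congr rfl fun k _ => e2 j k]
    simp only [Finset.sum_neg_distrib]
    rw [neg_eq_zero, Finset.sum_congr rfl fun j _ => Finset.sum_comm, Finset.sum_comm]
    have h3 := hT ((0 : E n), (1 : ℝ)) g
    have e4 : (fun p : A × A => (rowv ((0 : E n), (1 : ℝ)) (p.1 : E n) -
        rowv ((0 : E n), (1 : ℝ)) (p.2 : E n)) *
        (rowv g (p.1 : E n) - rowv g (p.2 : E n))) = 0 := by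
      funext p
      simp only [rowv, inner_zero_left, zero_add, sub_self, add_sub_add_right_eq_sub, zero_mul, Pi.zero_apply]
    rw [e4, map_zero, Rat.cast_zero, neg_zero] at h3
    rw [← h3]
    refine Finset.sum_congr rfl fun v _ => ?_
    rw [Finset.sum_congr rfl fun j _ => hTadd v 1 _, hTadd]
    have e5 : rowv ((0 : E n), (1 : ℝ)) (v : E n) = 1 := by simp [rowv]
    rw [e5, hg v v.2]
  exact hL (by exact_mod_cast hD0)

/-- The inverse of a nonsingular matrix with algebraic entries has algebraic entries. -/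
lemma exists_inv_algebraic {κ : Type*} [Fintype κ] [DecidableEq κ] (G : Matrix κ κ ℝ)
    (hG : ∀ j k, IsAlgebraic ℚ (G j k)) (hdet : G.det ≠ 0) :
    ∃ H : Matrix κ κ ℝ, (∀ j k, IsAlgebraic ℚ (H j k)) ∧ H * G = 1 := by
  let K := algebraicClosure ℚ ℝ
  let G' : Matrix κ κ K := fun j k => ⟨G j k, mem_algebraicClosure_iff.2 (hG j k)⟩
  have h1 : G'.map (algebraMap K ℝ) = G := rfl
  have h2 : G'.det ≠ 0 := by
    intro h
    apply hdet
    rw [← h1, ← RingHom.mapMatrix_apply, ← RingHom.map_det, h, map_zero]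
  refine ⟨(G'⁻¹).map (algebraMap K ℝ), fun j k => ?_, ?_⟩
  · exact mem_algebraicClosure_iff.1 (G'⁻¹ j k).2
  · rw [← h1, ← Matrix.map_mul, Matrix.nonsing_inv_mul _ (isUnit_iff_ne_zero.2 h2)]
    exact Matrix.map_one _ (map_zero _) (map_one _)

/-- **Finite spherical sets with algebraic distances have a signed balanced profile.** -/
theorem hasSignedProfile_of_algebraic_dist {n : ℕ} {A : Set (E n)} (hA : A.Finite) (z : E n)
    (ρ : ℝ) (hS : ∀ x ∈ A, dist x z = ρ) (halg : ∀ x ∈ A, ∀ y ∈ A, IsAlgebraic ℚ (dist x y)) :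
    HasSignedProfile A := by
  classical
  rcases A.eq_empty_or_nonempty with rfl | ⟨x₀, hx₀⟩
  · exact ⟨0, Fin.elim0, Fin.elim0, Fin.elim0, by simp only [Set.mem_empty_iff_false, univ_eq_empty, sum_empty, implies_true], by simp⟩
  -- a basis of the difference space
  let D : Set (E n) := (fun x => x - x₀) '' A
  obtain ⟨b, hbD, hspan, hli⟩ := exists_linearIndependent ℝ D
  have hbfin : Finite b := (hA.image _).subset hbD
  have : Fintype b := Fintype.ofFinite b
  have halg2 : ∀ x ∈ A, ∀ y ∈ A, IsAlgebraic ℚ (inner ℝ (x - x₀) (y - x₀) : ℝ) := by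
    intro x hx y hy
    have e1 : (inner ℝ (x - x₀) (y - x₀) : ℝ) =
        (2 : ℚ)⁻¹ • (dist x x₀ ^ 2 + dist y x₀ ^ 2 - dist x y ^ 2) := by
      have e2 : x - y = (x - x₀) - (y - x₀) := by abel
      have e3 : ∀ u w : E n, (inner ℝ u w : ℝ) =
          2⁻¹ * (inner ℝ u u + inner ℝ w w - inner ℝ (u - w) (u - w)) := by
        intro u w
        rw [inner_sub_left, inner_sub_right, inner_sub_right, real_inner_comm u w]
        ring
      rw [dist_eq_norm, dist_eq_norm, dist_eq_norm, e2, ← real_inner_self_eq_norm_sq,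
        ← real_inner_self_eq_norm_sq, ← real_inner_self_eq_norm_sq, Rat.smul_def,
        e3 (x - x₀) (y - x₀)]
      push_cast
      ring
    rw [e1]
    exact IsAlgebraic.smul ((((halg x hx x₀ hx₀).pow 2).add ((halg y hy x₀ hx₀).pow 2)).sub
      ((halg x hx y hy).pow 2)) _
  have hbalg : ∀ (j : b) (x : E n), x ∈ A → IsAlgebraic ℚ (inner ℝ (j : E n) (x - x₀) : ℝ) := by
    intro j x hx
    obtain ⟨w, hw, hw2⟩ := hbD j.2
    rw [← hw2]
    exact halg2 w hw x hx
  let G : Matrix b b ℝ := gram ℝ (fun j : b => (j : E n))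
  have hGalg : ∀ j k, IsAlgebraic ℚ (G j k) := by
    intro j k
    obtain ⟨w, hw, hw2⟩ := hbD k.2
    have := hbalg j w hw
    simp only [G, gram_apply]
    rw [← hw2]
    exact this
  obtain ⟨H, hH, hHG⟩ := exists_inv_algebraic G hGalg
    (det_gram_ne_zero_iff_linearIndependent.2 hli)
  -- the norm in terms of the basis
  have hnorm : ∀ u ∈ Submodule.span ℝ D, ∑ j : b, ∑ k : b, H j k *
      (inner ℝ (j : E n) u * inner ℝ (k : E n) u) = inner ℝ u u := by
    intro u hu
    rw [← hspan] at hu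
    obtain ⟨c, rfl⟩ : ∃ c : b → ℝ, ∑ j, c j • (j : E n) = u := by
      have := (Submodule.mem_span_range_iff_exists_fun (v := fun j : b => (j : E n)) ℝ).1
        (by simpa using hu)
      exact this
    have e1 : ∀ j : b, (inner ℝ (j : E n) (∑ k : b, c k • (k : E n)) : ℝ) = (G *ᵥ c) j := by
      intro j
      rw [inner_sum, mulVec, dotProduct]
      refine Finset.sum_congr rfl fun k _ => ?_
      rw [real_inner_smul_right, mul_comm]
      rfl
    simp only [e1]
    have e2 : ∑ j : b, ∑ k : b, H j k * ((G *ᵥ c) j * (G *ᵥ c) k) =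
        (G *ᵥ c) ⬝ᵥ (H *ᵥ (G *ᵥ c)) := by
      rw [dotProduct]
      refine Finset.sum_congr rfl fun j _ => ?_
      rw [show (H *ᵥ (G *ᵥ c)) j = ∑ k, H j k * (G *ᵥ c) k from rfl, Finset.mul_sum]
      refine Finset.sum_congr rfl fun k _ => ?_
      ring
    rw [e2, mulVec_mulVec, hHG, one_mulVec, sum_inner, dotProduct]
    refine Finset.sum_congr rfl fun j _ => ?_
    rw [real_inner_smul_left, e1, mul_comm]
  have hsub : ∀ x ∈ A, x - x₀ ∈ Submodule.span ℝ D := fun x hx =>
    Submodule.subset_span ⟨x, hx, rfl⟩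
  have hrow : ∀ (j : b) (v : E n), rowv ((j : E n), -inner ℝ (j : E n) x₀) v =
      inner ℝ (j : E n) (v - x₀) := by
    intro j v
    rw [rowv, inner_sub_right]
    ring
  refine signed_of_rows hA (fun j : b => ((j : E n), -inner ℝ (j : E n) x₀)) H
    ((2 : ℝ) • (z - x₀), ρ ^ 2 - inner ℝ z z + inner ℝ x₀ x₀) ?_ hH ?_ ?_
  · intro v hv j
    rw [hrow]
    exact hbalg j v hv
  · intro p hp q hq
    have e1 : ∀ j : b, rowv ((j : E n), -inner ℝ (j : E n) x₀) p -
        rowv ((j : E n), -inner ℝ (j : E n) x₀) q = inner ℝ (j : E n) (p - q) := by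
      intro j
      rw [hrow, hrow, ← inner_sub_right]
      congr 1
      abel
    simp only [e1]
    have hpq : p - q ∈ Submodule.span ℝ D := by
      have : p - q = (p - x₀) - (q - x₀) := by abel
      rw [this]
      exact Submodule.sub_mem _ (hsub p hp) (hsub q hq)
    rw [hnorm _ hpq, dist_eq_norm, real_inner_self_eq_norm_sq]
  · intro v hv
    simp only [hrow]
    rw [hnorm _ (hsub v hv), rowv, real_inner_smul_left]
    have h4 : dist v z ^ 2 = ρ ^ 2 := by rw [hS v hv]
    rw [← h4, dist_eq_norm, ← real_inner_self_eq_norm_sq]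
    simp only [inner_sub_left, inner_sub_right]
    rw [real_inner_comm v z, real_inner_comm v x₀]
    ring

end Vale.Agent.P058
end
end

section

section

/-!
Finite spherical sets which, after removal of any point, are covered by two hyperplanes missing
the point, have a signed balanced profile. This contains all concyclic sets with at most five
points.
-/

namespace Vale.Agent.P058

open Finset

/-- Spherical sets in which every point is separated from the others by two hyperplanes. -/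
theorem signed_of_two_planes {n : ℕ} {A : Set (E n)} (hA : A.Finite) (z : E n) (ρ : ℝ)
    (hS : ∀ x ∈ A, dist x z = ρ)
    (hsep : ∀ v ∈ A, ∃ u w : E n × ℝ, rowv u v ≠ 0 ∧ rowv w v ≠ 0 ∧
      ∀ x ∈ A, x ≠ v → rowv u x = 0 ∨ rowv w x = 0) :
    HasSignedProfile A := by
  classical
  have : Fintype A := hA.fintype
  by_contra hno
  obtain ⟨B, L, hL, hBL⟩ := exists_quad_cert hno
  -- the bilinear forms are balanced
  have hbal : ∀ (v : A), ∃ l : ℝ → ℝ, ∀ s t : ℝ, B v s t = l (s * t) := by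
    intro v
    obtain ⟨u, w, hu, hw, huw⟩ := hsep v v.2
    refine ⟨fun r => -(L (fun p : A × A => (r / (rowv u v * rowv w v)) *
      ((rowv u p.1 - rowv u p.2) * (rowv w p.1 - rowv w p.2))) : ℝ), fun s t => ?_⟩
    have h1 := hBL ((s / rowv u v) • u) ((t / rowv w v) • w)
    simp only [rowv_smul] at h1
    rw [Finset.sum_eq_single v, div_mul_cancel₀ _ hu, div_mul_cancel₀ _ hw] at h1
    · have e1 : (fun p : A × A => (s / rowv u v * rowv u p.1 - s / rowv u v * rowv u p.2) *
          (t / rowv w v * rowv w p.1 - t / rowv w v * rowv w p.2)) = fun p : A × A =>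
          (s * t / (rowv u v * rowv w v)) *
          ((rowv u p.1 - rowv u p.2) * (rowv w p.1 - rowv w p.2)) := by
        funext p
        (clear * - hw hu; field_simp)
      rw [e1] at h1
      show B v s t = -_
      linarith only [h1]
    · intro x _ hx
      rcases huw x x.2 (fun h => hx (Subtype.ext h)) with h | h
      · rw [h, mul_zero, map_zero, LinearMap.zero_apply]
      · rw [h, mul_zero, map_zero]
    · intro h
      exact absurd (Finset.mem_univ v) h
  choose l hl using hbal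
  have hD : (L (fun p => dist (p.1 : E n) p.2 ^ 2) : ℝ) = 0 := by
    have e1 : (fun p : A × A => dist (p.1 : E n) p.2 ^ 2) = ∑ i : Fin n, fun p : A × A =>
        (rowv (EuclideanSpace.single i (1 : ℝ), (0 : ℝ)) (p.1 : E n) -
          rowv (EuclideanSpace.single i (1 : ℝ), (0 : ℝ)) (p.2 : E n)) *
        (rowv (EuclideanSpace.single i (1 : ℝ), (0 : ℝ)) (p.1 : E n) -
          rowv (EuclideanSpace.single i (1 : ℝ), (0 : ℝ)) (p.2 : E n)) := by
      funext p
      rw [Finset.sum_apply, EuclideanSpace.dist_eq, Real.sq_sqrt (by (clear * -; positivity))]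
      refine Finset.sum_congr rfl fun i _ => ?_
      rw [Real.dist_eq, sq_abs, sq, rowv_single, rowv_single]
    have e2 : ∀ i : Fin n, (L (fun p : A × A =>
        (rowv (EuclideanSpace.single i (1 : ℝ), (0 : ℝ)) (p.1 : E n) -
          rowv (EuclideanSpace.single i (1 : ℝ), (0 : ℝ)) (p.2 : E n)) *
        (rowv (EuclideanSpace.single i (1 : ℝ), (0 : ℝ)) (p.1 : E n) -
          rowv (EuclideanSpace.single i (1 : ℝ), (0 : ℝ)) (p.2 : E n))) : ℝ) =
        -∑ v : A, B v 1 ((v : E n) i * (v : E n) i) := by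
      intro i
      have h1 := hBL (EuclideanSpace.single i (1 : ℝ), (0 : ℝ)) (EuclideanSpace.single i 1, 0)
      have e6 : ∑ v : A, B v (rowv (EuclideanSpace.single i (1 : ℝ), (0 : ℝ)) (v : E n))
          (rowv (EuclideanSpace.single i (1 : ℝ), (0 : ℝ)) (v : E n)) =
          ∑ v : A, B v 1 ((v : E n) i * (v : E n) i) := by
        refine Finset.sum_congr rfl fun v _ => ?_
        rw [rowv_single, hl, hl, one_mul]
      rw [e6] at h1
      linarith only [h1]
    rw [e1, map_sum, Rat.cast_sum, Finset.sum_congr rfl fun i _ => e2 i, Finset.sum_neg_distrib,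
      Finset.sum_comm, neg_eq_zero]
    have h3 := hBL ((0 : E n), (1 : ℝ)) ((2 : ℝ) • z, ρ ^ 2 - inner ℝ z z)
    have e4 : (fun p : A × A => (rowv ((0 : E n), (1 : ℝ)) (p.1 : E n) -
        rowv ((0 : E n), (1 : ℝ)) (p.2 : E n)) *
        (rowv ((2 : ℝ) • z, ρ ^ 2 - inner ℝ z z) (p.1 : E n) -
          rowv ((2 : ℝ) • z, ρ ^ 2 - inner ℝ z z) (p.2 : E n))) = 0 := by
      funext p
      simp only [rowv, inner_zero_left, zero_add, sub_self, inner_self_eq_norm_sq_to_K, Real.ringHom_apply, add_sub_add_right_eq_sub, zero_mul, Pi.zero_apply]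
    rw [e4, map_zero, Rat.cast_zero, add_zero] at h3
    rw [← h3]
    refine Finset.sum_congr rfl fun v _ => ?_
    rw [← map_sum]
    have e5 : rowv ((0 : E n), (1 : ℝ)) (v : E n) = 1 := by simp [rowv]
    rw [e5]
    congr 1
    have h4 : dist (v : E n) z ^ 2 = ρ ^ 2 := by rw [hS v v.2]
    have h5 : ∑ i, (v : E n) i * (v : E n) i = inner ℝ (v : E n) (v : E n) := by
      rw [PiLp.inner_apply]
      refine Finset.sum_congr rfl fun i _ => ?_
      simp only [inner_self_eq_norm_sq_to_K, Real.norm_eq_abs, Real.ringHom_apply, sq, abs_mul_abs_self]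
    rw [h5, rowv, real_inner_smul_left, ← h4, dist_eq_norm, ← real_inner_self_eq_norm_sq,
      inner_sub_left, inner_sub_right, inner_sub_right, real_inner_comm z (v : E n)]
    ring
  exact hL (by exact_mod_cast hD)

/-- the line through two points of the plane -/
noncomputable def lineRow (p q : E 2) : E 2 × ℝ :=
  (!₂[p 1 - q 1, q 0 - p 0], -((p 1 - q 1) * p 0 + (q 0 - p 0) * p 1))

lemma rowv_lineRow (p q x : E 2) :
    rowv (lineRow p q) x = (p 1 - q 1) * (x 0 - p 0) + (q 0 - p 0) * (x 1 - p 1) := by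
  rw [rowv, lineRow, PiLp.inner_apply, Fin.sum_univ_two]
  simp only [Fin.isValue, Matrix.cons_val_zero, RCLike.inner_apply, Real.ringHom_apply, Matrix.cons_val_one, Matrix.cons_val_fin_one, neg_add_rev]
  ring

/-- two points of a circle are on a line missing a third one -/
lemma exists_row (z : E 2) (ρ : ℝ) (v p q : E 2) (hv : dist v z = ρ) (hp : dist p z = ρ)
    (hq : dist q z = ρ) (hpv : p ≠ v) (hqv : q ≠ v) :
    ∃ u : E 2 × ℝ, rowv u v ≠ 0 ∧ rowv u p = 0 ∧ rowv u q = 0 := by
  by_cases hpq : p = q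
  · subst hpq
    refine ⟨(v - p, -inner ℝ (v - p) p), ?_, ?_, ?_⟩
    · rw [rowv]
      have : (inner ℝ (v - p) v : ℝ) + -inner ℝ (v - p) p = inner ℝ (v - p) (v - p) := by
        rw [inner_sub_right (v - p) v p]; ring
      rw [this]
      exact inner_self_ne_zero.2 (sub_ne_zero.2 (Ne.symm hpv))
    · rw [rowv]; ring
    · rw [rowv]; ring
  · refine ⟨lineRow p q, ?_, ?_, ?_⟩
    · rw [rowv_lineRow]
      intro h
      have key : ∀ x : E 2, dist x z = ρ → (x 0 - z 0) ^ 2 + (x 1 - z 1) ^ 2 = ρ ^ 2 := by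
        intro x hx
        rw [← hx, EuclideanSpace.dist_eq, Real.sq_sqrt (by (clear * -; positivity)), Fin.sum_univ_two,
          Real.dist_eq, Real.dist_eq, sq_abs, sq_abs]
      have kv := key v hv
      have kp := key p hp
      have kq := key q hq
      -- v = p + s (q - p)
      have hs : ∃ s : ℝ, v 0 - p 0 = s * (q 0 - p 0) ∧ v 1 - p 1 = s * (q 1 - p 1) := by
        by_cases h0 : q 0 - p 0 = 0
        · have h1 : q 1 - p 1 ≠ 0 := by
            intro h1
            apply hpq
            ext i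
            fin_cases i
            · show p 0 = q 0
              linarith only [h0]
            · show p 1 = q 1
              linarith only [h1]
          refine ⟨(v 1 - p 1) / (q 1 - p 1), ?_, (div_mul_cancel₀ _ h1).symm⟩
          rw [h0, mul_zero]
          rw [h0, zero_mul, add_zero] at h
          rcases mul_eq_zero.1 h with h2 | h2
          · exact absurd (by linarith only [h2]) h1
          · exact h2
        · refine ⟨(v 0 - p 0) / (q 0 - p 0), (div_mul_cancel₀ _ h0).symm, ?_⟩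
          field_simp
          linarith only [h]
      obtain ⟨s, hs0, hs1⟩ := hs
      have hN : 0 < (q 0 - p 0) ^ 2 + (q 1 - p 1) ^ 2 := by
        by_contra hN
        push Not at hN
        have a0 := sq_nonneg (q 0 - p 0)
        have a1 := sq_nonneg (q 1 - p 1)
        have b0 : (q 0 - p 0) ^ 2 = 0 := by linarith only [a0, hN, a1]
        have b1 : (q 1 - p 1) ^ 2 = 0 := by linarith only [a1, hN, a0]
        apply hpq
        ext i
        fin_cases i
        · show p 0 = q 0
          have := pow_eq_zero_iff (two_ne_zero) |>.1 b0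
          linarith only [this]
        · show p 1 = q 1
          have := pow_eq_zero_iff (two_ne_zero) |>.1 b1
          linarith only [this]
      have e0 : v 0 = p 0 + s * (q 0 - p 0) := by linarith only [hs0]
      have e1 : v 1 = p 1 + s * (q 1 - p 1) := by linarith only [hs1]
      have hfac : s * (s - 1) * ((q 0 - p 0) ^ 2 + (q 1 - p 1) ^ 2) = 0 := by
        rw [e0, e1] at kv
        linear_combination kv - (1 - s) * kp - s * kq
      rcases mul_eq_zero.1 hfac with h2 | h2
      · rcases mul_eq_zero.1 h2 with h3 | h3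
        · apply hpv
          ext i
          fin_cases i
          · show p 0 = v 0
            rw [e0, h3]; ring
          · show p 1 = v 1
            rw [e1, h3]; ring
        · have h4 : s = 1 := by linarith only [h3]
          apply hqv
          ext i
          fin_cases i
          · show q 0 = v 0
            rw [e0, h4]; ring
          · show q 1 = v 1
            rw [e1, h4]; ring
      · exact absurd h2 hN.ne'
    · rw [rowv_lineRow]; ring
    · rw [rowv_lineRow]; ring

/-- **Concyclic sets with at most five points have a signed balanced profile.** -/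
theorem signed_of_concyclic {A : Set (E 2)} (hA : A.Finite) (hc : A.ncard ≤ 5) (z : E 2) (ρ : ℝ)
    (hS : ∀ x ∈ A, dist x z = ρ) : HasSignedProfile A := by
  classical
  refine signed_of_two_planes hA z ρ hS fun v hv => ?_
  rcases (A \ {v}).eq_empty_or_nonempty with he | ⟨y, hy⟩
  · refine ⟨(0, 1), (0, 1), by simp [rowv], by simp [rowv], fun x hx hxv => ?_⟩
    have : x ∈ A \ {v} := ⟨hx, hxv⟩
    rw [he] at this
    exact absurd this (Set.notMem_empty x)
  · have hcard : (A \ {v}).ncard ≤ 4 := by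
      rw [Set.ncard_sdiff_singleton_of_mem hv]
      omega
    have hfin : (A \ {v}).Finite := hA.subset Set.sdiff_subset
    obtain ⟨f, hf1, hf2⟩ : ∃ f : Fin 4 → E 2, (∀ i, f i ∈ A \ {v}) ∧
        ∀ x ∈ A \ {v}, ∃ i, f i = x := by
      have : Fintype ↥(A \ {v}) := hfin.fintype
      have h1 : Fintype.card ↥(A \ {v}) ≤ Fintype.card (Fin 4) := by
        rw [Fintype.card_fin, ← Nat.card_eq_fintype_card]
        exact hcard
      have : Nonempty ↥(A \ {v}) := ⟨⟨y, hy⟩⟩
      obtain ⟨g⟩ := Function.Embedding.nonempty_of_card_le h1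
      refine ⟨fun i => (Function.invFun g i).1, fun i => (Function.invFun g i).2,
        fun x hx => ⟨g ⟨x, hx⟩, ?_⟩⟩
      show (Function.invFun g (g ⟨x, hx⟩)).1 = x
      rw [Function.leftInverse_invFun g.injective]
    obtain ⟨u, hu, hu0, hu1⟩ := exists_row z ρ v (f 0) (f 1) (hS v hv) (hS _ (hf1 0).1)
      (hS _ (hf1 1).1) (hf1 0).2 (hf1 1).2
    obtain ⟨w, hw, hw0, hw1⟩ := exists_row z ρ v (f 2) (f 3) (hS v hv) (hS _ (hf1 2).1)
      (hS _ (hf1 3).1) (hf1 2).2 (hf1 3).2
    refine ⟨u, w, hu, hw, fun x hx hxv => ?_⟩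
    obtain ⟨i, rfl⟩ := hf2 x ⟨hx, hxv⟩
    fin_cases i
    · exact Or.inl hu0
    · exact Or.inl hu1
    · exact Or.inr hw0
    · exact Or.inr hw1

end Vale.Agent.P058
end
end

section

section

/-!
The geometric part of the proof that finite subtransitive sets are Ramsey: a monochromatic family
of words over `X` with `K` variable letters gives, after scaling, a monochromatic congruent copy.
-/

namespace Vale.Agent.P058.Sub

section words

variable {n : ℕ} {X : Set (EuclideanSpace ℝ (Fin n))} {G : Type*} [Group G] [MulAction G X]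

lemma length_wev (x : X) (W : List (X ⊕ G)) : (wev x W).length = W.length := by
  simp [wev]

/-- the point of `ℝ^(m n + 1)` given by the first `m` letters of a word, scaled by `a` -/
noncomputable def pt (a : ℝ) (m : ℕ) (s : List X) : EuclideanSpace ℝ (Fin (m * n + 1)) :=
  WithLp.toLp 2 fun j =>
    Option.elim
      ((Fintype.equivFinOfCardEq (α := Option (Fin m × Fin n)) (n := m * n + 1)
        (by simp)).symm j) 0
      fun q => a * ((s.map (Subtype.val : X → EuclideanSpace ℝ (Fin n))).getD q.1 0) q.2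

lemma dist_pt_sq (a : ℝ) (m : ℕ) (s t : List X) :
    dist (pt a m s) (pt a m t) ^ 2 = a ^ 2 * ∑ i : Fin m,
      dist ((s.map (Subtype.val : X → EuclideanSpace ℝ (Fin n))).getD i 0)
        ((t.map (Subtype.val : X → EuclideanSpace ℝ (Fin n))).getD i 0) ^ 2 := by
  rw [EuclideanSpace.dist_sq_eq]
  simp only [pt]
  have := (Fintype.equivFinOfCardEq (α := Option (Fin m × Fin n)) (n := m * n + 1)
        (by simp only [Fintype.card_option, Fintype.card_prod, Fintype.card_fin, Nat.add_left_cancel_iff])).symm.sum_comp (fun o : Option (Fin m × Fin n) =>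
      dist (Option.elim o 0
        fun q => a * ((s.map (Subtype.val : X → EuclideanSpace ℝ (Fin n))).getD q.1 0) q.2)
        (Option.elim o 0
        fun q => a * ((t.map (Subtype.val : X → EuclideanSpace ℝ (Fin n))).getD q.1 0) q.2) ^ 2)
  rw [this, Fintype.sum_option]
  simp only [Option.elim_none, dist_self, Option.elim_some]
  rw [Fintype.sum_prod_type, Finset.mul_sum]
  simp only [ne_eq, OfNat.ofNat_ne_zero, not_false_eq_true, zero_pow, zero_add]
  refine Finset.sum_congr rfl fun i _ => ?_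
  rw [EuclideanSpace.dist_sq_eq, Finset.mul_sum]
  refine Finset.sum_congr rfl fun j _ => ?_
  rw [Real.dist_eq, Real.dist_eq, sq_abs, sq_abs]
  ring

lemma sum_wev (hG : ∀ (g : G) (x y : X), dist (g • x) (g • y) = dist x y) (x y : X)
    (W : List (X ⊕ G)) :
    ∑ i : Fin W.length,
      dist (((wev x W).map (Subtype.val : X → EuclideanSpace ℝ (Fin n))).getD i 0)
        (((wev y W).map (Subtype.val : X → EuclideanSpace ℝ (Fin n))).getD i 0) ^ 2
      = (cnt W : ℝ) * dist x y ^ 2 := by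
  induction W with
  | nil => simp only [List.length_nil, Finset.univ_eq_empty, List.map_subtype, List.map_id_fun', id_eq, List.getD_eq_getElem?_getD, List.getElem?_unattach, Option.map_subtype, Option.map_id_fun', Finset.sum_empty, cnt, List.countP_nil, CharP.cast_eq_zero, zero_mul]
  | cons w W ih =>
    have e := Fin.sum_univ_succ (n := W.length) (fun i : Fin (W.length + 1) =>
      dist (((wev x (w :: W)).map (Subtype.val : X → EuclideanSpace ℝ (Fin n))).getD i 0)
        (((wev y (w :: W)).map (Subtype.val : X → EuclideanSpace ℝ (Fin n))).getD i 0) ^ 2)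
    have e2 : ∑ i : Fin (w :: W).length,
      dist (((wev x (w :: W)).map (Subtype.val : X → EuclideanSpace ℝ (Fin n))).getD i 0)
        (((wev y (w :: W)).map (Subtype.val : X → EuclideanSpace ℝ (Fin n))).getD i 0) ^ 2 =
      ∑ i : Fin (W.length + 1),
      dist (((wev x (w :: W)).map (Subtype.val : X → EuclideanSpace ℝ (Fin n))).getD i 0)
        (((wev y (w :: W)).map (Subtype.val : X → EuclideanSpace ℝ (Fin n))).getD i 0) ^ 2 := rfl
    rw [e2, e]
    have e3 : ∑ i : Fin W.length,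
      dist (((wev x (w :: W)).map (Subtype.val : X → EuclideanSpace ℝ (Fin n))).getD i.succ 0)
        (((wev y (w :: W)).map (Subtype.val : X → EuclideanSpace ℝ (Fin n))).getD i.succ 0) ^ 2 =
        (cnt W : ℝ) * dist x y ^ 2 := by
      rw [← ih]
      refine Finset.sum_congr rfl fun i _ => ?_
      simp only [wev, List.map_cons, List.map_map, Fin.val_succ, List.getD_eq_getElem?_getD, List.length_cons, List.length_map, Order.lt_add_one_iff, Order.add_one_le_iff, Fin.is_lt, getElem?_pos, List.getElem_cons_succ, List.getElem_map, Function.comp_apply, Option.getD_some]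
    rw [e3]
    rcases w with z | g
    · simp only [wev, List.map_cons, Sum.elim_inl, id_eq, List.map_map, Fin.coe_ofNat_eq_mod, Nat.zero_mod, List.getD_eq_getElem?_getD, List.length_cons, List.length_map, lt_add_iff_pos_left, Order.lt_add_one_iff, zero_le, getElem?_pos, List.getElem_cons_zero, Option.getD_some, dist_self, ne_eq, OfNat.ofNat_ne_zero, not_false_eq_true, zero_pow, cnt, zero_add, Sum.isRight_inl, Bool.false_eq_true, List.countP_cons_of_neg]
    · have := hG g x y
      rw [Subtype.dist_eq, Subtype.dist_eq] at this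
      simp only [wev, List.map_cons, Sum.elim_inr, Fin.val_zero, List.getD_cons_zero, this, cnt,
        List.countP_cons, Sum.isRight_inr, if_true, Subtype.dist_eq]
      push_cast
      ring

theorem isRamsey_of_words {n : ℕ} (X : Set (EuclideanSpace ℝ (Fin n))) (G : Type*) [Group G]
    [MulAction G X] (hG : ∀ (g : G) (x y : X), dist (g • x) (g • y) = dist x y)
    (h : ∀ r : ℕ, ∃ K : ℕ, 1 ≤ K ∧ ∀ c : List X → Fin r, ∃ W : List (X ⊕ G), cnt W = K ∧
      ∃ i : Fin r, ∀ x : X, c (wev x W) = i) : IsRamsey X := by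
  classical
  intro r _
  obtain ⟨K, hK1, hK⟩ := h r
  by_contra hcon
  push Not at hcon
  choose col hcol using hcon
  let a : ℝ := (Real.sqrt K)⁻¹
  have ha : a ^ 2 * K = 1 := by
    have hK0 : (0 : ℝ) < K := by exact_mod_cast hK1
    simp only [a]
    rw [inv_pow, Real.sq_sqrt hK0.le]
    exact inv_mul_cancel₀ hK0.ne'
  obtain ⟨W, hW, i, hi⟩ := hK (fun s =>
    col (s.length * n + 1) (Nat.le_add_left 1 _) (pt a s.length s))
  have key : ∀ (x : X) (m : ℕ), m = (wev x W).length →
      col (m * n + 1) (Nat.le_add_left 1 _) (pt a m (wev x W)) = i := by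
    rintro x m rfl
    exact hi x
  let f : EuclideanSpace ℝ (Fin n) → EuclideanSpace ℝ (Fin (W.length * n + 1)) := fun p =>
    if hp : p ∈ X then pt a W.length (wev ⟨p, hp⟩ W) else 0
  have hf : ∀ p (hp : p ∈ X), f p = pt a W.length (wev ⟨p, hp⟩ W) := fun p hp => by
    simp only [f, dif_pos hp]
  obtain ⟨x, hx, hxi⟩ := hcol (W.length * n + 1) (Nat.le_add_left 1 _) f (by
    intro x hx y hy
    have h1 := dist_pt_sq a W.length (wev (⟨x, hx⟩ : X) W) (wev (⟨y, hy⟩ : X) W)
    rw [sum_wev hG, hW, ← mul_assoc, ha, one_mul] at h1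
    rw [hf x hx, hf y hy]
    exact (pow_left_inj₀ dist_nonneg dist_nonneg two_ne_zero).mp h1) i
  exact hxi (by rw [hf x hx]; exact key ⟨x, hx⟩ _ (length_wev _ _).symm)

end words

/-- `X ⊆ ℝ^n` is transitive: the isometries of `ℝ^n` mapping `X` onto `X` act transitively on
`X`. -/
def IsTransitive {d : ℕ} (X : Set (EuclideanSpace ℝ (Fin d))) : Prop :=
  ∀ x ∈ X, ∀ y ∈ X, ∃ g : EuclideanSpace ℝ (Fin d) ≃ᵢ EuclideanSpace ℝ (Fin d),
    g '' X = X ∧ g x = y

/-- `A` is subtransitive: it is congruent to a subset of a finite transitive set. -/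
def IsSubtransitive {d : ℕ} (A : Set (EuclideanSpace ℝ (Fin d))) : Prop :=
  ∃ (n : ℕ) (X : Set (EuclideanSpace ℝ (Fin n)))
    (f : EuclideanSpace ℝ (Fin d) → EuclideanSpace ℝ (Fin n)),
    X.Finite ∧ IsTransitive X ∧ (∀ x ∈ A, f x ∈ X) ∧ ∀ x ∈ A, ∀ y ∈ A, dist (f x) (f y) = dist x y

/-- distance preserving permutations of a set -/
def distPerm {n : ℕ} (X : Set (EuclideanSpace ℝ (Fin n))) : Subgroup (Equiv.Perm X) where
  carrier := {σ | ∀ x y : X, dist (σ x) (σ y) = dist x y}
  one_mem' := fun _ _ => rfl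
  mul_mem' := fun {a b} ha hb x y => by
    simp only [Equiv.Perm.mul_apply]
    rw [ha, hb]
  inv_mem' := fun {a} ha x y => by
    have := ha (a⁻¹ x) (a⁻¹ y)
    simpa using this.symm

theorem IsTransitive.pretransitive {n : ℕ} {X : Set (EuclideanSpace ℝ (Fin n))}
    (hX : IsTransitive X) : MulAction.IsPretransitive (distPerm X) X := by
  refine ⟨fun x y => ?_⟩
  obtain ⟨g, hg, hxy⟩ := hX x x.2 y y.2
  have hmem : ∀ p : X, g p ∈ X := fun p => by
    have : g p ∈ g '' X := ⟨p, p.2, rfl⟩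
    rwa [hg] at this
  have hmem' : ∀ p : X, g.symm p ∈ X := fun p => by
    have hp : (p : EuclideanSpace ℝ (Fin n)) ∈ g '' X := by rw [hg]; exact p.2
    obtain ⟨q, hq, hqp⟩ := hp
    rw [← hqp, g.symm_apply_apply]
    exact hq
  let σ : Equiv.Perm X :=
    { toFun := fun p => ⟨g p, hmem p⟩
      invFun := fun p => ⟨g.symm p, hmem' p⟩
      left_inv := fun p => Subtype.ext (by simp)
      right_inv := fun p => Subtype.ext (by simp) }
  refine ⟨⟨σ, fun p q => ?_⟩, ?_⟩
  · simp only [Subtype.dist_eq]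
    exact g.dist_eq p q
  · exact Subtype.ext hxy

/-- If every finite nonempty set with a finite transitive group of distance preserving
permutations is Ramsey, then every finite subtransitive set is Ramsey. -/
theorem isRamsey_of_isSubtransitive_of
    (H : ∀ (n : ℕ) (X : Set (EuclideanSpace ℝ (Fin n))) (G : Type) [Group G] [MulAction G X]
      [Finite X] [Finite G] [Nonempty X] [MulAction.IsPretransitive G X], ∀ r : ℕ,
      ∃ K : ℕ, 1 ≤ K ∧ ∀ c : List X → Fin r, ∃ W : List (X ⊕ G), cnt W = K ∧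
        ∃ i : Fin r, ∀ x : X, c (wev x W) = i)
    {d : ℕ} (A : Set (EuclideanSpace ℝ (Fin d))) (hA : IsSubtransitive A) : IsRamsey A := by
  classical
  obtain ⟨n, X, f, hfin, htr, hfA, hdist⟩ := hA
  rcases A.eq_empty_or_nonempty with hAe | ⟨a₀, ha₀⟩
  · intro r hr
    refine ⟨1, le_rfl, fun c => ⟨fun _ => 0, ?_, ⟨0, by omega⟩, ?_⟩⟩ <;>
    · intro x hx
      rw [hAe] at hx
      exact absurd hx (Set.notMem_empty x)
  have hne : Nonempty X := ⟨⟨f a₀, hfA a₀ ha₀⟩⟩
  have hXf : Finite X := hfin.to_subtype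
  have := htr.pretransitive
  have hR : IsRamsey X := isRamsey_of_words X (distPerm X) (fun g x y => g.2 x y)
    (H n X (distPerm X))
  intro r hr
  obtain ⟨D, hD, hc⟩ := hR r hr
  refine ⟨D, hD, fun c => ?_⟩
  obtain ⟨g, hg, i, hi⟩ := hc c
  refine ⟨fun p => g (f p), fun x hx y hy => ?_, i, fun x hx => hi _ (hfA x hx)⟩
  rw [hg _ (hfA x hx) _ (hfA y hy), hdist x hx y hy]

end Vale.Agent.P058.Sub
end
end

section

section

namespace Vale.Agent.P058

/-- Every subtransitive set is Ramsey. -/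
theorem isRamsey_of_isSubtransitive {d : ℕ} (A : Set (EuclideanSpace ℝ (Fin d)))
    (hA : IsSubtransitive A) : IsRamsey A :=
  Sub.isRamsey_of_isSubtransitive_of (fun _ _ _ _ _ _ _ _ _ r =>
    Sub.words_mono (Sub.exists_positive_relation Sub.exists_relation) r) A hA

end Vale.Agent.P058
end
end
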